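import Crest.Agent.R266.Osgood
import Crest.Agent.X261.Fib.Defs
import Crest.Agent.X261.Cov.A
import Crest.Agent.X261.Uen.Sub
import Crest.Agent.R281.Pri2_989

-- ▼ part X261/Fib/SecA
section

/-!
# X261 / FIB, Sec (helper89), part A: a quantitative inverse function theorem

* `sec_of_approx` : a continuous section of a map which approximates an invertible linear map;
* `quant_section` : a holomorphic map has a section of radius `c |minor|²`, uniformly on compacts.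
-/

set_option autoImplicit false

noncomputable section

open Set Metric Filter Topology Matrix
open scoped NNReal

namespace Crest.Agent.X261.Fib.Sec

theorem sec_of_approx {V W : Type*} [NormedAddCommGroup V] [NormedSpace ℂ V] [CompleteSpace V]
    [NormedAddCommGroup W] [NormedSpace ℂ W] {g : V → W} {T : V →L[ℂ] W} {R : W → V} {N s : ℝ}
    (hN : 0 < N) (hs : 0 ≤ s) (hR : ∀ y, ‖R y‖ ≤ N * ‖y‖) (hTR : ∀ y, T (R y) = y)
    (hT : ∀ w, ‖w‖ ≤ N * ‖T w‖)
    (hg : ∀ x ∈ closedBall (0 : V) s, ∀ y ∈ closedBall (0 : V) s,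
      ‖g x - g y - T (x - y)‖ ≤ (2 * N)⁻¹ * ‖x - y‖) :
    ∃ σ : W → V, ContinuousOn σ (closedBall (g 0) ((2 * N)⁻¹ * s)) ∧ σ (g 0) = 0 ∧
      ∀ t ∈ closedBall (g 0) ((2 * N)⁻¹ * s), σ t ∈ closedBall (0 : V) s ∧ g (σ t) = t := by
  classical
  have h1 : ApproximatesLinearOn g T (closedBall 0 s) ⟨(2 * N)⁻¹, by positivity⟩ := hg
  have h2 := h1.surjOn_closedBall_of_nonlinearRightInverse ⟨R, ⟨N, hN.le⟩, hR, hTR⟩ hs Subset.rfl
  have h3 : ((N : ℝ)⁻¹ - (2 * N)⁻¹) = (2 * N)⁻¹ := by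
    field_simp
    ring
  have h4 : ∀ t, ∃ w, t ∈ closedBall (g 0) ((2 * N)⁻¹ * s) →
      w ∈ closedBall (0 : V) s ∧ g w = t := fun t => by
    by_cases h : t ∈ closedBall (g 0) ((2 * N)⁻¹ * s)
    · obtain ⟨w, hw, h5⟩ := h2 (h3 ▸ h :)
      exact ⟨w, fun _ => ⟨hw, h5⟩⟩
    · exact ⟨0, fun h' => absurd h' h⟩
  choose σ hσ using h4
  have h5 : ∀ x ∈ closedBall (0 : V) s, ∀ y ∈ closedBall (0 : V) s,
      ‖x - y‖ ≤ 2 * N * ‖g x - g y‖ := fun x hx y hy => by
    have h6 := hT (x - y)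
    have h7 : ‖T (x - y)‖ ≤ ‖g x - g y‖ + (2 * N)⁻¹ * ‖x - y‖ := by
      have := norm_sub_le (g x - g y) (g x - g y - T (x - y))
      rw [sub_sub_cancel] at this
      linarith [hg x hx y hy]
    have h8 := mul_le_mul_of_nonneg_left h7 hN.le
    have h9 : N * ((2 * N)⁻¹ * ‖x - y‖) = ‖x - y‖ / 2 := by field_simp
    rw [mul_add, h9] at h8
    linarith
  have h0 : g 0 ∈ closedBall (g 0) ((2 * N)⁻¹ * s) := mem_closedBall_self (by positivity)
  refine ⟨σ, (LipschitzOnWith.of_dist_le_mul (K := ⟨2 * N, by positivity⟩)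
    fun t ht t' ht' => ?_).continuousOn, ?_, hσ⟩
  · have := h5 _ (hσ t ht).1 _ (hσ t' ht').1
    rwa [(hσ t ht).2, (hσ t' ht').2, ← dist_eq_norm, ← dist_eq_norm] at this
  · have := h5 _ (hσ _ h0).1 0 (mem_closedBall_self hs)
    rwa [(hσ _ h0).2, sub_self, norm_zero, mul_zero, sub_zero, norm_le_zero_iff] at this

/-- determinants and adjugates of matrices with bounded entries -/
theorem exists_adj_bound (q : ℕ) (M : ℝ) : ∃ C : ℝ, 1 ≤ C ∧ ∀ A : Matrix (Fin q) (Fin q) ℂ,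
    (∀ k l, ‖A k l‖ ≤ M) → ‖A.det‖ ≤ C ∧ ∀ v, ‖A.adjugate *ᵥ v‖ ≤ C * ‖v‖ := by
  have hK : IsCompact (closedBall (0 : Fin q → Fin q → ℂ) (max M 0)) := isCompact_closedBall _ _
  have hc : Continuous fun A : Fin q → Fin q → ℂ => Matrix.of A := continuous_id
  obtain ⟨C₁, h1⟩ := hK.exists_bound_of_continuousOn hc.matrix_det.continuousOn
  obtain ⟨C₂, h2⟩ := hK.exists_bound_of_continuousOn
    (f := fun A : Fin q → Fin q → ℂ => fun k l => (Matrix.of A).adjugate k l)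
    hc.matrix_adjugate.continuousOn
  refine ⟨max 1 (max C₁ (q * C₂)), le_max_left _ _, fun A hA => ?_⟩
  have h3 : (fun k l => A k l) ∈ closedBall (0 : Fin q → Fin q → ℂ) (max M 0) := by
    rw [mem_closedBall_zero_iff, pi_norm_le_iff_of_nonneg (le_max_right _ _)]
    exact fun k => (pi_norm_le_iff_of_nonneg (le_max_right _ _)).2 fun l =>
      (hA k l).trans (le_max_left _ _)
  refine ⟨(h1 _ h3).trans ((le_max_left _ _).trans (le_max_right _ _)), fun v => ?_⟩
  refine (pi_norm_le_iff_of_nonneg (by positivity)).2 fun k => ?_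
  have h4 : ∀ l, ‖A.adjugate k l * v l‖ ≤ C₂ * ‖v‖ := fun l => by
    rw [norm_mul]
    exact mul_le_mul (((norm_le_pi_norm _ l).trans (norm_le_pi_norm _ k)).trans (h2 _ h3))
      (norm_le_pi_norm v l) (norm_nonneg _) ((norm_nonneg _).trans (h2 _ h3))
  calc ‖(A.adjugate *ᵥ v) k‖ ≤ ∑ l, ‖A.adjugate k l * v l‖ :=
        norm_sum_le Finset.univ fun l => A.adjugate k l * v l
    _ ≤ ∑ _l : Fin q, C₂ * ‖v‖ := Finset.sum_le_sum fun l _ => h4 l
    _ = q * C₂ * ‖v‖ := by simp [mul_assoc]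
    _ ≤ _ := mul_le_mul_of_nonneg_right ((le_max_right _ _).trans (le_max_right _ _))
        (norm_nonneg _)

variable {V : Type*} [NormedAddCommGroup V] [NormedSpace ℂ V] {q : ℕ}

/-- the plane spanned by `u` -/
def pl (u : Fin q → V) : (Fin q → ℂ) →L[ℂ] V :=
  ∑ l, (ContinuousLinearMap.proj l : (Fin q → ℂ) →L[ℂ] ℂ).smulRight (u l)

theorem pl_apply (u : Fin q → V) (w : Fin q → ℂ) : pl u w = ∑ l, w l • u l := by
  simp [pl]

theorem norm_pl_le {u : Fin q → V} (hu : ∀ l, ‖u l‖ ≤ 1) (w : Fin q → ℂ) :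
    ‖pl u w‖ ≤ (q + 1) * ‖w‖ := by
  rw [pl_apply]
  calc _ ≤ ∑ l, ‖w l • u l‖ := norm_sum_le _ _
    _ ≤ ∑ _l : Fin q, ‖w‖ := Finset.sum_le_sum fun l _ => by
        rw [norm_smul]
        exact (mul_le_of_le_one_right (norm_nonneg _) (hu l)).trans (norm_le_pi_norm w l)
    _ = q * ‖w‖ := by simp
    _ ≤ _ := mul_le_mul_of_nonneg_right (by linarith) (norm_nonneg _)

/-- the minor of `T` along `u` -/
def mnr (T : V →L[ℂ] (Fin q → ℂ)) (u : Fin q → V) : Matrix (Fin q) (Fin q) ℂ :=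
  Matrix.of fun k l => T (u l) k

theorem mnr_mulVec (T : V →L[ℂ] (Fin q → ℂ)) (u : Fin q → V) (w : Fin q → ℂ) :
    mnr T u *ᵥ w = T (pl u w) := by
  funext k
  simp [pl_apply, mnr, mulVec, dotProduct, mul_comm]

/-- **quantitative inverse function theorem** -/
theorem quant_section [FiniteDimensional ℂ V] {f : V → Fin q → ℂ} {O K : Set V} (hO : IsOpen O)
    (hf : DifferentiableOn ℂ f O) (hK : IsCompact K) (hKO : K ⊆ O) :
    ∃ c : ℝ, 0 < c ∧ ∀ z ∈ K, ∀ u : Fin q → V, (∀ l, ‖u l‖ ≤ 1) →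
      c * ‖(mnr (fderiv ℂ f z) u).det‖ ^ 2 ≤ 1 ∧ ((mnr (fderiv ℂ f z) u).det ≠ 0 →
        ∃ σ : (Fin q → ℂ) → V,
          ContinuousOn σ (closedBall (f z) (c * ‖(mnr (fderiv ℂ f z) u).det‖ ^ 2)) ∧
          σ (f z) = z ∧ ∀ t ∈ closedBall (f z) (c * ‖(mnr (fderiv ℂ f z) u).det‖ ^ 2),
            σ t ∈ O ∧ f (σ t) = t ∧ Function.Surjective (fderiv ℂ f (σ t))) := by
  have : ProperSpace V := FiniteDimensional.proper ℂ V
  have ha := (R266.SCV.analyticOnNhd_of_differentiableOn hO hf).fderiv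
  obtain ⟨δ, hδ, hδO⟩ := hK.exists_cthickening_subset_open hO hKO
  have hK' : IsCompact (cthickening δ K) := hK.cthickening
  obtain ⟨M₁, hM₁⟩ := hK.exists_bound_of_continuousOn (ha.continuousOn.mono hKO)
  obtain ⟨M₂, hM₂⟩ := hK'.exists_bound_of_continuousOn (ha.fderiv.continuousOn.mono hδO)
  obtain ⟨C, hC, hadj⟩ := exists_adj_bound q M₁
  have hC0 : 0 < C := by linarith
  set M := max M₂ 1 with hM
  have hM0 : 0 < M := lt_max_of_lt_right one_pos
  set κ := min (δ / ((q + 1) * C)) (2 * C * M * (q + 1) ^ 2)⁻¹ with hκ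
  have hκ0 : 0 < κ := lt_min (by positivity) (by positivity)
  refine ⟨min (κ / (2 * C)) (C ^ 2)⁻¹, lt_min (by positivity) (by positivity), fun z hz u hu => ?_⟩
  obtain ⟨h1, h2⟩ := hadj (mnr (fderiv ℂ f z) u) fun k l =>
    (norm_le_pi_norm _ k).trans (((fderiv ℂ f z).le_opNorm _).trans
      ((mul_le_of_le_one_right (norm_nonneg _) (hu l)).trans (hM₁ z hz)))
  set d := (mnr (fderiv ℂ f z) u).det with hd
  refine ⟨?_, fun hd0 => ?_⟩
  · calc _ ≤ (C ^ 2)⁻¹ * C ^ 2 := mul_le_mul (min_le_right _ _)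
          (pow_le_pow_left₀ (norm_nonneg _) h1 2) (by positivity) (by positivity)
      _ = 1 := inv_mul_cancel₀ (by positivity)
  have hd1 : 0 < ‖d‖ := norm_pos_iff.2 hd0
  have hmem : ∀ w ∈ closedBall (0 : Fin q → ℂ) (κ * ‖d‖), z + pl u w ∈ closedBall z δ := by
    intro w hw
    rw [mem_closedBall_zero_iff] at hw
    rw [mem_closedBall, dist_eq_norm, add_sub_cancel_left]
    calc _ ≤ (q + 1) * ‖w‖ := norm_pl_le hu w
      _ ≤ (q + 1) * (δ / ((q + 1) * C) * C) := mul_le_mul_of_nonneg_left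
          (hw.trans (mul_le_mul (min_le_left _ _) h1 hd1.le (by positivity))) (by positivity)
      _ = δ := by field_simp
  have hsub : closedBall z δ ⊆ O := (closedBall_subset_cthickening hz δ).trans hδO
  have hder : ∀ w ∈ closedBall (0 : Fin q → ℂ) (κ * ‖d‖), HasFDerivAt (fun w => f (z + pl u w))
      ((fderiv ℂ f (z + pl u w)).comp (pl u)) w := fun w hw =>
    (hf.differentiableAt (hO.mem_nhds (hsub (hmem w hw)))).hasFDerivAt.comp w
      ((pl u).hasFDerivAt.const_add z)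
  have hclose : ∀ w ∈ closedBall (0 : Fin q → ℂ) (κ * ‖d‖),
      ‖(fderiv ℂ f (z + pl u w)).comp (pl u) - (fderiv ℂ f z).comp (pl u)‖ ≤
        (2 * (C / ‖d‖))⁻¹ := by
    intro w hw
    have h3 := (convex_closedBall z δ).norm_image_sub_le_of_norm_fderiv_le (𝕜 := ℂ) (C := M)
      (f := fderiv ℂ f) (fun x hx => (ha x (hsub hx)).differentiableAt)
      (fun x hx => (hM₂ x (closedBall_subset_cthickening hz δ hx)).trans (le_max_left _ _))
      (mem_closedBall_self hδ.le) (hmem w hw)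
    rw [add_sub_cancel_left] at h3
    rw [mem_closedBall_zero_iff] at hw
    rw [← ContinuousLinearMap.sub_comp]
    calc _ ≤ _ := ContinuousLinearMap.opNorm_comp_le _ _
      _ ≤ M * ((q + 1) * ((2 * C * M * (q + 1) ^ 2)⁻¹ * ‖d‖)) * (q + 1) := by
        refine mul_le_mul (h3.trans (mul_le_mul_of_nonneg_left ((norm_pl_le hu w).trans
          (mul_le_mul_of_nonneg_left (hw.trans (mul_le_mul_of_nonneg_right (min_le_right _ _)
            hd1.le)) (by positivity))) hM0.le))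
          ((pl u).opNorm_le_bound (by positivity) (norm_pl_le hu)) (norm_nonneg _) (by positivity)
      _ = _ := by field_simp
  have hT : ∀ w, ‖w‖ ≤ C / ‖d‖ * ‖(fderiv ℂ f z).comp (pl u) w‖ := fun w => by
    have h3 := h2 (mnr (fderiv ℂ f z) u *ᵥ w)
    rw [mulVec_mulVec, adjugate_mul, smul_mulVec, one_mulVec, norm_smul, mnr_mulVec] at h3
    rw [div_mul_eq_mul_div, le_div_iff₀ hd1, mul_comm]
    exact h3
  obtain ⟨σ, h3, h4, h5⟩ := sec_of_approx (g := fun w => f (z + pl u w))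
    (T := (fderiv ℂ f z).comp (pl u)) (R := fun y => d⁻¹ • (mnr (fderiv ℂ f z) u).adjugate *ᵥ y)
    (N := C / ‖d‖) (s := κ * ‖d‖) (by positivity) (by positivity)
    (fun y => by
      rw [norm_smul, norm_inv, div_mul_eq_mul_div, div_eq_inv_mul]
      exact mul_le_mul_of_nonneg_left (h2 y) (by positivity))
    (fun y => by
      rw [ContinuousLinearMap.comp_apply, ← mnr_mulVec, mulVec_smul, mulVec_mulVec, mul_adjugate,
        smul_mulVec, one_mulVec, inv_smul_smul₀ hd0])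
    hT (fun x hx y hy => (convex_closedBall _ _).norm_image_sub_le_of_norm_hasFDerivWithin_le'
      (fun w hw => (hder w hw).hasFDerivWithinAt) hclose hy hx)
  simp only [map_zero, add_zero] at h3 h4 h5
  have h6 : closedBall (f z) (min (κ / (2 * C)) (C ^ 2)⁻¹ * ‖d‖ ^ 2) ⊆
      closedBall (f z) ((2 * (C / ‖d‖))⁻¹ * (κ * ‖d‖)) := closedBall_subset_closedBall
    ((mul_le_mul_of_nonneg_right (min_le_left _ _) (by positivity)).trans_eq (by field_simp))
  refine ⟨fun t => z + pl u (σ t), continuousOn_const.add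
    ((pl u).continuous.comp_continuousOn (h3.mono h6)), by simp [h4], fun t ht => ?_⟩
  obtain ⟨h7, h8⟩ := h5 t (h6 ht)
  refine ⟨hsub (hmem _ h7), h8, ?_⟩
  have h9 : Function.Injective ((fderiv ℂ f (z + pl u (σ t))).comp (pl u)) := by
    refine (injective_iff_map_eq_zero _).2 fun w hw => ?_
    have h10 := ((fderiv ℂ f (z + pl u (σ t))).comp (pl u) - (fderiv ℂ f z).comp (pl u)).le_opNorm w
    rw [_root_.sub_apply, hw, zero_sub, norm_neg] at h10
    have h11 := (hT w).trans (mul_le_mul_of_nonneg_left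
      (h10.trans (mul_le_mul_of_nonneg_right (hclose _ h7) (norm_nonneg w))) (by positivity))
    have h12 : C / ‖d‖ * ((2 * (C / ‖d‖))⁻¹ * ‖w‖) = ‖w‖ / 2 := by field_simp
    rw [h12] at h11
    exact norm_le_zero_iff.1 (by linarith)
  have h10 := LinearMap.surjective_of_injective
    (f := ((fderiv ℂ f (z + pl u (σ t))).comp (pl u)).toLinearMap) h9
  exact Function.Surjective.of_comp (g := pl u) h10

end Crest.Agent.X261.Fib.Sec
end
end

-- ▼ part X261/Fib/SecB
section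

/-!
# X261 / FIB, Sec (helper89), part B: the data `Sys` of an equivariant holomorphic map

`exists_sys` : an equivariant holomorphic map `a` of a covering of a compact manifold with discrete
periods and one regular point gives a system `Sys`; the radius `rho` is bounded below by the
squares of the minors of `d a`.
-/

set_option autoImplicit false
set_option linter.unusedSectionVars false

noncomputable section

open Set Metric Filter Topology

namespace Crest.Agent.X261.Fib.Sec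

open Crest.Agent.R275.Geo Crest.Agent.R273.UCov_914 Crest.Agent.R281.ThnM_280
open Crest.Agent.R281.Thn_280

/-! ### topological part -/

section top

variable {q : ℕ} {M : Type} [TopologicalSpace M] {G : Type} [Group G] [MulAction G M]
  [ContinuousConstSMul G M] {a : M → E q} {H : Subgroup G} {lam : G → E q}

theorem lam_mul [Nonempty M] (he : ∀ g ∈ H, ∀ x, a (g • x) = a x + lam g) {g h : G} (hg : g ∈ H)
    (hh : h ∈ H) : lam (g * h) = lam g + lam h := by
  obtain ⟨x⟩ := ‹Nonempty M›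
  have h1 := he _ (H.mul_mem hg hh) x
  rw [mul_smul, he g hg, he h hh, add_assoc, add_right_inj] at h1
  rw [← h1, add_comm]

theorem lam_inv (he : ∀ g ∈ H, ∀ x, a (g • x) = a x + lam g) [Nonempty M] {g : G} (hg : g ∈ H) :
    lam g⁻¹ = -lam g := by
  obtain ⟨x⟩ := ‹Nonempty M›
  have h1 := he _ (H.inv_mem hg) (g • x)
  rw [inv_smul_smul, he g hg, add_assoc, left_eq_add] at h1
  exact eq_neg_of_add_eq_zero_right h1

/-- a compact set meeting all orbits of a subgroup of finite index -/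
theorem exists_fund_sub [H.FiniteIndex] {C : Set M} (hC : IsCompact C)
    (h : ∀ x, ∃ g : G, g • x ∈ C) : ∃ C' : Set M, IsCompact C' ∧ ∀ x, ∃ g ∈ H, g • x ∈ C' := by
  refine ⟨⋃ v : G ⧸ H, (fun x => v.out⁻¹ • x) '' C,
    isCompact_iUnion fun v => hC.image (continuous_const_smul _), fun x => ?_⟩
  obtain ⟨g, hg⟩ := h x
  refine ⟨(g : G ⧸ H).out⁻¹ * g, ?_, mem_iUnion.2 ⟨g, _, hg, (mul_smul _ _ _).symm⟩⟩
  rw [← QuotientGroup.eq, QuotientGroup.out_eq']

theorem prop_of [Nonempty M] (ha : Continuous a) (he : ∀ g ∈ H, ∀ x, a (g • x) = a x + lam g)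
    (hd : ∃ c : ℝ, 0 < c ∧ ∀ g ∈ H, lam g ≠ 0 → c ≤ ‖lam g‖) {C : Set M} (hC : IsCompact C)
    (hf : ∀ x, ∃ g ∈ H, g • x ∈ C) {K : Set (E q)} (hK : IsCompact K) :
    ∃ C' : Set M, IsCompact C' ∧ ∀ x, a x ∈ K → ∃ g ∈ H, lam g = 0 ∧ g • x ∈ C' := by
  obtain ⟨c, hc, hd⟩ := hd
  obtain ⟨R₁, h₁⟩ := (hC.image ha).isBounded.exists_norm_le
  obtain ⟨R₂, h₂⟩ := hK.isBounded.exists_norm_le
  have hfin : {l : E q | ‖l‖ ≤ R₁ + R₂ ∧ ∃ g ∈ H, lam g = l}.Finite := by
    refine Uen.Sub.finite_of_sep hc (fun l hl => hl.1) ?_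
    rintro _ ⟨-, g, hg, rfl⟩ _ ⟨-, h, hh, rfl⟩ hl
    by_contra hne
    have h3 : lam (g * h⁻¹) = lam g - lam h := by
      rw [lam_mul he hg (H.inv_mem hh), lam_inv he hh, sub_eq_add_neg]
    have h4 := hd _ (H.mul_mem hg (H.inv_mem hh)) (by rw [h3]; exact sub_ne_zero.2 hne)
    rw [h3] at h4
    exact absurd hl (not_lt.2 h4)
  have := hfin.to_subtype
  choose r hr hr' using fun l : {l : E q | ‖l‖ ≤ R₁ + R₂ ∧ ∃ g ∈ H, lam g = l} => l.2.2
  refine ⟨⋃ l, (fun x => (r l)⁻¹ • x) '' C,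
    isCompact_iUnion fun l => hC.image (continuous_const_smul _), fun x hx => ?_⟩
  obtain ⟨g, hg, hgx⟩ := hf x
  have h3 : ‖lam g‖ ≤ R₁ + R₂ := by
    rw [show lam g = a (g • x) - a x by rw [he g hg, add_sub_cancel_left]]
    exact (norm_sub_le _ _).trans (add_le_add (h₁ _ ⟨_, hgx, rfl⟩) (h₂ _ hx))
  refine ⟨(r ⟨_, h3, g, hg, rfl⟩)⁻¹ * g, H.mul_mem (H.inv_mem (hr _)) hg, ?_,
    mem_iUnion.2 ⟨_, _, hgx, (mul_smul _ _ _).symm⟩⟩
  rw [lam_mul he (H.inv_mem (hr _)) hg, lam_inv he (hr _), hr']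
  exact neg_add_cancel _

theorem closed_image (ha : Continuous a) (he : ∀ g ∈ H, ∀ x, a (g • x) = a x + lam g)
    (hp : ∀ K : Set (E q), IsCompact K →
      ∃ C : Set M, IsCompact C ∧ ∀ x, a x ∈ K → ∃ g ∈ H, lam g = 0 ∧ g • x ∈ C)
    {Z : Set M} (hZ : IsClosed Z) (hi : ∀ g ∈ H, ∀ x ∈ Z, g • x ∈ Z) : IsClosed (a '' Z) := by
  refine isClosed_of_closure_subset fun t ht => ?_
  obtain ⟨C, hC, h⟩ := hp _ (isCompact_closedBall t 1)
  have h1 : t ∈ closure (a '' (C ∩ Z)) := by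
    refine closure_mono ?_ (isOpen_ball.inter_closure ⟨mem_ball_self one_pos, ht⟩)
    rintro _ ⟨h2, x, hx, rfl⟩
    obtain ⟨g, hg, h0, h3⟩ := h x (ball_subset_closedBall h2)
    exact ⟨g • x, ⟨h3, hi g hg x hx⟩, by rw [he g hg, h0, add_zero]⟩
  rw [((hC.inter_right hZ).image ha).isClosed.closure_eq] at h1
  exact image_mono inter_subset_right h1

/-- a closed set which is open off a thin set -/
theorem eq_univ_of_sth {S D0 : Set (E q)} (hS : IsClosed S) (hD : STh D0)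
    (ho : ∀ t ∈ S, t ∉ D0 → S ∈ 𝓝 t) {t0 : E q} (h0 : S ∈ 𝓝 t0) : S = univ := by
  obtain ⟨x, hxD, hx⟩ := hD.dense_compl.inter_nhds_nonempty h0
  have h1 : ∀ v : E q, {t : ℂ | x + t • v ∈ D0}.Countable → x + v ∈ S := by
    intro v hv
    have hc : Continuous fun t : ℂ => x + t • v := by fun_prop
    have h2 : IsPreconnected {t : ℂ | x + t • v ∈ D0}ᶜ :=
      (hv.isPathConnected_compl_of_one_lt_rank (by simp)).isConnected.isPreconnected
    have h3 : _ ⊆ (fun t : ℂ => x + t • v) ⁻¹' interior S :=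
      h2.subset_of_closure_inter_subset (isOpen_interior.preimage hc)
        ⟨0, by simpa using hxD, by simpa using mem_interior_iff_mem_nhds.2 (ho x hx hxD)⟩
        fun t ht => (mem_interior_iff_mem_nhds (s := S)).2 (ho _ (closure_minimal
          (preimage_mono interior_subset) (hS.preimage hc) ht.1) ht.2)
    have h4 := closure_minimal (h3.trans (preimage_mono interior_subset)) (hS.preimage hc)
      (hv.dense_compl ℂ 1)
    simpa using h4
  refine eq_univ_of_forall fun y => ?_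
  have h5 := closure_minimal (s := {v : E q | {t : ℂ | x + t • v ∈ D0}.Countable})
    (t := (fun v => x + v) ⁻¹' S) h1 (hS.preimage (by fun_prop)) (hD.dense_line x (y - x))
  simpa using h5

/-- radii of continuous sections of `a` with values in `U` -/
def Rs (a : M → E q) (U : Set M) (x : M) : Set ℝ :=
  {r | r ≤ 1 ∧ ∃ σ : E q → M, ContinuousOn σ (ball (a x) r) ∧ σ (a x) = x ∧
    ∀ t ∈ ball (a x) r, σ t ∈ U ∧ a (σ t) = t}

/-- half of the largest radius -/
def rh (a : M → E q) (U : Set M) (x : M) : ℝ := sSup (Rs a U x) / 2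

theorem zero_mem_Rs (U : Set M) (x : M) : 0 ∈ Rs a U x :=
  ⟨zero_le_one, fun _ => x, continuousOn_const, rfl, by simp⟩

theorem le_rh {U : Set M} {x : M} {r : ℝ} (h : r ∈ Rs a U x) : r / 2 ≤ rh a U x :=
  div_le_div_of_nonneg_right (le_csSup ⟨1, fun _ h => h.1⟩ h) two_pos.le

theorem sec_rh {U : Set M} {x : M} (h : 0 < rh a U x) :
    ∃ σ : E q → M, ContinuousOn σ (ball (a x) (rh a U x)) ∧ σ (a x) = x ∧
      ∀ t ∈ ball (a x) (rh a U x), σ t ∈ U ∧ a (σ t) = t := by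
  obtain ⟨r, ⟨-, σ, h1, h2, h3⟩, hr⟩ := exists_lt_of_lt_csSup ⟨0, zero_mem_Rs (a := a) U x⟩
    (show rh a U x < sSup (Rs a U x) by unfold rh at h ⊢; linarith)
  exact ⟨σ, h1.mono (ball_subset_ball hr.le), h2, fun t ht => h3 t (ball_subset_ball hr.le ht)⟩

theorem Rs_smul {U : Set M} {g : G} {c : E q} (he : ∀ x, a (g • x) = a x + c)
    (hU : ∀ x ∈ U, g • x ∈ U) (x : M) : Rs a U x ⊆ Rs a U (g • x) := by
  rintro r ⟨hr, σ, h1, h2, h3⟩
  have h4 : ∀ t ∈ ball (a (g • x)) r, t - c ∈ ball (a x) r := fun t ht => by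
    rw [mem_ball_iff_norm] at ht ⊢
    rwa [he, ← sub_sub, sub_right_comm] at ht
  refine ⟨hr, fun t => g • σ (t - c), (h1.comp (by fun_prop) h4).const_smul g, ?_, fun t ht => ?_⟩
  · simp only [he, add_sub_cancel_right, h2]
  · exact ⟨hU _ (h3 _ (h4 t ht)).1, by rw [he, (h3 _ (h4 t ht)).2, sub_add_cancel]⟩

theorem rh_smul {U : Set M} {g : G} {c : E q} (he : ∀ x, a (g • x) = a x + c)
    (hU : ∀ x ∈ U, g • x ∈ U) (hU' : ∀ x ∈ U, g⁻¹ • x ∈ U) (x : M) :
    rh a U (g • x) = rh a U x := by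
  have h := Rs_smul (a := a) (g := g⁻¹) (c := -c) (fun y => by
    rw [eq_add_neg_iff_add_eq, ← he, smul_inv_smul]) hU' (g • x)
  rw [inv_smul_smul] at h
  rw [rh, rh, (Rs_smul he hU x).antisymm h]

end top

/-! ### linear algebra -/

theorem surj_equiv {V W W' : Type*} [NormedAddCommGroup V] [NormedSpace ℂ V]
    [NormedAddCommGroup W] [NormedSpace ℂ W] [NormedAddCommGroup W'] [NormedSpace ℂ W']
    (T : W ≃L[ℂ] W') (c : W') (f : V → W) (z : V) :
    Function.Surjective (fderiv ℂ (fun z => T (f z) + c) z) ↔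
      Function.Surjective (fderiv ℂ f z) := by
  rw [fderiv_add_const, show (fun z => T (f z)) = T ∘ f from rfl, T.comp_fderiv]
  exact Function.Surjective.of_comp_iff' T.bijective _

theorem surj_ofLp {V : Type*} [NormedAddCommGroup V] [NormedSpace ℂ V] {q : ℕ} (f : V → Cn q)
    (z : V) : Function.Surjective (fderiv ℂ (fun z => (f z).ofLp) z) ↔
      Function.Surjective (fderiv ℂ f z) := by
  have h := surj_equiv (EuclideanSpace.equiv (Fin q) ℂ) 0 f z
  simp only [add_zero] at h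
  exact h

theorem exists_mnr {V : Type*} [NormedAddCommGroup V] [NormedSpace ℂ V] {q : ℕ}
    {T : V →L[ℂ] (Fin q → ℂ)} (hT : Function.Surjective T) :
    ∃ u : Fin q → V, (∀ l, ‖u l‖ ≤ 1) ∧ (mnr T u).det ≠ 0 := by
  choose w hw using fun l : Fin q => hT (Pi.single l 1)
  have h0 : ∀ l, (0 : ℝ) < ‖w l‖ + 1 := fun l => by positivity
  refine ⟨fun l => ((‖w l‖ + 1 : ℝ) : ℂ)⁻¹ • w l, fun l => ?_, ?_⟩
  · rw [norm_smul, norm_inv, Complex.norm_real, Real.norm_of_nonneg (h0 l).le,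
      inv_mul_le_iff₀ (h0 l)]
    linarith
  · have : mnr T (fun l => ((‖w l‖ + 1 : ℝ) : ℂ)⁻¹ • w l) =
        Matrix.diagonal fun l => ((‖w l‖ + 1 : ℝ) : ℂ)⁻¹ := by
      ext k l
      by_cases h : k = l
      · subst h
        simp [mnr, hw]
      · simp [mnr, hw, h]
    rw [this, Matrix.det_diagonal]
    exact Finset.prod_ne_zero_iff.2 fun l _ => inv_ne_zero (by exact_mod_cast (h0 l).ne')

/-! ### manifolds -/

section man

variable {n q : ℕ} {M : Type} [TopologicalSpace M] {B : Atl n M} {a : M → Cn q}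

theorem hol_univ (ha : ∀ p, DifferentiableOn ℂ (fun z => a ((B.e p).symm z)) (B.e p).target)
    (p : B.ι) : DifferentiableOn ℂ (fun z => a ((B.e p).symm z))
      ((B.e p).target ∩ (B.e p).symm ⁻¹' univ) := (ha p).mono inter_subset_left

theorem cont_of_hol (ha : ∀ p, DifferentiableOn ℂ (fun z => a ((B.e p).symm z)) (B.e p).target) :
    Continuous a := by
  refine continuous_iff_continuousAt.2 fun x => ?_
  obtain ⟨p, hp⟩ := B.cover x
  have h1 := ((ha p).continuousOn.comp (B.e p).continuousOn (B.e p).mapsTo).congr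
    (g := a) fun y hy => by simp [(B.e p).left_inv hy]
  exact h1.continuousAt ((B.e p).open_source.mem_nhds hp)

theorem quant_rh (ha : ∀ p, DifferentiableOn ℂ (fun z => a ((B.e p).symm z)) (B.e p).target)
    (p : B.ι) {K : Set (Cn n)} (hK : IsCompact K) (hKO : K ⊆ (B.e p).target) :
    ∃ c : ℝ, 0 < c ∧ ∀ z ∈ K, ∀ u : Fin q → Cn n, (∀ l, ‖u l‖ ≤ 1) →
      c * ‖(mnr (fderiv ℂ (fun z => (a ((B.e p).symm z)).ofLp) z) u).det‖ ^ 2 ≤
        min (rh (fun x => (a x).ofLp) (Crit B univ a)ᶜ ((B.e p).symm z)) 1 := by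
  obtain ⟨c, hc, h⟩ := quant_section (f := fun z => (a ((B.e p).symm z)).ofLp)
    (B.e p).open_target
    ((EuclideanSpace.equiv (Fin q) ℂ).differentiable.comp_differentiableOn (ha p)) hK hKO
  refine ⟨c / 2, half_pos hc, fun z hz u hu => ?_⟩
  obtain ⟨h1, h2⟩ := h z hz u hu
  set d := (mnr (fderiv ℂ (fun z => (a ((B.e p).symm z)).ofLp) z) u).det
  have h3 : c * ‖d‖ ^ 2 ∈ Rs (fun x => (a x).ofLp) (Crit B univ a)ᶜ ((B.e p).symm z) := by
    by_cases hd : d = 0
    · simpa [hd] using zero_mem_Rs _ _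
    obtain ⟨σ, h4, h5, h6⟩ := h2 hd
    refine ⟨h1, fun t => (B.e p).symm (σ t), (B.e p).continuousOn_symm.comp
      (h4.mono ball_subset_closedBall) fun t ht => (h6 t (ball_subset_closedBall ht)).1,
      by simp only [h5], fun t ht => ?_⟩
    obtain ⟨h7, h8, h9⟩ := h6 t (ball_subset_closedBall ht)
    refine ⟨?_, h8⟩
    rintro ⟨-, j, hj, hn⟩
    refine hn (surj_iff isOpen_univ (hol_univ ha) (mem_univ _) ((B.e p).map_target h7) hj ?_)
    rw [(B.e p).right_inv h7]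
    exact (surj_ofLp _ _).1 h9
  have h0 : 0 ≤ c * ‖d‖ ^ 2 := by positivity
  exact le_min (by have := le_rh h3; linarith) (by linarith)

theorem rh_pos (ha : ∀ p, DifferentiableOn ℂ (fun z => a ((B.e p).symm z)) (B.e p).target)
    {x : M} (hx : x ∉ Crit B univ a) : 0 < rh (fun x => (a x).ofLp) (Crit B univ a)ᶜ x := by
  obtain ⟨p, hp⟩ := B.cover x
  obtain ⟨c, hc, h⟩ := quant_rh ha p (isCompact_singleton (x := B.e p x))
    (singleton_subset_iff.2 ((B.e p).map_source hp))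
  obtain ⟨u, hu, hd⟩ := exists_mnr ((surj_ofLp _ _).2 (surj_of_not_crit (mem_univ x) hx hp))
  have h1 := (le_min_iff.1 (h _ rfl u hu)).1
  rw [(B.e p).left_inv hp] at h1
  exact lt_of_lt_of_le (mul_pos hc (pow_pos (norm_pos_iff.2 hd) 2)) h1

theorem sth_ofLp {S : Set (Cn q)} (h : STh S) : STh ((fun w : Cn q => w.ofLp) '' S) := by
  have h1 := h.preimage isOpen_univ (F := (EuclideanSpace.equiv (Fin q) ℂ).symm)
    (fun z _ => (EuclideanSpace.equiv (Fin q) ℂ).symm.analyticAt z) fun z _ => by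
      rw [ContinuousLinearEquiv.fderiv]
      exact (EuclideanSpace.equiv (Fin q) ℂ).symm.surjective
  refine h1.mono ?_
  rintro _ ⟨w, hw, rfl⟩
  exact ⟨trivial, hw⟩

end man

section cov

variable {n q : ℕ} {X : Type} [TopologicalSpace X] {A : Atl n X} {G : Type} [Group G]
  (D : MonD A G) {a : D.cov G → Cn q} {L : G → E q ≃L[ℂ] E q} {lam : G → E q}

/-- the chart expressions of `a` on two sheets -/
theorem read_deck (he : ∀ (g : G) e, (a (g • e)).ofLp = L g (a e).ofLp + lam g) (g : G) (i : A.ι)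
    (v : G) : (fun z => (a (((D.atl G).e (i, v)).symm z)).ofLp) =
      fun z => L g (a (((D.atl G).e (i, v * g)).symm z)).ofLp + lam g := by
  funext z
  rw [← he]
  change (a (D.pt i v _)).ofLp = (a (g • D.pt i (v * g) _)).ofLp
  rw [D.deck_pt, mul_inv_cancel_right]

theorem not_crit_deck (he : ∀ (g : G) e, (a (g • e)).ofLp = L g (a e).ofLp + lam g) (g : G)
    {x : D.cov G} (hx : x ∉ Crit (D.atl G) univ a) : g • x ∉ Crit (D.atl G) univ a := by
  rintro ⟨-, ⟨i, v⟩, hp, hn⟩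
  have h1 := surj_of_not_crit (mem_univ x) hx (i := (i, v * g)) (D.deck_mem_sheet.1 hp)
  refine hn ((surj_ofLp _ _).1 ?_)
  rw [read_deck D he g, surj_equiv]
  exact (surj_ofLp _ _).2 h1

/-- **FIB / Sec** -/
theorem exists_sys [CompactSpace X] [T2Space X] [Finite A.ι] [PreconnectedSpace (D.cov G)]
    (ha : ∀ p, DifferentiableOn ℂ (fun z => a (((D.atl G).e p).symm z)) ((D.atl G).e p).target)
    (he : ∀ (g : G) e, (a (g • e)).ofLp = L g (a e).ofLp + lam g)
    (H : Subgroup G) [H.FiniteIndex] (hL : ∀ g ∈ H, ∀ v, L g v = v)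
    (hd : ∃ c : ℝ, 0 < c ∧ ∀ g ∈ H, lam g ≠ 0 → c ≤ ‖lam g‖)
    (hr : ∃ x, x ∉ Crit (D.atl G) univ a) :
    ∃ S : Sys q (D.cov G) G, S.a = (fun x => (a x).ofLp) ∧ S.L = L ∧ S.lam = lam ∧ S.H = H ∧
      S.U = (Crit (D.atl G) univ a)ᶜ ∧ S.D0 = S.a '' Crit (D.atl G) univ a ∧
      Function.Surjective S.a ∧ (∀ g ∈ H, ∀ x, S.rho (g • x) = S.rho x) ∧
      ∀ p, ∀ K : Set (Cn n), IsCompact K → K ⊆ ((D.atl G).e p).target →
        ∃ c : ℝ, 0 < c ∧ ∀ z ∈ K, ∀ u : Fin q → Cn n, (∀ l, ‖u l‖ ≤ 1) →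
          c * ‖(mnr (fderiv ℂ (fun z => S.a (((D.atl G).e p).symm z)) z) u).det‖ ^ 2 ≤
            min (S.rho (((D.atl G).e p).symm z)) 1 := by
  obtain ⟨x0, hx0⟩ := hr
  have : Nonempty (D.cov G) := ⟨x0⟩
  have : ConnectedSpace (D.cov G) := ⟨‹_›⟩
  have := Cov.A.countable D
  have := D.secondCountable (F := G)
  have hc : Continuous fun x => (a x).ofLp :=
    (EuclideanSpace.equiv (Fin q) ℂ).continuous.comp (cont_of_hol ha)
  have heH : ∀ g ∈ H, ∀ x : D.cov G, (a (g • x)).ofLp = (a x).ofLp + lam g := fun g hg x => by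
    rw [he, hL g hg]
  have hop : IsOpen (Crit (D.atl G) univ a)ᶜ := by
    rw [compl_eq_univ_sdiff]
    exact isOpen_regular isOpen_univ (hol_univ ha)
  obtain ⟨C0, hC0, hf0⟩ := D.exists_fund
  obtain ⟨C, hC, hf⟩ := exists_fund_sub (H := H) hC0 hf0
  have hp := fun K hK => prop_of (K := K) hc heH hd hC hf hK
  have hsth : STh ((fun x => (a x).ofLp) '' Crit (D.atl G) univ a) := by
    rw [← image_image (fun w : Cn q => w.ofLp) a]
    exact sth_ofLp (sth_critval isOpen_univ (hol_univ ha))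
  have hn : ∀ x, x ∉ Crit (D.atl G) univ a →
      (fun x => (a x).ofLp) '' univ ∈ 𝓝 (a x).ofLp := fun x hx => by
    obtain ⟨σ, -, -, h⟩ := sec_rh (rh_pos ha hx)
    exact mem_of_superset (ball_mem_nhds _ (rh_pos ha hx)) fun t ht => ⟨σ t, trivial, (h t ht).2⟩
  have hs : (fun x => (a x).ofLp) '' univ = univ :=
    eq_univ_of_sth (closed_image hc heH hp isClosed_univ fun _ _ _ _ => trivial) hsth
      (by rintro _ ⟨x, -, rfl⟩ hx; exact hn x fun h => hx ⟨x, h, rfl⟩) (hn x0 hx0)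
  have hs' : Function.Surjective fun x => (a x).ofLp := fun t => by
    obtain ⟨x, -, hx⟩ := hs.symm.subset (mem_univ t)
    exact ⟨x, hx⟩
  have hcl : IsClosed ((fun x => (a x).ofLp) '' Crit (D.atl G) univ a) :=
    closed_image hc heH hp (isOpen_compl_iff.1 hop) fun g _ x hx => by
      by_contra h
      exact not_crit_deck D he g⁻¹ h (by rwa [inv_smul_smul])
  have hpre : IsPreconnected (Crit (D.atl G) univ a)ᶜ :=
    R281.Pri2_989.preconn_compl (sthM_crit isOpen_univ isPreconnected_univ (hol_univ ha)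
      ⟨x0, trivial, hx0⟩) hop (compl_compl _).subset
  have hcoc : ∃ R : ℝ, ∀ t : E q, ∃ g ∈ H, ‖t - lam g‖ ≤ R := by
    obtain ⟨R, hR⟩ := (hC.image hc).isBounded.exists_norm_le
    refine ⟨R, fun t => ?_⟩
    obtain ⟨x, rfl⟩ := hs' t
    obtain ⟨g, hg, hx⟩ := hf x
    refine ⟨g⁻¹, H.inv_mem hg, ?_⟩
    rw [lam_inv (a := fun x => (a x).ofLp) heH hg, sub_neg_eq_add, ← heH g hg]
    exact hR _ ⟨_, hx, rfl⟩
  have hinv : ∀ g ∈ H, ∀ x : D.cov G,
      rh (fun x => (a x).ofLp) (Crit (D.atl G) univ a)ᶜ (g • x) =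
        rh (fun x => (a x).ofLp) (Crit (D.atl G) univ a)ᶜ x := fun g hg x =>
    rh_smul (a := fun x => (a x).ofLp) (U := (Crit (D.atl G) univ a)ᶜ) (heH g hg)
      (fun x hx => not_crit_deck D he g hx) (fun x hx => not_crit_deck D he g⁻¹ hx) x
  have hsec := fun x (hx : x ∈ (Crit (D.atl G) univ a)ᶜ) =>
    And.intro (rh_pos ha hx) (sec_rh (rh_pos ha hx))
  let S : Sys q (D.cov G) G :=
    { a := fun x => (a x).ofLp
      cont_a := hc
      cont := fun g => continuous_const_smul g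
      L := L
      lam := lam
      eqv := he
      H := H
      LH := hL
      U := (Crit (D.atl G) univ a)ᶜ
      op := hop
      inv := fun g x hx => not_crit_deck D he g hx
      pre := hpre
      ne := ⟨x0, hx0⟩
      rho := rh (fun x => (a x).ofLp) (Crit (D.atl G) univ a)ᶜ
      sec := hsec
      D0 := (fun x => (a x).ofLp) '' Crit (D.atl G) univ a
      closed := hcl
      sth := hsth
      reg := fun x hx h => hx ⟨x, h, rfl⟩
      disc := hd
      coc := hcoc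
      prop := hp }
  refine ⟨S, rfl, rfl, rfl, rfl, rfl, rfl, hs', hinv, fun p K hK hKO => ?_⟩
  exact quant_rh ha p hK hKO

end cov

end Crest.Agent.X261.Fib.Sec
end
end

-- ▼ part X261/Fib/Ind

/-!
# X261 / FIB, Ind (helper89): induction on the dimension of the target

From the dichotomy (`Dich`), the exclusion of the first alternative (`NBig`) and the separation of
the components of a fibre (`SepH`): the general fibres of an equivariant map are connected.
-/

set_option autoImplicit false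
set_option linter.unusedSectionVars false

noncomputable section

open Set Metric Filter Topology

namespace Crest.Agent.X261.Fib.Mn

open Crest.Agent.R275.Geo Crest.Agent.R275.Core144 Crest.Agent.R273.UCov_914
open Crest.Agent.R281.ThnM_280 Crest.Agent.R281.Thn_280 Crest.Agent.X261.Fib.Sec

/-! ### topology -/

theorem preconn_preimage {M Y : Type*} [TopologicalSpace M] [TopologicalSpace Y] {f : M → Y}
    {B : Set Y} (hB : IsPreconnected B) (ho : ∀ x, f x ∈ B → ∀ O ∈ 𝓝 x, f '' O ∈ 𝓝 (f x))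
    (hf : ∀ t ∈ B, IsPreconnected (f ⁻¹' {t})) (hs : Function.Surjective f) :
    IsPreconnected (f ⁻¹' B) := by
  rintro u v hu hv hsub ⟨x, hx, hxu⟩ ⟨y, hy, hyv⟩
  obtain ⟨t, ht, h1, h2⟩ := hB (interior (f '' u)) (interior (f '' v)) isOpen_interior
    isOpen_interior (fun t ht => by
      obtain ⟨z, rfl⟩ := hs t
      exact (hsub ht).imp (fun h => mem_interior_iff_mem_nhds.2 (ho z ht u (hu.mem_nhds h)))
        fun h => mem_interior_iff_mem_nhds.2 (ho z ht v (hv.mem_nhds h)))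
    ⟨_, hx, mem_interior_iff_mem_nhds.2 (ho x hx u (hu.mem_nhds hxu))⟩
    ⟨_, hy, mem_interior_iff_mem_nhds.2 (ho y hy v (hv.mem_nhds hyv))⟩
  obtain ⟨z₁, h3, h4⟩ := interior_subset h1
  obtain ⟨z₂, h5, h6⟩ := interior_subset h2
  have h7 : f ⁻¹' {t} ⊆ f ⁻¹' B := preimage_mono (singleton_subset_iff.2 ht)
  obtain ⟨z, hz, h8⟩ := hf t ht u v hu hv (h7.trans hsub) ⟨z₁, h4, h3⟩ ⟨z₂, h6, h5⟩
  exact ⟨z, h7 hz, h8⟩

theorem image_mem_nhds {q : ℕ} {M : Type} [TopologicalSpace M] {G : Type} [Group G]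
    [MulAction G M] (S : Sys q M G) {x : M} (hx : x ∈ S.U) {O : Set M} (hO : O ∈ 𝓝 x) :
    S.a '' O ∈ 𝓝 (S.a x) := by
  obtain ⟨h0, σ, h1, h2, h3⟩ := S.sec x hx
  have h4 := (h1.continuousAt (ball_mem_nhds _ h0)).preimage_mem_nhds (by rwa [h2])
  filter_upwards [h4, ball_mem_nhds _ h0] with t h5 h6 using ⟨σ t, h5, (h3 t h6).2⟩

/-- a closed thin set does not disconnect an open set -/
theorem preconn_diff {n : ℕ} {M : Type} [TopologicalSpace M] {B : Atl n M} {T Z : Set M}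
    (hT : IsOpen T) (hc : IsPreconnected T) (hZ : SThM B Z) (ho : IsOpen (T \ Z)) :
    IsPreconnected (T \ Z) := by
  classical
  rintro u v hu hv hsub ⟨x, hx, hxu⟩ ⟨y, hy, hyv⟩
  by_contra hcon
  have hdis : ∀ w ∈ T \ Z, w ∈ v → w ∉ u := fun w h1 h2 h3 => hcon ⟨w, h1, h3, h2⟩
  obtain ⟨g, hg, hgf⟩ := SThM.extend (f := fun w => if w ∈ u then 1 else 0) hT hZ ho
    (fun i z hz => by
      have h1 := ((B.e i).continuousAt_symm hz.1).tendsto
      rcases hsub hz.2 with h | h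
      · refine ((differentiableAt_const (1 : ℂ)).congr_of_eventuallyEq ?_).differentiableWithinAt
        filter_upwards [h1.eventually (hu.mem_nhds h)] with w hw using if_pos hw
      · refine ((differentiableAt_const (0 : ℂ)).congr_of_eventuallyEq ?_).differentiableWithinAt
        filter_upwards [h1.eventually (hv.mem_nhds h), h1.eventually (ho.mem_nhds hz.2)]
          with w hw hw' using if_neg (hdis _ hw' hw))
    fun z _ => ⟨univ, univ_mem, 1, fun w _ => by split_ifs <;> simp⟩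
  have hgc : ∀ w ∈ T, ContinuousAt g w := fun w hw => by
    obtain ⟨i, hi⟩ := B.cover w
    have h1 := ((hg i).continuousOn.comp ((B.e i).continuousOn.mono inter_subset_left)
      (s := (B.e i).source ∩ T) fun y hy =>
        ⟨(B.e i).map_source hy.1, by simpa [(B.e i).left_inv hy.1] using hy.2⟩).congr
      (g := g) fun y hy => by simp [(B.e i).left_inv hy.1]
    exact h1.continuousAt (((B.e i).open_source.inter hT).mem_nhds ⟨hi, hw⟩)
  have hfin : ({0, 1} : Set ℂ).Finite := toFinite _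
  have hm : MapsTo g T ({0, 1} : Set ℂ) := fun w hw => by
    refine hfin.isClosed.closure_subset (mem_closure_image (hgc w hw)
      (hZ.dense_compl.open_subset_closure_inter hT hw) |> closure_mono ?_)
    rintro _ ⟨z, hz, rfl⟩
    rw [hgf z hz]
    split_ifs <;> simp
  have h := hc.constant_of_mapsTo hfin.isDiscrete
    (fun w hw => (hgc w hw).continuousWithinAt) hm hx.1 hy.1
  rw [hgf x hx, hgf y hy, if_pos hxu, if_neg (hdis y hy hyv)] at h
  exact one_ne_zero h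

/-! ### quotients -/

theorem exists_quot {q : ℕ} {V : Submodule ℂ (E q)} (hV : V ≠ ⊥) :
    ∃ q' < q, ∃ (P : E q →L[ℂ] E q') (R : E q' →L[ℂ] E q),
      (∀ w, P (R w) = w) ∧ ∀ v, P v = 0 ↔ v ∈ V := by
  have h1 := V.finrank_quotient_add_finrank
  have h2 : 0 < Module.finrank ℂ V := Nat.pos_of_ne_zero fun h => hV (Submodule.finrank_eq_zero.1 h)
  let e := (Module.finBasis ℂ (E q ⧸ V)).equivFun
  let P : E q →ₗ[ℂ] E (Module.finrank ℂ (E q ⧸ V)) := e.toLinearMap ∘ₗ V.mkQ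
  obtain ⟨R, hR⟩ := P.exists_rightInverse_of_surjective
    (LinearMap.range_eq_top.2 (e.surjective.comp V.mkQ_surjective))
  refine ⟨_, by simp at h1; omega, LinearMap.toContinuousLinearMap P,
    LinearMap.toContinuousLinearMap R, fun w => LinearMap.congr_fun hR w, fun v => ?_⟩
  simp [P]

theorem exists_desc {q q' : ℕ} {P : E q →L[ℂ] E q'} {R : E q' →L[ℂ] E q} (hR : ∀ w, P (R w) = w)
    (L : E q ≃L[ℂ] E q) (hL : ∀ v, P v = 0 → P (L v) = 0) :
    ∃ L' : E q' ≃L[ℂ] E q', ∀ v, L' (P v) = P (L v) := by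
  let T : E q' →ₗ[ℂ] E q' := (P : E q →ₗ[ℂ] E q') ∘ₗ (L : E q →ₗ[ℂ] E q) ∘ₗ (R : E q' →ₗ[ℂ] E q)
  have h1 : ∀ v, T (P v) = P (L v) := fun v => by
    have := hL (v - R (P v)) (by rw [map_sub, hR, sub_self])
    rw [map_sub, map_sub, sub_eq_zero] at this
    exact this.symm
  have h2 : Function.Surjective T := fun w =>
    ⟨P (L.symm (R w)), by rw [h1, L.apply_symm_apply, hR]⟩
  exact ⟨(LinearEquiv.ofBijective T
    ⟨LinearMap.injective_iff_surjective.2 h2, h2⟩).toContinuousLinearEquiv, h1⟩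

/-! ### the data -/

variable {n : ℕ} {X : Type} [TopologicalSpace X] {A : Atl n X} {G : Type} [Group G]

/-- an equivariant holomorphic map with discrete periods and a regular point -/
structure Dat (D : MonD A G) (H : Subgroup G) {q : ℕ} (a : D.cov G → Cn q)
    (L : G → E q ≃L[ℂ] E q) (lam : G → E q) : Prop where
  hol : ∀ p, DifferentiableOn ℂ (fun z => a (((D.atl G).e p).symm z)) ((D.atl G).e p).target
  eqv : ∀ (g : G) e, (a (g • e)).ofLp = L g (a e).ofLp + lam g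
  LH : ∀ g ∈ H, ∀ v, L g v = v
  disc : ∃ c : ℝ, 0 < c ∧ ∀ g ∈ H, lam g ≠ 0 → c ≤ ‖lam g‖
  reg : ∃ x, x ∉ Crit (D.atl G) univ a

/-- the system of the data -/
structure Of (D : MonD A G) (H : Subgroup G) {q : ℕ} (a : D.cov G → Cn q)
    (L : G → E q ≃L[ℂ] E q) (lam : G → E q) (S : Sys q (D.cov G) G) : Prop where
  a_eq : S.a = fun x => (a x).ofLp
  L_eq : S.L = L
  lam_eq : S.lam = lam
  H_eq : S.H = H
  U_eq : S.U = (Crit (D.atl G) univ a)ᶜ
  D_eq : S.D0 = S.a '' Crit (D.atl G) univ a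
  onto : Function.Surjective S.a
  rho_inv : ∀ g ∈ H, ∀ x, S.rho (g • x) = S.rho x
  low : ∀ p, ∀ K : Set (Cn n), IsCompact K → K ⊆ ((D.atl G).e p).target →
    ∃ c : ℝ, 0 < c ∧ ∀ z ∈ K, ∀ u : Fin q → Cn n, (∀ l, ‖u l‖ ≤ 1) →
      c * ‖(mnr (fderiv ℂ (fun z => S.a (((D.atl G).e p).symm z)) z) u).det‖ ^ 2 ≤
        min (S.rho (((D.atl G).e p).symm z)) 1

variable {D : MonD A G} {H : Subgroup G}

theorem Dat.exists_of [CompactSpace X] [T2Space X] [Finite A.ι] [PreconnectedSpace (D.cov G)]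
    [H.FiniteIndex] {q : ℕ} {a : D.cov G → Cn q} {L : G → E q ≃L[ℂ] E q} {lam : G → E q}
    (h : Dat D H a L lam) : ∃ S, Of D H a L lam S := by
  obtain ⟨S, h1, h2, h3, h4, h5, h6, h7, h8, h9⟩ := exists_sys D h.hol h.eqv H h.LH h.disc h.reg
  exact ⟨S, h1, h2, h3, h4, h5, h6, h7, h8, h9⟩

/-- the quotient data -/
theorem Dat.quot {q q' : ℕ} {a : D.cov G → Cn q} {L : G → E q ≃L[ℂ] E q} {lam : G → E q}
    (h : Dat D H a L lam) {P : E q →L[ℂ] E q'} {R : E q' →L[ℂ] E q} (hR : ∀ w, P (R w) = w)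
    {L' : G → E q' ≃L[ℂ] E q'} (hL : ∀ g v, L' g (P v) = P (L g v))
    (hr : ∃ c : ℝ, 0 < c ∧ ∀ g ∈ H, ∀ v, P v = 0 → ‖lam g - v‖ < c → P (lam g) = 0) :
    Dat D H (fun x => (WithLp.toLp 2 (P (a x).ofLp) : Cn q')) L' fun g => P (lam g) := by
  let T : Cn q →L[ℂ] Cn q' := ((EuclideanSpace.equiv (Fin q') ℂ).symm : E q' →L[ℂ] Cn q') ∘L P ∘L
    (EuclideanSpace.equiv (Fin q) ℂ : Cn q →L[ℂ] E q)
  have hT : Function.Surjective T := fun w =>
    ⟨WithLp.toLp 2 (R w.ofLp), congrArg (WithLp.toLp 2) (hR w.ofLp)⟩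
  refine ⟨fun p => T.differentiable.comp_differentiableOn (h.hol p), fun g e => ?_,
    fun g hg v => by rw [← hR v, hL, h.LH g hg], ?_, ?_⟩
  · simp only [h.eqv, map_add, hL]
  · obtain ⟨c, hc, hr⟩ := hr
    refine ⟨c / (‖R‖ + 1), by positivity, fun g hg hne => ?_⟩
    by_contra hlt
    refine hne (hr g hg (lam g - R (P (lam g))) (by rw [map_sub, hR, sub_self]) ?_)
    rw [sub_sub_cancel]
    rw [not_le, lt_div_iff₀ (by positivity)] at hlt
    have := R.le_opNorm (P (lam g))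
    nlinarith [norm_nonneg (P (lam g))]
  · obtain ⟨x, hx⟩ := h.reg
    refine ⟨x, fun ⟨_, p, hp, hn⟩ => hn ?_⟩
    have h1 := (T.hasFDerivAt.comp _ ((h.hol p).differentiableAt
      (((D.atl G).e p).open_target.mem_nhds (((D.atl G).e p).map_source hp))).hasFDerivAt).fderiv
    exact h1.symm ▸ hT.comp (surj_of_not_crit (mem_univ x) hx hp)

variable (D H) in
/-- the first alternative does not occur -/
def NBig : Prop := ∀ q : ℕ, 1 ≤ q → ∀ (a : D.cov G → Cn q) (L : G → E q ≃L[ℂ] E q)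
  (lam : G → E q) (S : Sys q (D.cov G) G), Dat D H a L lam → Of D H a L lam S → ¬ S.Big

variable (D H) in
/-- separation of the components of a general fibre -/
def SepH : Prop := ∀ q : ℕ, 1 ≤ q → ∀ (a : D.cov G → Cn q) (L : G → E q ≃L[ℂ] E q)
  (lam : G → E q) (S : Sys q (D.cov G) G), Dat D H a L lam → Of D H a L lam S →
    ∀ t ∉ S.D0, ∀ x₁ x₂, S.a x₁ = t → S.a x₂ = t →
      x₂ ∉ connectedComponentIn (S.a ⁻¹' {t}) x₁ → ∃ h, S.HF h ∧ h x₁ ≠ h x₂

variable (D) in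
/-- the dichotomy -/
def Dich : Prop := ∀ (q : ℕ) (S : Sys q (D.cov G) G), S.Big ∨ ∃ V, S.Dir V

/-- the general fibres are connected -/
def Conn {q : ℕ} (a : D.cov G → Cn q) (L : G → E q ≃L[ℂ] E q) (lam : G → E q) : Prop :=
  ∃ D1 : Set (E q), IsClosed D1 ∧ STh D1 ∧ (∀ g, ∀ t ∈ D1, L g t + lam g ∈ D1) ∧
    (∀ x, (a x).ofLp ∉ D1 → x ∉ Crit (D.atl G) univ a) ∧
    ∀ t ∉ D1, IsPreconnected ((fun x => (a x).ofLp) ⁻¹' {t})

/-- **induction** -/
theorem conn_of [CompactSpace X] [T2Space X] [Finite A.ι] [PreconnectedSpace (D.cov G)]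
    [H.FiniteIndex] (hd : Dich D) (hb : NBig D H) (hs : SepH D H) (q : ℕ) :
    ∀ (a : D.cov G → Cn q) (L : G → E q ≃L[ℂ] E q) (lam : G → E q), Dat D H a L lam →
      Conn a L lam := by
  induction q using Nat.strong_induction_on with
  | _ q ih =>
  intro a L lam h
  rcases Nat.eq_zero_or_pos q with rfl | hq
  · refine ⟨∅, isClosed_empty, sth_empty, fun _ _ h => h, fun x _ ⟨_, p, _, hn⟩ =>
      hn fun w => ⟨0, Subsingleton.elim _ _⟩, fun t _ => ?_⟩
    rw [eq_univ_of_forall (s := _ ⁻¹' {t}) fun x => Subsingleton.elim _ _]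
    exact isPreconnected_univ
  obtain ⟨S, hS⟩ := h.exists_of
  obtain ⟨V, hV⟩ := (hd q S).resolve_left (hb q hq a L lam S h hS)
  obtain ⟨q', hq', P, R, hR, hP⟩ := exists_quot hV.ne
  choose L' hL' using fun g => exists_desc hR (L g) fun v hv =>
    (hP _).2 (hS.L_eq ▸ hV.inv g v ((hP v).1 hv))
  have h' := h.quot hR hL' (by
    obtain ⟨c, hc, h1⟩ := hV.rat
    rw [hS.H_eq, hS.lam_eq] at h1
    exact ⟨c, hc, fun g hg v hv h2 => (hP _).2 (h1 g hg v ((hP v).1 hv) h2)⟩)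
  obtain ⟨S', hS'⟩ := h'.exists_of
  obtain ⟨D1, h1, h2, h3, h4, h5⟩ := ih q' hq' _ _ _ h'
  have ha' : ∀ x, S'.a x = P (S.a x) := fun x => by rw [hS'.a_eq, hS.a_eq]
  refine ⟨S.D0 ∪ P ⁻¹' D1, S.closed.union (h1.preimage P.continuous), S.sth.union
    ((h2.preimage isOpen_univ (fun z _ => P.analyticAt z) fun z _ => by
      rw [P.fderiv]; exact fun w => ⟨R w, hR w⟩).mono fun z hz => ⟨trivial, hz⟩), ?_, ?_, ?_⟩
  · rintro g t (ht | ht)
    · rw [hS.D_eq] at ht ⊢
      obtain ⟨x, hx, rfl⟩ := ht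
      refine Or.inl ⟨g • x, ?_, by rw [S.eqv, hS.L_eq, hS.lam_eq]⟩
      by_contra hc
      exact not_crit_deck D h.eqv g⁻¹ hc (by rwa [inv_smul_smul])
    · refine Or.inr ?_
      rw [mem_preimage, map_add, ← hL']
      exact h3 g _ ht
  · intro x hx
    have := S.reg x (by rw [hS.a_eq]; exact fun h => hx (Or.inl h))
    rwa [hS.U_eq] at this
  intro t ht
  rw [← hS.a_eq]
  have ht0 : t ∉ S.D0 := fun h => ht (Or.inl h)
  have ht1 : P t ∉ D1 := fun h => ht (Or.inr h)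
  obtain ⟨r, hr, hinj⟩ := hV.inj t ht0
  obtain ⟨ε, hε, hball⟩ := Metric.isOpen_iff.1 h1.isOpen_compl _ ht1
  set δ := min ε (r / (‖R‖ + 1)) with hδ
  have hδ0 : 0 < δ := lt_min hε (by positivity)
  have hD1 : ∀ s ∈ ball (P t) δ, s ∉ D1 := fun s hs => hball (ball_subset_ball (min_le_left _ _) hs)
  have hT : IsPreconnected (S'.a ⁻¹' ball (P t) δ) :=
    preconn_preimage (convex_ball _ _).isPreconnected (fun x hx O hO => image_mem_nhds S' (by
      rw [hS'.U_eq]
      exact h4 x (hD1 _ (by rwa [hS'.a_eq] at hx))) hO)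
      (fun s hs => by rw [hS'.a_eq]; exact h5 s (hD1 s hs)) hS'.onto
  have hTo : IsOpen (S'.a ⁻¹' ball (P t) δ) := isOpen_ball.preimage S'.cont_a
  obtain ⟨x0, hx0⟩ := h.reg
  have hW := preconn_diff hTo hT (sthM_crit isOpen_univ isPreconnected_univ (hol_univ h.hol)
    ⟨x0, trivial, hx0⟩) (hTo.inter (t := (Crit (D.atl G) univ a)ᶜ) (hS.U_eq ▸ S.op))
  have hmem : ∀ x, S.a x = t → x ∈ S'.a ⁻¹' ball (P t) δ \ Crit (D.atl G) univ a := fun x hx =>
    ⟨by rw [mem_preimage, ha', hx]; exact mem_ball_self hδ0, by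
      have := S.reg x (hx.symm ▸ ht0)
      rwa [hS.U_eq] at this⟩
  refine isPreconnected_of_forall_pair fun x₁ hx₁ x₂ hx₂ =>
    ⟨_, connectedComponentIn_subset _ x₁, mem_connectedComponentIn hx₁, ?_,
      isPreconnected_connectedComponentIn⟩
  by_contra hn
  obtain ⟨f, hf, hne⟩ := hs q hq a L lam S h hS t ht0 x₁ x₂ hx₁ hx₂ hn
  refine hne (hinj _ (fun x hx => hS.U_eq ▸ hx.2) hW (fun x hx => ?_) x₁ (hmem x₁ hx₁) x₂
    (hmem x₂ hx₂) hx₁ hx₂ f hf)
  refine ⟨S.a x - t - R (P (S.a x - t)), (hP _).1 (by rw [map_sub, hR, sub_self]), ?_⟩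
  have h6 : ‖P (S.a x - t)‖ < r / (‖R‖ + 1) := by
    rw [map_sub, ← ha', ← mem_ball_iff_norm]
    exact ball_subset_ball (min_le_right _ _) hx.1
  rw [sub_sub_cancel]
  rw [lt_div_iff₀ (by positivity)] at h6
  have := R.le_opNorm (P (S.a x - t))
  nlinarith [norm_nonneg (P (S.a x - t))]

end Crest.Agent.X261.Fib.Mn
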