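import Crest.Agent.X261.Fib.HrB
import Crest.Agent.X261.Fib.Defs
import Crest.Agent.R266.SCV
import Crest.Agent.R276.Lq_464
import Crest.Agent.X261.Fib.Wt
import Crest.Agent.R281.Thin3_524

-- ▼ part X261/Fib/HrC
section

/-!
# X261 / FIB Hor (helper84), part C: `L²` functions with prescribed `1`-jets along a separated
family of points
-/

set_option autoImplicit false
set_option linter.unusedSectionVars false

noncomputable section

open Set Metric Filter Topology MeasureTheory ComplexConjugate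
open scoped ENNReal

namespace Crest.Agent.X261.Fib.Hr

open Crest.Agent.R271.Ho51 Crest.Agent.R273.Reg_844 Crest.Agent.R276.NL_137
open Crest.Agent.R271.W792 (nS sm_nS)

variable {q : ℕ} {M : Type} [TopologicalSpace M] [RDom q M] [T2Space M]
  [SecondCountableTopology M] [MeasurableSpace M] [BorelSpace M] {ι : Type}

theorem enorm_add_le {a b e : ℝ} {u v : ℂ} (he : 0 ≤ e) (ha : ‖u - v‖ ^ 2 * e ≤ a)
    (hb : ‖v‖ ^ 2 * e ≤ b) :
    ENNReal.ofReal (‖u‖ ^ 2 * e) ≤ 2 * ENNReal.ofReal a + 2 * ENNReal.ofReal b := by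
  have h1 := norm_add_sq_le (u - v) v
  rw [sub_add_cancel] at h1
  have ha0 : 0 ≤ a := le_trans (by positivity) ha
  have hb0 : 0 ≤ b := le_trans (by positivity) hb
  rw [← ENNReal.ofReal_ofNat 2, ← ENNReal.ofReal_mul (by norm_num),
    ← ENNReal.ofReal_mul (by norm_num), ← ENNReal.ofReal_add (by positivity) (by positivity)]
  exact ENNReal.ofReal_le_ofReal (by nlinarith)

theorem solve {μ : Measure M} (hμ : IsLeb μ) {ρ : M → ℝ} (hρ : Sm ρ)
    (hρc : ∀ c, IsCompact {x | ρ x ≤ c}) (hρl : ∀ x w, nsq w ≤ Levi ρ x w) {Ψ : M → ℝ}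
    (hΨ : Sm Ψ) (hΨ0 : ∀ y, 0 ≤ Ψ y) (hΨl : ∀ y w, 0 ≤ Levi Ψ y w) {x : ι → M} {r : ℝ}
    (h : Shs x r) {c : ℝ} (hc : 0 < c)
    (hs : ∀ l v, ‖v‖ < r → ∀ w, c * nsq w ≤ Levi Ψ (sh (x l) v) w) (l0 : ι) {f : ι → E q → ℂ}
    (hf : ∀ l, ContDiff ℂ (⊤ : ℕ∞) (f l)) (hf0 : ∀ l, l ≠ l0 → ∀ v, f l v = 0) :
    ∃ (m : ℝ) (F : M → ℂ), 0 ≤ m ∧ Hol F ∧
      ∫⁻ y, ENNReal.ofReal (‖F y‖ ^ 2 * Real.exp (-(m * Ψ y))) ∂μ ≠ ⊤ ∧
      ∀ l, F (x l) = f l 0 ∧ HasFDerivAt (fun v => F (sh (x l) v)) (fderiv ℂ (f l) 0) 0 := by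
  have hr := h.pos
  have := hμ.locallyFinite
  set a : ℝ := Real.log ((r / 4) ^ 2) - 1 with ha
  have ha1 : Real.exp (a + 1) = (r / 4) ^ 2 := by
    rw [ha, sub_add_cancel, Real.exp_log (by positivity)]
  obtain ⟨B, hB0, hB⟩ := levi_pk (M := M) a
  set A : ℝ := (q : ℝ) + 2 with hA
  have hA0 : 0 ≤ A := by positivity
  set m : ℝ := (A * B + 1) / c with hm
  have hm0 : 0 ≤ m := by positivity
  have hmc : m * c = A * B + 1 := by rw [hm]; field_simp
  set ε : ℕ → ℝ := fun k => 1 / ((k : ℝ) + 1) with hε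
  have hε0 : ∀ k, 0 < ε k := fun k => by positivity
  set P : ℕ → M → ℝ := fun k => gl x r fun _ v => pk a (ε k) v with hP
  have hPz : ∀ k (v : E q), r / 4 ≤ ‖v‖ → pk a (ε k) v = 0 := fun k v hv =>
    pk_zero (hε0 k) (by rw [ha1]; gcongr)
  have hPz' : ∀ k (_ : ι) (v : E q), r / 2 ≤ ‖v‖ → pk a (ε k) v = 0 := fun k _ v hv =>
    hPz k v (by linarith)
  have hPs : ∀ k, Sm (P k) := fun k => h.sm_gl (hPz' k) fun _ => contDiff_pk a (hε0 k)
  have hP0 : ∀ k y, P k y ≤ 0 := fun k y => by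
    simp only [hP, gl]
    split_ifs
    · exact pk_nonpos _ _ _
    · exact le_rfl
  set φ : ℕ → M → ℝ := fun k y => m * Ψ y + A * P k y with hφ
  have hφ1 : Sm fun y => m * Ψ y := (Sm.const m).mulR hΨ
  have hφ2 : ∀ k, Sm fun y => A * P k y := fun k => (Sm.const A).mulR (hPs k)
  have hφl : ∀ k y w, Levi (φ k) y w = m * Levi Ψ y w + A * Levi (P k) y w := fun k y w => by
    rw [hφ]
    simp only
    rw [Levi_add hφ1 (hφ2 k), Levi_const_mul hΨ, Levi_const_mul (hPs k)]
  have hin : ∀ k l, ∀ y ∈ sh (x l) '' ball 0 r, ∀ w, nsq w ≤ Levi (φ k) y w := by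
    intro k l y hy w
    rw [hφl, Levi_congr (h.gl_near _ hy)]
    obtain ⟨v, hv, rfl⟩ := hy
    have h1 := mul_le_mul_of_nonneg_left (hs l v (mem_ball_zero_iff.1 hv) w) hm0
    have h2 := mul_le_mul_of_nonneg_left (hB _ (hε0 k) (cp (x l)) (sh (x l) v) w) hA0
    rw [← mul_assoc, hmc] at h1
    linarith
  have hlev : ∀ k y w, 0 ≤ Levi (φ k) y w := fun k y w => by
    by_cases h1 : ∃ l, y ∈ sh (x l) '' ball 0 r
    · obtain ⟨l, hl⟩ := h1
      exact (nsq_nonneg w).trans (hin k l y hl w)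
    · push Not at h1
      rw [hφl, Levi_congr (h.gl_off (hPz' k) h1), Levi_const, mul_zero, add_zero]
      exact mul_nonneg hm0 (hΨl y w)
  let χ : ContDiffBump (0 : E q) := ⟨r / 4, r / 2, by positivity, by linarith⟩
  set g : ι → E q → ℂ := fun l v => (χ v : ℂ) * f l v with hg
  have hgz : ∀ l v, r / 2 ≤ ‖v‖ → g l v = 0 := fun l v hv => by
    simp only [hg]
    rw [χ.zero_of_le_dist (by simpa using hv)]
    simp
  have hg1 : ∀ l v, ‖v‖ < r / 4 → gl x r g (sh (x l) v) = f l v := fun l v hv => by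
    rw [h.gl_sh g l (by linarith)]
    simp only [hg]
    rw [χ.one_of_mem_closedBall (by simpa using hv.le)]
    simp
  have hGs : Sm (gl x r g) := h.sm_gl hgz fun l =>
    (Complex.ofRealCLM.contDiff.comp χ.contDiff).mul ((hf l).restrict_scalars ℝ)
  have hGc : HasCompactSupport (gl x r g) := by
    refine HasCompactSupport.intro (isCompact_sh (y := x l0) (ρ := r / 2)
      (by linarith [h.le l0])) fun y hy => ?_
    by_cases h1 : ∃ l, y ∈ sh (x l) '' ball 0 r
    · obtain ⟨l, v, hv, rfl⟩ := h1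
      rw [h.gl_sh g l (mem_ball_zero_iff.1 hv)]
      by_cases h2 : l = l0
      · subst h2
        refine hgz _ _ (not_lt.1 fun h3 => hy ⟨v, mem_closedBall_zero_iff.2 h3.le, rfl⟩)
      · simp only [hg]
        rw [hf0 l h2, mul_zero]
    · rw [gl, dif_neg h1]
  have hfd : ∀ l, Differentiable ℂ (f l) := fun l => (hf l).differentiable (by simp)
  -- `G` is holomorphic near the centres
  have hGh : ∀ l v, ‖v‖ < r / 4 → ∀ w, ‖w‖ < r / 4 - ‖v‖ →
      gl x r g (sh (sh (x l) v) w) = f l (v + w) := fun l v hv w hw => by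
    rw [sh_sh (by linarith [h.le l]), hg1 l _ (by linarith [norm_add_le v w])]
  set kap : M → ℝ := nS fun j => db j (gl x r g) with hkap
  have hkap0 : ∀ y, 0 ≤ kap y := fun y => R271.W792.nS_nonneg _ y
  have hkc : HasCompactSupport kap := by
    refine HasCompactSupport.intro' (K := tsupport (D (gl x r g))) (hasCompactSupport_D hGc)
      (isClosed_tsupport _) fun y hy => ?_
    simp [hkap, nS, db, image_eq_zero_of_notMem_tsupport hy, wb]
  have hoff : ∀ y, (∀ l, y ∉ sh (x l) '' ball 0 r) → ∀ j, db j (gl x r g) y = 0 := fun y hy j => by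
    rw [db_congr (h.gl_off hgz hy), db_const]
  obtain ⟨F, hF, hI⟩ := engineP q M μ hμ ρ hρ hρc hρl φ (fun k => hφ1.add (hφ2 k))
    (fun y k k' hk => by
      refine add_le_add le_rfl (mul_le_mul_of_nonneg_left ?_ hA0)
      simp only [hP, gl]
      split_ifs
      · exact pk_mono a (hε0 k') (Nat.one_div_le_one_div hk) _
      · exact le_rfl) hlev (gl x r g) hGs (fun _ => kap)
    (fun k y w => by
      by_cases h1 : ∃ l, y ∈ sh (x l) '' ball 0 r
      · obtain ⟨l, hl⟩ := h1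
        refine (norm_sum_mul_sq_le _ _).trans ?_
        rw [nsq_conj]
        exact mul_le_mul_of_nonneg_left (hin k l y hl w) (hkap0 y)
      · push Not at h1
        simp only [hoff y h1, zero_mul, Finset.sum_const_zero, norm_zero]
        simpa using mul_nonneg (hkap0 y) (hlev k y w))
    (∫⁻ y, ENNReal.ofReal (kap y) ∂μ) (fun k => lintegral_mono fun y => by
      refine ENNReal.ofReal_le_ofReal ?_
      by_cases h1 : P k y = 0
      · refine mul_le_of_le_one_right (hkap0 y) (Real.exp_le_one_iff.2 ?_)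
        simp only [hφ, h1, mul_zero, add_zero, neg_nonpos]
        exact mul_nonneg hm0 (hΨ0 y)
      have h2 : kap y = 0 := by
        by_cases h3 : ∃ l, y ∈ sh (x l) '' ball 0 r
        · obtain ⟨l, v, hv, rfl⟩ := h3
          have h4 : ‖v‖ < r / 4 := not_le.1 fun h4 => h1 (by
            simp only [hP]
            rw [h.gl_sh _ l (mem_ball_zero_iff.1 hv), hPz k v h4])
          have h5 : DifferentiableAt ℂ (fun w => gl x r g (sh (sh (x l) v) w)) 0 := by
            refine (((hfd l).comp (differentiable_id.const_add v)) 0).congr_of_eventuallyEq ?_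
            filter_upwards [ball_mem_nhds (0 : E q) (sub_pos.2 h4)] with w hw
            exact hGh l v h4 w (mem_ball_zero_iff.1 hw)
          simp [hkap, nS, db_eq_zero h5]
        · exact (h1 (by simp only [hP, gl]; rw [dif_neg h3])).elim
      rw [h2, zero_mul])
  have hK : 2 * ∫⁻ y, ENNReal.ofReal (kap y) ∂μ ≠ ⊤ :=
    ENNReal.mul_ne_top (by simp) (((sm_nS fun j => hGs.db j).integrable hμ hkc).lintegral_lt_top).ne
  have hFc : Continuous F := continuous_iff_continuousAt.2 fun y => by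
    have h1 : ContinuousAt (fun w => F (sh y w)) (cp y - cp y) := by
      rw [sub_self]
      exact (hol_sh hF y).continuousOn.continuousAt (ball_mem_nhds _ (dl_pos y))
    refine (ContinuousAt.comp (f := fun y' => cp y' - cp y) h1
      ((cp_cont (M := M)).sub continuous_const).continuousAt).congr ?_
    filter_upwards [eventually_eq_sh y] with y' hy'
    exact (congrArg F hy').symm
  have hW : ∀ k y {s : ℝ} {u : ℂ}, s ≤ Real.exp (-φ k y) → ENNReal.ofReal (s * ‖u‖ ^ 2) ≤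
      ENNReal.ofReal (‖u‖ ^ 2) * ⨆ k, ENNReal.ofReal (Real.exp (-φ k y)) := by
    intro k y s u hs
    refine le_trans ?_ (mul_le_mul' le_rfl (le_iSup _ k))
    rw [← ENNReal.ofReal_mul (by positivity), mul_comm]
    exact ENNReal.ofReal_le_ofReal (mul_le_mul_of_nonneg_left hs (by positivity))
  refine ⟨m, F, hm0, hF, ?_, fun l => ?_⟩
  · have h1 : ∫⁻ y, ENNReal.ofReal (‖gl x r g y‖ ^ 2) ∂μ ≠ ⊤ :=
      ((R271.W792.Hol.sm_normSq hGs).integrable hμ
        (hGc.comp_left (g := fun z : ℂ => ‖z‖ ^ 2) (by simp))).lintegral_lt_top.ne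
    have h2 : Measurable fun y => 2 * ENNReal.ofReal (‖gl x r g y‖ ^ 2) :=
      (ENNReal.measurable_ofReal.comp
        (R271.W792.Hol.sm_normSq hGs).continuous.measurable).const_mul 2
    refine ne_top_of_le_ne_top ?_ (lintegral_mono (g := fun y =>
      2 * (ENNReal.ofReal (‖F y - gl x r g y‖ ^ 2) * ⨆ k, ENNReal.ofReal (Real.exp (-φ k y))) +
        2 * ENNReal.ofReal (‖gl x r g y‖ ^ 2)) fun y => ?_)
    · rw [lintegral_add_right _ h2, lintegral_const_mul' _ _ (by simp),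
        lintegral_const_mul' _ _ (by simp)]
      exact ENNReal.add_ne_top.2 ⟨ENNReal.mul_ne_top (by simp) (ne_top_of_le_ne_top hK hI),
        ENNReal.mul_ne_top (by simp) h1⟩
    · refine (enorm_add_le (v := gl x r g y) (Real.exp_pos _).le (mul_comm _ _).le
        (mul_le_of_le_one_right (by positivity) (Real.exp_le_one_iff.2
          (neg_nonpos.2 (mul_nonneg hm0 (hΨ0 y)))))).trans ?_
      refine add_le_add (mul_le_mul' le_rfl (hW 0 y (Real.exp_le_exp.2 ?_))) le_rfl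
      simp only [hφ]
      linarith [mul_nonneg hA0 (neg_nonneg.2 (hP0 0 y))]
  · obtain ⟨B', hB'⟩ := (isCompact_sh (y := x l) (ρ := r / 4)
      (by linarith [h.le l])).bddAbove_image hΨ.continuous.continuousOn
    have hq : (0 : ℝ) < 4 * q + 1 := by positivity
    set c1 : ℝ := Real.exp (A * a - m * B') / (4 * q + 1) ^ (q + 2) with hc1
    have hc10 : 0 < c1 := by positivity
    have hv1 := v1_pos (q := q)
    have key := jet_zero (u := fun v => F (sh (x l) v) - gl x r g (sh (x l) v))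
      (C := (2 * ∫⁻ y, ENNReal.ofReal (kap y) ∂μ).toReal / (v1 q * c1))
      (ε0 := min (r / 16) (min 1 (Real.exp (a - 1) / (4 * q + 1)))) (by positivity)
      (fun e he v hv => by
        have he0 := he.1
        have he1 : e < r / 16 := he.2.trans_le (min_le_left _ _)
        have he2 : e < 1 := he.2.trans_le ((min_le_right _ _).trans (min_le_left _ _))
        have he3 : e * (4 * q + 1) < Real.exp (a - 1) :=
          (lt_div_iff₀ hq).1 (he.2.trans_le ((min_le_right _ _).trans (min_le_right _ _)))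
        obtain ⟨k, hk⟩ := exists_nat_one_div_lt (K := ℝ) (ε := e ^ 2) (by positivity)
        have hdl := dl_sh (y := x l) (w := v) (by linarith [h.le l])
        have h1 := submean hμ (y := sh (x l) v) (ρ := e) (ρ' := 2 * e) he0.le (by linarith)
          (by linarith [h.le l]) (u := fun y => F y - gl x r g y) (hFc.sub hGs.continuous)
          (((hol_sh hF _).mono (ball_subset_ball (by linarith [h.le l]))).sub
            (((hfd l).comp (differentiable_id.const_add v)).differentiableOn.congr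
              fun w hw => hGh l v (by linarith) w (by linarith [mem_ball_zero_iff.1 hw])))
          (W := fun y => ENNReal.ofReal (‖F y - gl x r g y‖ ^ 2) *
            ⨆ k, ENNReal.ofReal (Real.exp (-φ k y))) (c := c1 / (e ^ 2) ^ (q + 2)) (S := univ)
          (by positivity) fun w hw => ⟨mem_univ _, hW k _ (by
            have h2 : ‖v + w‖ ≤ 2 * e := by linarith [norm_add_le v w]
            rw [sh_sh (by linarith [h.le l])]
            have h3 : Ψ (sh (x l) (v + w)) ≤ B' :=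
              hB' ⟨_, ⟨_, mem_closedBall_zero_iff.2 (by linarith), rfl⟩, rfl⟩
            have h4 : P k (sh (x l) (v + w)) ≤ Real.log ((4 * q + 1) * e ^ 2) - a := by
              simp only [hP]
              rw [h.gl_sh _ l (by linarith)]
              refine pk_le (hε0 k) ?_ (by
                have h8 := mul_le_mul_of_nonneg_left he2.le (mul_pos he0 hq).le
                linarith)
              have h5 : ‖v + w‖ ^ 2 ≤ (2 * e) ^ 2 := by gcongr
              have h6 := mul_le_mul_of_nonneg_left h5 (Nat.cast_nonneg (α := ℝ) q)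
              have h7 : ε k < e ^ 2 := hk
              linarith [nsq_le_norm_sq (v + w)]
            have h5 : c1 / (e ^ 2) ^ (q + 2) =
                Real.exp (A * a - m * B' - A * Real.log ((4 * q + 1) * e ^ 2)) := by
              rw [Real.exp_sub (A * a - m * B'), hc1, div_div, ← mul_pow]
              congr 1
              rw [hA, show (q : ℝ) + 2 = ((q + 2 : ℕ) : ℝ) by push_cast; ring, Real.exp_nat_mul,
                Real.exp_log (by positivity)]
            rw [h5, Real.exp_le_exp]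
            simp only [hφ]
            nlinarith [mul_le_mul_of_nonneg_left h3 hm0, mul_le_mul_of_nonneg_left h4 hA0])⟩
        rw [Measure.restrict_univ] at h1
        have h2 := (ENNReal.ofReal_le_iff_le_toReal hK).1 (h1.trans hI)
        rw [div_mul_eq_mul_div, le_div_iff₀ (by positivity)]
        have h3 : e ^ (2 * q) * v1 q * (c1 / (e ^ 2) ^ (q + 2) *
            ‖F (sh (x l) v) - gl x r g (sh (x l) v)‖ ^ 2) * e ^ 4 =
            ‖F (sh (x l) v) - gl x r g (sh (x l) v)‖ ^ 2 * (v1 q * c1) := by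
          field_simp
          ring
        rw [← h3]
        exact mul_le_mul_of_nonneg_right h2 (by positivity))
    have h1 := hg1 l 0 (by simpa using hr)
    refine ⟨?_, ?_⟩
    · have h2 := key.1
      simp only [h1] at h2
      rw [sh_zero] at h2
      exact sub_eq_zero.1 h2
    · have h2 := key.2.add (hfd l 0).hasFDerivAt
      rw [zero_add] at h2
      refine h2.congr_of_eventuallyEq ?_
      filter_upwards [ball_mem_nhds (0 : E q) (show 0 < r / 4 by positivity)] with v hv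
      simp only [Pi.add_apply]
      rw [hg1 l v (mem_ball_zero_iff.1 hv), sub_add_cancel]

end Crest.Agent.X261.Fib.Hr
end
end

-- ▼ part X261/Fib/RatA
section

/-!
# X261 / FIB Rat (helper84), part A: flat lemmas

* `convexOn_of_av` : sub-mean value property for the sine law implies convexity;
* `exists_dir` : a non closed-discrete subgroup contains a limit direction;
* `dense_line` : generic real lines with fixed direction miss a `σ`-thin set;
* `recur` : recurrence of a linear flow on a torus.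
-/

set_option autoImplicit false
set_option linter.unusedSectionVars false

noncomputable section

open Set Metric Filter Topology MeasureTheory

namespace Crest.Agent.X261.Fib.Rt

open Crest.Agent.R275.FL606 (circ ang)
open Crest.Agent.R281.Thn_280

theorem integral_circ (f : ℝ → ℝ) :
    ∫ θ, f θ ∂circ = (2 * Real.pi)⁻¹ * ∫ θ in (0 : ℝ)..(2 * Real.pi), f θ := by
  have hp : (0 : ℝ) < 2 * Real.pi := by positivity
  rw [circ, integral_smul_measure, intervalIntegral.integral_of_le hp.le, ENNReal.toReal_inv,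
    ENNReal.toReal_ofReal hp.le, smul_eq_mul]

theorem integral_sin_circ : ∫ θ, Real.sin θ ∂circ = 0 := by
  rw [integral_circ, integral_sin]; simp

theorem integral_sin_sq_circ : ∫ θ, Real.sin θ ^ 2 ∂circ = 1 / 2 := by
  rw [integral_circ, integral_sin_sq]
  have := Real.pi_pos
  simp only [Real.sin_zero, zero_mul, Real.sin_two_pi, sub_zero, zero_add]
  field_simp

theorem integrable_of_cont {f : ℝ → ℝ} (hf : Continuous f) : Integrable f circ := by
  have hp : (0 : ℝ) < 2 * Real.pi := by positivity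
  refine Integrable.smul_measure ?_ (ENNReal.inv_ne_top.2 (by simpa using Real.pi_pos))
  exact (hf.continuousOn.integrableOn_Icc).mono_set Ioc_subset_Icc_self

/-- maximum principle -/
theorem le_of_av {a c : ℝ} {h : ℝ → ℝ} (hc : ContinuousOn h (Icc a c))
    (hs : ∀ x ∈ Ioo a c, ∃ r0 : ℝ, 0 < r0 ∧ ∀ r ∈ Ioo 0 r0,
      h x ≤ ∫ θ, h (x + r * Real.sin θ) ∂circ)
    (ha : h a ≤ 0) (hb : h c ≤ 0) {x : ℝ} (hx : x ∈ Icc a c) : h x ≤ 0 := by
  have key : ∀ ε : ℝ, 0 < ε → h x ≤ ε * (c - a) ^ 2 := by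
    intro ε hε
    have hc' : ContinuousOn (fun x => h x + ε * (x - a) ^ 2) (Icc a c) := hc.add (by fun_prop)
    obtain ⟨x0, hx0, hmax⟩ := isCompact_Icc.exists_isMaxOn ⟨x, hx⟩ hc'
    have h1 : h x + ε * (x - a) ^ 2 ≤ h x0 + ε * (x0 - a) ^ 2 := hmax hx
    have h0 : 0 ≤ ε * (x - a) ^ 2 := by positivity
    have h00 : 0 ≤ ε * (c - a) ^ 2 := by positivity
    rcases hx0.1.eq_or_lt with h2 | h2
    · rw [← h2] at h1; simp at h1; linarith
    rcases hx0.2.eq_or_lt with h3 | h3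
    · rw [h3] at h1; linarith
    exfalso
    obtain ⟨r0, hr0, hr⟩ := hs x0 ⟨h2, h3⟩
    set r : ℝ := min (r0 / 2) (min (x0 - a) (c - x0)) with hrdef
    have hrp : 0 < r := lt_min (by positivity) (lt_min (by linarith) (by linarith))
    have hr1 : r < r0 := (min_le_left _ _).trans_lt (by linarith)
    have hr2 : r ≤ x0 - a := (min_le_right _ _).trans (min_le_left _ _)
    have hr3 : r ≤ c - x0 := (min_le_right _ _).trans (min_le_right _ _)
    have hm : ∀ θ, x0 + r * Real.sin θ ∈ Icc a c := fun θ =>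
      ⟨by nlinarith [Real.neg_one_le_sin θ], by nlinarith [Real.sin_le_one θ]⟩
    have hcont : Continuous fun θ => h (x0 + r * Real.sin θ) :=
      hc.comp_continuous (by fun_prop) hm
    have h4 := hr r ⟨hrp, hr1⟩
    have h5 : ∫ θ, h (x0 + r * Real.sin θ) ∂circ ≤
        ∫ θ, (h x0 - 2 * ε * (x0 - a) * r * Real.sin θ - ε * r ^ 2 * Real.sin θ ^ 2) ∂circ := by
      refine integral_mono (integrable_of_cont hcont) (integrable_of_cont (by fun_prop)) fun θ => ?_
      have h6 : h (x0 + r * Real.sin θ) + ε * (x0 + r * Real.sin θ - a) ^ 2 ≤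
        h x0 + ε * (x0 - a) ^ 2 := hmax (hm θ)
      simp only
      nlinarith
    rw [integral_sub (integrable_of_cont (by fun_prop)) (integrable_of_cont (by fun_prop)),
      integral_sub (integrable_of_cont (by fun_prop)) (integrable_of_cont (by fun_prop)),
      integral_const_mul, integral_const_mul, integral_sin_circ, integral_sin_sq_circ] at h5
    simp only [integral_const, probReal_univ, smul_eq_mul, one_mul, mul_zero, sub_zero] at h5
    have : 0 < ε * r ^ 2 := by positivity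
    linarith
  refine le_of_forall_pos_le_add fun δ hδ => ?_
  have h1 := key (δ / ((c - a) ^ 2 + 1)) (by positivity)
  have h2 : δ / ((c - a) ^ 2 + 1) * (c - a) ^ 2 ≤ δ := by
    rw [div_mul_eq_mul_div, div_le_iff₀ (by positivity)]
    nlinarith
  linarith

/-- sub-mean value property for the sine law implies convexity -/
theorem convexOn_of_av {s : Set ℝ} (hs : Convex ℝ s) {f : ℝ → ℝ} (hc : ContinuousOn f s)
    (h : ∀ x ∈ s, ∃ r0 : ℝ, 0 < r0 ∧ ∀ r ∈ Ioo 0 r0, (∀ θ, x + r * Real.sin θ ∈ s) ∧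
      f x ≤ ∫ θ, f (x + r * Real.sin θ) ∂circ) : ConvexOn ℝ s f := by
  refine LinearOrder.convexOn_of_lt hs fun x hx y hy hxy a b ha hb hab => ?_
  have hsub : Icc x y ⊆ s := by
    rw [← segment_eq_Icc hxy.le]; exact hs.segment_subset hx hy
  have hd : 0 < y - x := sub_pos.2 hxy
  set m : ℝ := (f y - f x) / (y - x) with hm
  have hm' : m * (y - x) = f y - f x := by rw [hm]; field_simp
  have h1 := le_of_av (a := x) (c := y) (h := fun z => f z - (f x + m * (z - x)))
    ((hc.mono hsub).sub (by fun_prop)) (fun z hz => by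
      obtain ⟨r0, hr0, hr⟩ := h z (hsub (Ioo_subset_Icc_self hz))
      refine ⟨r0, hr0, fun r hr' => ?_⟩
      obtain ⟨h2, h3⟩ := hr r hr'
      have hcont : Continuous fun θ => f (z + r * Real.sin θ) :=
        hc.comp_continuous (by fun_prop) h2
      have h4 : (fun θ => f (z + r * Real.sin θ) - (f x + m * (z + r * Real.sin θ - x))) =
          fun θ => f (z + r * Real.sin θ) - (f x + m * (z - x)) - m * r * Real.sin θ := by
        funext θ; ring
      have hcont' : Continuous fun θ => f (z + r * Real.sin θ) - (f x + m * (z - x)) :=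
        hcont.sub continuous_const
      rw [h4, integral_sub (integrable_of_cont hcont') (integrable_of_cont (by fun_prop)),
        integral_sub (integrable_of_cont hcont) (integrable_of_cont (by fun_prop)),
        integral_const_mul, integral_sin_circ]
      simp only [integral_const, probReal_univ, smul_eq_mul, one_mul, mul_zero, sub_zero]
      linarith) (by simp) (by linarith) (x := a * x + b * y)
    ⟨by rw [eq_sub_of_add_eq hab]; nlinarith, by rw [eq_sub_of_add_eq' hab]; nlinarith⟩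
  simp only [smul_eq_mul] at h1 ⊢
  have h2 : a * x + b * y - x = b * (y - x) := by
    have : a = 1 - b := by linarith
    rw [this]; ring
  rw [h2] at h1
  have h3 : m * (b * (y - x)) = b * (f y - f x) := by rw [← hm']; ring
  have h4 : a = 1 - b := by linarith
  rw [h3] at h1
  rw [h4] at h1 ⊢
  linarith

variable {q : ℕ}

/-- limit direction -/
theorem exists_dir (V : Submodule ℂ (E q)) (A : AddSubgroup (E q)) (hVA : ∀ v ∈ V, v ∈ A)
    (h : ∀ c : ℝ, 0 < c → ∃ a ∈ A, ‖a‖ < c ∧ a ∉ V) :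
    ∃ w, w ∉ V ∧ ∀ s : ℝ, (s : ℂ) • w ∈ closure (A : Set (E q)) := by
  obtain ⟨W, hW⟩ := V.exists_isCompl
  set P : E q →L[ℂ] E q := LinearMap.toContinuousLinearMap (W.projection V hW.symm) with hP
  have hPW : ∀ x, P x ∈ W := fun x => Submodule.projection_apply_mem hW.symm x
  have hPV : ∀ x, x - P x ∈ V := fun x => by
    have h1 := Submodule.projection_add_projection_eq_self hW x
    have h2 : x - P x = V.projection W hW x := by
      rw [sub_eq_iff_eq_add]; exact h1.symm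
    rw [h2]; exact Submodule.projection_apply_mem hW x
  choose a ha1 ha2 ha3 using fun n : ℕ => h (1 / ((n : ℝ) + 1)) (by positivity)
  have hpA : ∀ n, P (a n) ∈ A := fun n => by
    have := A.sub_mem (ha1 n) (hVA _ (hPV (a n)))
    simpa using this
  have hp0 : ∀ n, P (a n) ≠ 0 := fun n h0 => ha3 n (by simpa [h0] using hPV (a n))
  have hn0 : ∀ n, 0 < ‖P (a n)‖ := fun n => norm_pos_iff.2 (hp0 n)
  have hlim : Tendsto (fun n => ‖P (a n)‖) atTop (𝓝 0) := by
    have h1 : Tendsto a atTop (𝓝 0) :=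
      squeeze_zero_norm (fun n => (ha2 n).le) tendsto_one_div_add_atTop_nhds_zero_nat
    simpa using ((P.continuous.tendsto 0).comp h1).norm
  obtain ⟨w, hw, φ, hφ, hwl⟩ := (isCompact_sphere (0 : E q) 1).tendsto_subseq
    (x := fun n => ((‖P (a n)‖⁻¹ : ℝ) : ℂ) • P (a n)) (fun n => by
      rw [mem_sphere_zero_iff_norm, norm_smul, Complex.norm_real, norm_inv, norm_norm,
        inv_mul_cancel₀ (hn0 n).ne'])
  have hwW : w ∈ W := W.closed_of_finiteDimensional.mem_of_tendsto hwl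
    (Eventually.of_forall fun n => W.smul_mem _ (hPW _))
  refine ⟨w, fun hV => ?_, fun s => ?_⟩
  · have : w = 0 := (Submodule.disjoint_def.1 hW.disjoint) w hV hwW
    rw [this] at hw; simp at hw
  · have h1 : Tendsto (fun n => (⌊s / ‖P (a (φ n))‖⌋ : ℝ) * ‖P (a (φ n))‖) atTop (𝓝 s) := by
      have h2 := hlim.comp hφ.tendsto_atTop
      refine tendsto_of_tendsto_of_tendsto_of_le_of_le (g := fun n => s - ‖P (a (φ n))‖)
        (h := fun _ => s) (by simpa using h2.const_sub s) tendsto_const_nhds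
        (fun n => ?_) (fun n => ?_)
      · have h3 := (Int.sub_one_lt_floor (s / ‖P (a (φ n))‖)).le
        have h4 := mul_le_mul_of_nonneg_right h3 (hn0 (φ n)).le
        rwa [sub_mul, div_mul_cancel₀ _ (hn0 _).ne', one_mul] at h4
      · have h4 := mul_le_mul_of_nonneg_right (Int.floor_le (s / ‖P (a (φ n))‖)) (hn0 (φ n)).le
        rwa [div_mul_cancel₀ _ (hn0 _).ne'] at h4
    have h2 := ((Complex.continuous_ofReal.tendsto s).comp h1).smul hwl
    refine mem_closure_of_tendsto h2 (Eventually.of_forall fun n => ?_)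
    have h3 : ((((⌊s / ‖P (a (φ n))‖⌋ : ℝ) * ‖P (a (φ n))‖ : ℝ)) : ℂ) •
        (((‖P (a (φ n))‖⁻¹ : ℝ) : ℂ) • P (a (φ n))) = ⌊s / ‖P (a (φ n))‖⌋ • P (a (φ n)) := by
      rw [smul_smul, ← Complex.ofReal_mul, mul_assoc, mul_inv_cancel₀ (hn0 _).ne', mul_one,
        Complex.ofReal_intCast, Int.cast_smul_eq_zsmul]
    simp only [Function.comp_apply]
    rw [h3]
    exact A.zsmul_mem (hpA _) _

theorem piece_line_null {U : Set (E q)} (hU : IsOpen U) {g : E q → ℂ}
    (hg : AnalyticOnNhd ℂ g U) (u : E q) :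
    volume {t | ∃ x : ℝ, t + (x : ℂ) • u ∈ {z | z ∈ U ∧ g z = 0 ∧ fderiv ℂ g z ≠ 0}} = 0 := by
  set Z : Set (E q) := {z | z ∈ U ∧ g z = 0 ∧ fderiv ℂ g z ≠ 0} with hZ
  have key : ∀ z₀ ∈ Z, ∃ N ∈ 𝓝[Z] z₀, volume {t | ∃ x : ℝ, t + (x : ℂ) • u ∈ N} = 0 := by
    rintro z₀ ⟨hzU, hgz, hdg⟩
    set L : E q →L[ℂ] ℂ := fderiv ℂ g z₀ with hL
    obtain ⟨v, hv⟩ : ∃ v, L v ≠ 0 := by
      by_contra hcon
      push Not at hcon
      exact hdg (ContinuousLinearMap.ext hcon)
    set A : ℂ →L[ℂ] E q := (ContinuousLinearMap.id ℂ ℂ).smulRight ((L v)⁻¹ • v) with hA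
    have hLA : ∀ x, L (A x) = x := by
      intro x
      simp [hA, hv]
    obtain ⟨O, O', G, hOo, hO'o, hzO, hON, hGa, s1, s2⟩ :=
      straighten (F := g) (hU.mem_nhds hzU) hg L hL A hLA
    refine ⟨Z ∩ O, inter_mem_nhdsWithin _ (hOo.mem_nhds hzO), ?_⟩
    set K : Submodule ℝ (E q) :=
      LinearMap.ker (Complex.imLm.comp ((L : E q →ₗ[ℂ] ℂ).restrictScalars ℝ)) with hK
    have hKne : K ≠ ⊤ := by
      intro h
      have h1 : A Complex.I ∈ K := by rw [h]; trivial
      have h2 : (L (A Complex.I)).im = 0 := h1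
      rw [hLA] at h2
      simp at h2
    have hK0 : volume (K : Set (E q)) = 0 := Measure.addHaar_submodule volume K hKne
    have hsub : {t | ∃ x : ℝ, t + (x : ℂ) • u ∈ Z ∩ O} ⊆
        (fun z => G (z - A (L z)) - L z • u) '' ((K : Set (E q)) ∩ {z | z - A (L z) ∈ O'}) := by
      rintro t ⟨x, ⟨hz1, hz2, hz3⟩, hz4⟩
      obtain ⟨t1, t2, t3⟩ := s1 _ hz4
      set k := t + (x : ℂ) • u + A (g (t + (x : ℂ) • u) - L (t + (x : ℂ) • u)) with hk
      rw [hz2] at t3
      have h1 : L (k + A x) = x := by rw [map_add, t3, hLA, zero_add]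
      refine ⟨k + A x, ⟨?_, ?_⟩, ?_⟩
      · change (L (k + A x)).im = 0
        rw [h1, Complex.ofReal_im]
      · change k + A x - A (L (k + A x)) ∈ O'
        rwa [h1, add_sub_cancel_right]
      · simp only
        rw [h1, add_sub_cancel_right, t2, add_sub_cancel_right]
    refine measure_mono_null hsub ?_
    refine addHaar_image_eq_zero_of_differentiableOn_of_addHaar_eq_zero volume ?_
      (measure_mono_null inter_subset_left hK0)
    intro w hw
    have h1 : DifferentiableAt ℂ (fun z => G (z - A (L z)) - L z • u) w := by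
      refine DifferentiableAt.sub ?_ (by fun_prop)
      exact DifferentiableAt.comp w (g := G) (hGa _ hw.2).differentiableAt (by fun_prop)
    exact (h1.restrictScalars ℝ).differentiableWithinAt
  choose! N hN hN0 using key
  obtain ⟨T, hTZ, hTc, hcov⟩ := TopologicalSpace.countable_cover_nhdsWithin hN
  refine measure_mono_null (t := ⋃ z ∈ T, {t | ∃ x : ℝ, t + (x : ℂ) • u ∈ N z}) ?_
    ((measure_biUnion_null_iff hTc).2 fun z hz => hN0 z (hTZ hz))
  rintro t ⟨x, hx⟩
  obtain ⟨z, hz, h1⟩ := mem_iUnion₂.1 (hcov hx)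
  exact mem_iUnion₂.2 ⟨z, hz, x, h1⟩

/-- generic real lines with a fixed direction miss a `σ`-thin set -/
theorem dense_line {D0 : Set (E q)} (h : STh D0) (u : E q) :
    Dense {t | ∀ x : ℝ, t + (x : ℂ) • u ∉ D0} := by
  obtain ⟨U, g, h1, h2⟩ := h
  refine Measure.dense_of_ae (μ := volume) ?_
  have h3 := measure_iUnion_null fun j => piece_line_null (h1 j).1 (h1 j).2 u
  filter_upwards [measure_eq_zero_iff_ae_notMem.1 h3] with t ht x hx
  obtain ⟨j, hj⟩ := h2 _ hx
  exact ht (mem_iUnion.2 ⟨j, x, hj⟩)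

/-- recurrence -/
theorem recur (A : AddSubgroup (E q)) {R : ℝ} (hR : ∀ t, ∃ a ∈ A, ‖t - a‖ ≤ R) (u : E q)
    {ε : ℝ} (hε : 0 < ε) (B : ℝ) : ∃ b : ℝ, B ≤ b ∧ ∃ a ∈ A, ‖(b : ℂ) • u - a‖ < ε := by
  choose a ha1 ha2 using fun k : ℕ => hR ((((k : ℝ) * |B| : ℝ) : ℂ) • u)
  obtain ⟨w, -, φ, hφ, hw⟩ := (isCompact_closedBall (0 : E q) R).tendsto_subseq
    (x := fun k : ℕ => (((k : ℝ) * |B| : ℝ) : ℂ) • u - a k) (fun k => by simpa using ha2 k)
  obtain ⟨N, hN⟩ := Metric.cauchySeq_iff'.1 hw.cauchySeq ε hε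
  have h1 := hN (N + 1) (Nat.le_succ N)
  have h2 : (φ N : ℝ) + 1 ≤ φ (N + 1) := by exact_mod_cast hφ (Nat.lt_succ_self N)
  refine ⟨(φ (N + 1) - φ N : ℝ) * |B|, ?_, a (φ (N + 1)) - a (φ N), A.sub_mem (ha1 _) (ha1 _), ?_⟩
  · nlinarith [le_abs_self B, abs_nonneg B]
  · rw [dist_eq_norm] at h1
    simp only [Function.comp_apply] at h1
    refine lt_of_eq_of_lt (congrArg norm ?_) h1
    push_cast
    rw [sub_mul, sub_smul]
    abel

end Crest.Agent.X261.Fib.Rt
end
end

-- ▼ part X261/Fib/Rat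
section

/-!
# X261 / FIB Rat (helper84): the invariant directions of a periodic pseudoconvex Riemann domain
form a rational subspace (`PD.rat`).
-/

set_option autoImplicit false
set_option linter.unusedSectionVars false

noncomputable section

open Set Metric Filter Topology MeasureTheory

namespace Crest.Agent.X261.Fib

open Crest.Agent.R271.Ho51 Crest.Agent.R273.Reg_844 Crest.Agent.R281.Thn_280
open Crest.Agent.R275.FL606 (circ ang av)

variable {q : ℕ} {Y : Type} [TopologicalSpace Y] [RDom q Y] [T2Space Y]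

namespace Rt

variable (Y) in
/-- invariance of `dl` along the real direction `w` -/
def RInv (w : E q) : Prop :=
  ∀ (y : Y) (s : ℝ), ‖(s : ℂ) • w‖ < dl y → dl (sh y ((s : ℂ) • w)) = dl y

theorem RInv.neg {w : E q} (h : RInv Y w) : RInv Y (-w) := fun y s hs => by
  have h1 : (s : ℂ) • -w = ((-s : ℝ) : ℂ) • w := by simp
  rw [h1] at hs ⊢
  exact h y _ hs

theorem dense_cp {S : Set (E q)} (h : Dense S) : Dense {y : Y | cp y ∈ S} :=
  h.preimage (cp_lh (M := Y)).isOpenMap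

/-- an inequality `dl y ≤ dl (y + v)` extends from a dense set -/
theorem le_of_dense {S : Set Y} (hS : Dense S) {v : E q}
    (h : ∀ y ∈ S, ‖v‖ < dl y → dl y ≤ dl (sh y v)) {y : Y} (hy : ‖v‖ < dl y) :
    dl y ≤ dl (sh y v) := by
  have h1 : ContinuousAt (fun y' : Y => dl (sh y' v)) y :=
    continuous_dl.continuousAt.comp
      (ContinuousAt.comp (f := fun y' : Y => (y', v)) (continuousAt_sh₂ hy) (by fun_prop))
  by_contra hlt
  rw [not_le] at hlt
  have h2 : ∀ᶠ y' in 𝓝 y, dl (sh y' v) < dl y' := h1.eventually_lt continuous_dl.continuousAt hlt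
  have h3 : ∀ᶠ y' : Y in 𝓝 y, ‖v‖ < dl y' :=
    continuous_dl.continuousAt.eventually (lt_mem_nhds hy)
  obtain ⟨y', h4, h5⟩ := hS.inter_nhds_nonempty (h2.and h3)
  exact absurd (h y' h4 h5.2) (not_le.2 h5.1)

theorem eq_of_le {v : E q} (h : ∀ y : Y, ‖v‖ < dl y → dl y ≤ dl (sh y v))
    (h' : ∀ y : Y, ‖-v‖ < dl y → dl y ≤ dl (sh y (-v))) {y : Y} (hy : ‖v‖ < dl y) :
    dl (sh y v) = dl y := by
  refine le_antisymm ?_ (h y hy)
  have h1 : ‖-v‖ < dl (sh y v) := by rw [norm_neg]; exact hy.trans_le (h y hy)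
  have h2 : sh (sh y v) (-v) = y := by
    have h3 := lift_unique (isPreconnected_Icc (a := (0 : ℝ)) (b := 1))
      (f := fun t : ℝ => sh (sh y v) ((t : ℂ) • -v))
      (g := fun t : ℝ => sh y (((1 - t : ℝ) : ℂ) • v)) ?_ ?_ ?_ (t0 := 0) ⟨le_rfl, zero_le_one⟩
      (by simp [sh_zero]) (⟨zero_le_one, le_rfl⟩ : (1 : ℝ) ∈ Icc (0 : ℝ) 1)
    · simpa [sh_zero] using h3
    all_goals
      have hI : ∀ t ∈ Icc (0 : ℝ) 1, ∀ v : E q, ‖(t : ℂ) • v‖ ≤ ‖v‖ := by
        intro t ht v
        rw [norm_smul, Complex.norm_real, Real.norm_of_nonneg ht.1]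
        exact mul_le_of_le_one_left (norm_nonneg _) ht.2
      have hJ : ∀ t ∈ Icc (0 : ℝ) 1, 1 - t ∈ Icc (0 : ℝ) 1 := fun t ht =>
        ⟨by linarith [ht.2], by linarith [ht.1]⟩
      intro t ht
    · exact (ContinuousAt.comp (f := fun t : ℝ => (t : ℂ) • -v)
        (continuousAt_sh ((hI t ht _).trans_lt h1)) (by fun_prop)).continuousWithinAt
    · exact (ContinuousAt.comp (f := fun t : ℝ => ((1 - t : ℝ) : ℂ) • v)
        (continuousAt_sh ((hI _ (hJ t ht) _).trans_lt hy)) (by fun_prop)).continuousWithinAt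
    · rw [cp_sh ((hI t ht _).trans_lt h1), cp_sh ((hI _ (hJ t ht) _).trans_lt hy), cp_sh hy]
      push_cast
      rw [sub_smul, one_smul, smul_neg]
      abel
  simpa [h2] using h' (sh y v) h1


theorem convex_dom (y : Y) (w : E q) : Convex ℝ {s : ℝ | ‖(s : ℂ) • w‖ < dl y} := by
  have h := (convex_ball (0 : E q) (dl y)).linear_preimage (LinearMap.toSpanSingleton ℝ (E q) w)
  have h1 : {s : ℝ | ‖(s : ℂ) • w‖ < dl y} =
      LinearMap.toSpanSingleton ℝ (E q) w ⁻¹' ball 0 (dl y) := by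
    ext s
    simp
  rw [h1]
  exact h

theorem continuousOn_dom (y : Y) (w : E q) :
    ContinuousOn (fun s : ℝ => sh y ((s : ℂ) • w)) {s : ℝ | ‖(s : ℂ) • w‖ < dl y} := fun s hs =>
  (ContinuousAt.comp (f := fun t : ℝ => (t : ℂ) • w) (continuousAt_sh hs)
    (by fun_prop)).continuousWithinAt

variable {G : Type} [Group G] [MulAction G Y]

/-- step (1): limit directions of translations which lift -/
theorem rinv_of_lim (D : PD q Y G) {w : E q}
    (h : ∀ (s ε : ℝ), 0 < ε → ∃ (f : Y → Y) (c : E q), (∀ y, cp (f y) = cp y + c) ∧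
      (∀ y, dl (f y) = dl y) ∧ ‖c - (s : ℂ) • w‖ < ε) : RInv Y w := by
  have key : ∀ y : Y, cp y ∉ D.D0 → ∀ s : ℝ, ‖(s : ℂ) • w‖ < dl y →
      dl (sh y ((s : ℂ) • w)) = dl y := by
    intro y hy s hs
    obtain ⟨S, hS, hS'⟩ := D.fin _ hy
    have hfin : ((dl : Y → ℝ) '' S).Finite := hS.image _
    have hmap : MapsTo (fun s : ℝ => dl (sh y ((s : ℂ) • w))) {s : ℝ | ‖(s : ℂ) • w‖ < dl y}
        (dl '' S) := by
      intro r hr
      rw [← hfin.isClosed.closure_eq, Metric.mem_closure_iff]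
      intro ε hε
      obtain ⟨f, c, h1, h2, h3⟩ := h (-r) (min ε (dl (sh y ((r : ℂ) • w)))) (lt_min hε (dl_pos _))
      have h4 : ‖((-r : ℝ) : ℂ) • w - c‖ < dl (f (sh y ((r : ℂ) • w))) := by
        rw [h2, norm_sub_rev]; exact h3.trans_le (min_le_right _ _)
      obtain ⟨g, -, hg⟩ := hS' (sh (f (sh y ((r : ℂ) • w))) (((-r : ℝ) : ℂ) • w - c)) (by
        rw [cp_sh h4, h1, cp_sh hr]
        push_cast
        rw [neg_smul]
        abel)
      refine ⟨_, ⟨_, hg, rfl⟩, ?_⟩
      rw [(D.tr g).dl_eq, Real.dist_eq, abs_sub_comm]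
      have h5 := abs_dl_sh h4
      rw [h2, norm_sub_rev] at h5
      exact h5.trans_lt (h3.trans_le (min_le_left _ _))
    have h0 : (0 : ℝ) ∈ {s : ℝ | ‖(s : ℂ) • w‖ < dl y} := by simpa using dl_pos y
    have := (convex_dom y w).isPreconnected.constant_of_mapsTo hfin.isDiscrete
      (continuous_dl.comp_continuousOn (continuousOn_dom y w)) hmap hs h0
    simpa [sh_zero] using this
  have hd : Dense {y : Y | cp y ∈ D.D0ᶜ} := dense_cp D.sth.dense_compl
  intro y s hs
  refine eq_of_le (fun y hy => le_of_dense hd (fun y h1 h2 => (key y h1 s h2).ge) hy)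
    (fun y hy => ?_) hs
  have h1 : -((s : ℂ) • w) = ((-s : ℝ) : ℂ) • w := by simp
  rw [h1] at hy ⊢
  exact le_of_dense hd (fun y h1 h2 => (key y h1 (-s) h2).ge) hy

/-- `psi` is convex along `i w` -/
theorem convexOn_psi (hp : PSH (psi : Y → ℝ)) {w : E q} (h : RInv Y w) (y : Y) :
    ConvexOn ℝ {s : ℝ | ‖(s : ℂ) • (Complex.I • w)‖ < dl y}
      fun s : ℝ => psi (sh y ((s : ℂ) • (Complex.I • w))) := by
  refine convexOn_of_av (convex_dom y _)
    (continuous_psi.comp_continuousOn (continuousOn_dom y _)) fun x hx => ?_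
  have hx' : ‖(x : ℂ) • (Complex.I • w)‖ < dl y := hx
  set d : ℝ := dl y - ‖(x : ℂ) • (Complex.I • w)‖ with hd
  have hd0 : 0 < d := sub_pos.2 hx'
  have hw1 : 0 < ‖w‖ + 1 := by positivity
  refine ⟨d / (4 * (‖w‖ + 1)), by positivity, fun r hr => ?_⟩
  have hr1 : r * ‖w‖ < d / 4 := by
    have h1 := hr.2
    rw [lt_div_iff₀ (by positivity)] at h1
    nlinarith [hr.1]
  have hI : ∀ a : ℝ, |a| ≤ 1 → ∀ v : E q, ‖v‖ = ‖w‖ → ‖((r * a : ℝ) : ℂ) • v‖ < d / 4 := by
    intro a ha v hv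
    rw [norm_smul, Complex.norm_real, Real.norm_eq_abs, abs_mul, abs_of_pos hr.1, hv]
    refine lt_of_le_of_lt ?_ hr1
    exact mul_le_mul_of_nonneg_right (mul_le_of_le_one_right hr.1.le ha) (norm_nonneg _)
  have hIw : ‖Complex.I • w‖ = ‖w‖ := by rw [norm_smul, Complex.norm_I, one_mul]
  have hmem : ∀ θ, ‖((x + r * Real.sin θ : ℝ) : ℂ) • (Complex.I • w)‖ < dl y - 3 * d / 4 := by
    intro θ
    rw [Complex.ofReal_add, add_smul]
    have := norm_add_le ((x : ℂ) • (Complex.I • w))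
      (((r * Real.sin θ : ℝ) : ℂ) • (Complex.I • w))
    linarith [hI _ (Real.abs_sin_le_one θ) _ hIw]
  refine ⟨fun θ => (hmem θ).trans (by linarith), ?_⟩
  have h1 := hp.le_av (isCh_bch y) (z := cp y + (x : ℂ) • (Complex.I • w)) (v := (r : ℂ) • w)
    (fun ζ hζ => by
      rw [add_assoc]
      refine ball_bch y (add_mem_ball ?_)
      have h2 : ‖ζ • (r : ℂ) • w‖ ≤ r * ‖w‖ := by
        rw [norm_smul, norm_smul, Complex.norm_real, Real.norm_of_nonneg hr.1.le]
        exact mul_le_of_le_one_left (mul_nonneg hr.1.le (norm_nonneg _)) hζ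
      linarith [norm_add_le ((x : ℂ) • (Complex.I • w)) (ζ • (r : ℂ) • w)])
  refine h1.trans (le_of_eq (integral_congr_ae (Eventually.of_forall fun θ => ?_)))
  have h2 : cp y + (x : ℂ) • (Complex.I • w) + ang θ • (r : ℂ) • w =
      cp y + (((x + r * Real.sin θ : ℝ) : ℂ) • (Complex.I • w) +
        ((r * Real.cos θ : ℝ) : ℂ) • w) := by
    rw [ang, Complex.exp_mul_I]
    push_cast
    simp only [smul_smul]
    rw [add_assoc, ← add_smul, ← add_smul]
    congr 2
    ring
  have h3 := hI _ (Real.abs_cos_le_one θ) w rfl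
  have h4 := hmem θ
  change psi ((bch y).symm _) = psi _
  rw [h2]
  change psi (sh y _) = _
  rw [← sh_sh (by linarith), psi, psi, h]
  linarith [dl_sh (y := y) (w := ((x + r * Real.sin θ : ℝ) : ℂ) • (Complex.I • w)) (by linarith)]

/-- growth along the lift of a segment -/
theorem grow {u : E q} (hc : ∀ y : Y, ConvexOn ℝ {s : ℝ | ‖(s : ℂ) • u‖ < dl y}
      fun s : ℝ => psi (sh y ((s : ℂ) • u))) {h m : ℝ} (hh : 0 < h) {y0 : Y}
    (h0 : psi y0 + m ≤ psi (sh y0 ((h : ℂ) • u))) {N : ℕ}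
    (hN : ∀ k ≤ N, ∀ y : Y, cp y = cp y0 + ((k * h : ℝ) : ℂ) • u → 2 * ‖(h : ℂ) • u‖ < dl y) :
    ∀ k ≤ N, ∃ y : Y, cp y = cp y0 + ((k * h : ℝ) : ℂ) • u ∧
      psi y + m ≤ psi (sh y ((h : ℂ) • u)) ∧ k * m ≤ psi y := by
  intro k
  induction k with
  | zero => exact fun _ => ⟨y0, by simp, h0, by simpa using psi_nonneg y0⟩
  | succ k ih =>
    intro hk
    obtain ⟨y, h1, h2, h3⟩ := ih (by omega)
    have h4 := hN k (by omega) y h1
    have h5 : ‖(h : ℂ) • u‖ < dl y := by linarith [norm_nonneg ((h : ℂ) • u)]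
    refine ⟨sh y ((h : ℂ) • u), ?_, ?_, by push_cast; linarith⟩
    · rw [cp_sh h5, h1, add_assoc, ← add_smul]
      congr 2
      push_cast
      ring
    · have h6 : ((2 * h : ℝ) : ℂ) • u = (h : ℂ) • u + (h : ℂ) • u := by
        rw [← add_smul]; congr 1; push_cast; ring
      have h9 : (0 : ℝ) ∈ {s : ℝ | ‖(s : ℂ) • u‖ < dl y} := by simpa using dl_pos y
      have h10 : 2 * h ∈ {s : ℝ | ‖(s : ℂ) • u‖ < dl y} := by
        change ‖((2 * h : ℝ) : ℂ) • u‖ < dl y
        rw [h6]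
        linarith [norm_add_le ((h : ℂ) • u) ((h : ℂ) • u)]
      have h7 := (hc y).2 h9 h10 (show (0 : ℝ) ≤ 1 / 2 by norm_num)
        (show (0 : ℝ) ≤ 1 / 2 by norm_num) (by norm_num)
      have h8 : (1 / 2 : ℝ) * 0 + 1 / 2 * (2 * h) = h := by ring
      simp only [smul_eq_mul, h8, h6, Complex.ofReal_zero, zero_smul, sh_zero] at h7
      rw [sh_sh (by linarith)]
      linarith

/-- uniform lower bound over compact subsets of the complement of `D0` -/
theorem low_compact (D : PD q Y G) {K : Set (E q)} (hK : IsCompact K) (h : ∀ t ∈ K, t ∉ D.D0) :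
    ∃ c : ℝ, 0 < c ∧ ∀ y : Y, cp y ∈ K → c ≤ dl y := by
  revert h
  refine hK.induction_on (p := fun s => (∀ t ∈ K, t ∉ D.D0) →
    ∃ c : ℝ, 0 < c ∧ ∀ y : Y, cp y ∈ s → c ≤ dl y) ?_ ?_ ?_ ?_
  · exact fun _ => ⟨1, one_pos, by simp⟩
  · intro s t hst h h'
    obtain ⟨c, hc, h1⟩ := h h'
    exact ⟨c, hc, fun y hy => h1 y (hst hy)⟩
  · intro s t h1 h2 h'
    obtain ⟨c, hc, h3⟩ := h1 h'
    obtain ⟨c', hc', h4⟩ := h2 h'
    refine ⟨min c c', lt_min hc hc', fun y hy => ?_⟩
    rcases hy with hy | hy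
    · exact (min_le_left _ _).trans (h3 y hy)
    · exact (min_le_right _ _).trans (h4 y hy)
  · intro t ht
    by_cases h0 : t ∈ D.D0
    · exact ⟨univ, univ_mem, fun h' => (h' t ht h0).elim⟩
    obtain ⟨c, hc, h1⟩ := D.low t h0
    exact ⟨_, mem_nhdsWithin_of_mem_nhds h1, fun _ => ⟨c, hc, fun y hy => hy y rfl⟩⟩

/-- the periods -/
def per (D : PD q Y G) : AddSubgroup (E q) where
  carrier := range D.lam
  add_mem' := by rintro _ _ ⟨g, rfl⟩ ⟨h, rfl⟩; exact ⟨g * h, D.lam_mul g h⟩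
  zero_mem' := ⟨1, by simpa using D.lam_mul 1 1⟩
  neg_mem' := by
    rintro _ ⟨g, rfl⟩
    have h1 : D.lam 1 = 0 := by simpa using D.lam_mul 1 1
    have h2 := D.lam_mul g⁻¹ g
    rw [inv_mul_cancel, h1] at h2
    exact ⟨g⁻¹, eq_neg_of_add_eq_zero_left h2.symm⟩

/-- step (2), one sided -/
theorem le_of_convex (D : PD q Y G) {u : E q}
    (hc : ∀ y : Y, ConvexOn ℝ {s : ℝ | ‖(s : ℂ) • u‖ < dl y}
      fun s : ℝ => psi (sh y ((s : ℂ) • u))) {x0 : ℝ} (hx0 : 0 < x0) {y : Y}
    (hy : ‖(x0 : ℂ) • u‖ < dl y) : dl y ≤ dl (sh y ((x0 : ℂ) • u)) := by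
  refine le_of_dense (dense_cp (dense_line D.sth u)) (fun y0 hg hy0 => ?_) hy
  by_contra hlt
  rw [not_le] at hlt
  have hg' : ∀ x : ℝ, cp y0 + (x : ℂ) • u ∉ D.D0 := hg
  set y1 := sh y0 ((x0 : ℂ) • u) with hy1
  have hm : 0 < (psi y1 - psi y0) / x0 :=
    div_pos (by have := Real.log_lt_log (dl_pos _) hlt; unfold psi; linarith) hx0
  set m := (psi y1 - psi y0) / x0 with hmdef
  obtain ⟨c0, hc0, hlow⟩ := D.low (cp y0) (by simpa using hg' 0)
  obtain ⟨ε, hε, hball⟩ := Metric.eventually_nhds_iff.1 hlow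
  obtain ⟨R, hR⟩ := D.coc
  obtain ⟨b, hb, _, ⟨g, rfl⟩, hbg⟩ := recur (per D) (R := R)
    (fun t => (hR t).elim fun g hg => ⟨_, ⟨g, rfl⟩, hg⟩) u hε (x0 + (|Real.log c0| + 1) / m)
  have hbx : (|Real.log c0| + 1) / m ≤ b - x0 := by linarith
  have hbx0 : 0 < b - x0 := lt_of_lt_of_le (by positivity) hbx
  obtain ⟨c, hc1, hlow1⟩ := low_compact D (K := (fun x : ℝ => cp y0 + (x : ℂ) • u) '' Icc 0 b)
    (isCompact_Icc.image (by fun_prop)) (by rintro _ ⟨x, -, rfl⟩; exact hg' x)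
  set δ : ℝ := min c (dl y0 - ‖(x0 : ℂ) • u‖) with hδ
  have hδ0 : 0 < δ := lt_min hc1 (sub_pos.2 hy0)
  obtain ⟨N, hN⟩ := exists_nat_gt (2 * ((b - x0) * ‖u‖) / δ)
  have hN0 : (0 : ℝ) < N := lt_of_le_of_lt (by positivity) hN
  set h : ℝ := (b - x0) / N with hh
  have hh0 : 0 < h := div_pos hbx0 hN0
  have hNh : N * h = b - x0 := by rw [hh]; field_simp
  have hhu : 2 * ‖(h : ℂ) • u‖ < δ := by
    rw [norm_smul, Complex.norm_real, Real.norm_of_nonneg hh0.le]
    rw [div_lt_iff₀ hδ0, ← hNh] at hN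
    nlinarith
  have hn0 := norm_nonneg ((h : ℂ) • u)
  have hδ1 : δ ≤ dl y0 - ‖(x0 : ℂ) • u‖ := min_le_right _ _
  have hcp1 : cp y1 = cp y0 + (x0 : ℂ) • u := cp_sh hy0
  have hsum : ((x0 + h : ℝ) : ℂ) • u = (x0 : ℂ) • u + (h : ℂ) • u := by
    rw [Complex.ofReal_add, add_smul]
  have hQ : psi y1 + m * h ≤ psi (sh y1 ((h : ℂ) • u)) := by
    have h1 := (hc y0).slope_mono_adjacent (x := 0) (y := x0) (z := x0 + h)
      (by simpa using dl_pos y0) (by
        change ‖((x0 + h : ℝ) : ℂ) • u‖ < dl y0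
        rw [hsum]
        linarith [norm_add_le ((x0 : ℂ) • u) ((h : ℂ) • u)]) hx0 (by linarith)
    simp only [Complex.ofReal_zero, zero_smul, sh_zero, sub_zero, add_sub_cancel_left, hsum] at h1
    rw [← sh_sh (by linarith), ← hy1, ← hmdef, le_div_iff₀ hh0] at h1
    linarith
  obtain ⟨y2, h1, -, h2⟩ := grow hc hh0 hQ (N := N) (fun k hk y hy => by
    refine hhu.trans_le ((min_le_left _ _).trans (hlow1 y ⟨x0 + k * h, ⟨by positivity, ?_⟩, ?_⟩))
    · have : (k : ℝ) ≤ N := by exact_mod_cast hk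
      nlinarith
    · simp only
      rw [hy, hcp1, Complex.ofReal_add, add_smul, add_assoc]) N le_rfl
  have h3 : cp (g⁻¹ • y2) = cp y0 + ((b : ℂ) • u - D.lam g) := by
    have h4 := D.eqv g (g⁻¹ • y2)
    rw [smul_inv_smul, h1, hcp1, hNh, add_assoc, ← add_smul, ← Complex.ofReal_add,
      add_sub_cancel] at h4
    rw [← add_sub_assoc, h4, add_sub_cancel_right]
  have h4 := hball (y := cp (g⁻¹ • y2)) (by rwa [h3, dist_eq_norm, add_sub_cancel_left]) _ rfl
  rw [(D.tr g⁻¹).dl_eq] at h4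
  have h5 := Real.log_le_log hc0 h4
  have h6 : (N : ℝ) * (m * h) = m * (b - x0) := by rw [← hNh]; ring
  rw [div_le_iff₀ hm] at hbx
  have h7 := neg_abs_le (Real.log c0)
  unfold psi at h2
  nlinarith

/-- step (2) -/
theorem rinv_I (D : PD q Y G) {w : E q} (h : RInv Y w) : RInv Y (Complex.I • w) := by
  have key : ∀ w : E q, RInv Y w → ∀ s : ℝ, 0 < s → ∀ y : Y,
      ‖(s : ℂ) • (Complex.I • w)‖ < dl y → dl (sh y ((s : ℂ) • (Complex.I • w))) = dl y := by
    intro w h s hs y hy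
    refine eq_of_le (fun y hy => le_of_convex D (convexOn_psi D.psh h) hs hy) (fun y hy => ?_) hy
    rw [← smul_neg, ← smul_neg] at hy ⊢
    exact le_of_convex D (convexOn_psi D.psh h.neg) hs hy
  intro y s hs
  rcases lt_trichotomy s 0 with h1 | h1 | h1
  · have h2 : (s : ℂ) • (Complex.I • w) = ((-s : ℝ) : ℂ) • (Complex.I • -w) := by simp
    rw [h2] at hs ⊢
    exact key _ h.neg _ (by linarith) y hs
  · simp [h1, sh_zero]
  · exact key w h s h1 y hs

theorem mem_Vd_of_rinv {w : E q} (h : RInv Y w) (h' : RInv Y (Complex.I • w)) : w ∈ Vd Y := by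
  intro y
  filter_upwards [eventually_norm_smul_lt w (half_pos (dl_pos y))] with ζ hζ
  have h1 : ζ • w = (ζ.re : ℂ) • w + (ζ.im : ℂ) • (Complex.I • w) := by
    rw [smul_smul, ← add_smul, Complex.re_add_im]
  have h2 : ‖(ζ.re : ℂ) • w‖ < dl y / 2 := by
    refine lt_of_le_of_lt ?_ hζ
    rw [norm_smul, norm_smul, Complex.norm_real]
    exact mul_le_mul_of_nonneg_right (Complex.abs_re_le_norm ζ) (norm_nonneg _)
  have h3 : ‖(ζ.im : ℂ) • (Complex.I • w)‖ < dl y / 2 := by
    refine lt_of_le_of_lt ?_ hζ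
    rw [norm_smul, norm_smul, norm_smul, Complex.norm_real, Complex.norm_I, one_mul]
    exact mul_le_mul_of_nonneg_right (Complex.abs_im_le_norm ζ) (norm_nonneg _)
  have h0 := dl_pos y
  have h4 := h y ζ.re (by linarith)
  rw [h1, ← sh_sh (by linarith), h' _ _ (by rw [h4]; linarith), h4]

end Rt

/-- the invariant directions form a rational subspace -/
theorem PD.rat {G : Type} [Group G] [MulAction G Y] (D : PD q Y G) {φ : E q → Y → Y}
    (hf : Flow φ) :
    ∃ c : ℝ, 0 < c ∧ ∀ g, ∀ v ∈ Vd Y, ‖D.lam g - v‖ < c → D.lam g ∈ Vd Y := by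
  by_contra hcon
  push Not at hcon
  obtain ⟨w, hw, hcl⟩ := Rt.exists_dir (Vd Y) (Rt.per D ⊔ (Vd Y).toAddSubgroup)
    (fun v hv => AddSubgroup.mem_sup_right hv) (fun c hc => by
      obtain ⟨g, v, hv, h1, h2⟩ := hcon c hc
      refine ⟨_, AddSubgroup.sub_mem _ (AddSubgroup.mem_sup_left ⟨g, rfl⟩)
        (AddSubgroup.mem_sup_right hv), h1, fun h3 => h2 ?_⟩
      simpa using (Vd Y).add_mem h3 hv)
  have h1 : Rt.RInv Y w := Rt.rinv_of_lim D fun s ε hε => by
    obtain ⟨a, ha, h2⟩ := Metric.mem_closure_iff.1 (hcl s) ε hε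
    obtain ⟨_, ⟨g, rfl⟩, v, hv, rfl⟩ := AddSubgroup.mem_sup.1 ha
    refine ⟨fun y => g • φ v y, D.lam g + v, fun y => ?_, fun y => ?_, ?_⟩
    · rw [D.eqv, hf.cp_eq v hv]; abel
    · rw [(D.tr g).dl_eq, hf.dl_eq v hv]
    · rwa [dist_comm, dist_eq_norm] at h2
  exact hw (Rt.mem_Vd_of_rinv h1 (Rt.rinv_I D h1))

end Crest.Agent.X261.Fib
end
end

-- ▼ part X261/Fib/Hor
section

/-!
# X261 / FIB Hor (helper84): invariant holomorphic functions with polynomial growth and free
`1`-jet (`PD.jets`), by Poincaré series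
-/

set_option autoImplicit false
set_option linter.unusedSectionVars false

noncomputable section

open Set Metric Filter Topology MeasureTheory
open scoped ENNReal

namespace Crest.Agent.X261.Fib

open Crest.Agent.R271.Ho51 Crest.Agent.R273.Reg_844

variable {q : ℕ} {Y : Type} [TopologicalSpace Y] [RDom q Y] [T2Space Y]

namespace Hr

/-- Weierstrass' theorem for normally convergent series -/
theorem series {ι : Type} {g : ι → E q → ℂ} {u : ι → ℝ} {ρ : ℝ} (hρ : 0 < ρ) (hu : Summable u)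
    (hg : ∀ l, DifferentiableOn ℂ (g l) (ball 0 ρ)) (hb : ∀ l, ∀ w ∈ ball 0 ρ, ‖g l w‖ ≤ u l) :
    HasFDerivAt (fun w => ∑' l, g l w) (∑' l, fderiv ℂ (g l) 0) 0 := by
  have hs : ball (0 : E q) (ρ / 2) ⊆ ball 0 ρ := ball_subset_ball (by linarith)
  refine hasFDerivAt_tsum_of_isPreconnected (u := fun l => 2 * u l / (ρ / 2))
    (f' := fun l w => fderiv ℂ (g l) w) ((hu.mul_left 2).div_const _) isOpen_ball
    (convex_ball (0 : E q) (ρ / 2)).isPreconnected
    (fun l w hw => ((hg l).differentiableAt (isOpen_ball.mem_nhds (hs hw))).hasFDerivAt)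
    (fun l w hw => ?_) (mem_ball_self (half_pos hρ))
    (Summable.of_norm_bounded hu fun l => hb l 0 (mem_ball_self hρ)) (mem_ball_self (half_pos hρ))
  have h1 : ball w (ρ / 2) ⊆ ball 0 ρ := ball_subset_ball' (by linarith [mem_ball.1 hw])
  refine Complex.norm_fderiv_le_div_of_mapsTo_ball ((hg l).mono h1) (fun z hz => ?_) (half_pos hρ)
  rw [mem_closedBall, dist_eq_norm]
  linarith [norm_sub_le (g l z) (g l w), hb l z (h1 hz), hb l w (hs hw)]

variable {G : Type} [Group G] [MulAction G Y] (P : PD q Y G)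

/-- a section of the period map -/
def sec (l : Rt.per P) : G := (show (l : E q) ∈ range P.lam from l.2).choose

theorem lam_sec (l : Rt.per P) : P.lam (sec P l) = l :=
  (show (l : E q) ∈ range P.lam from l.2).choose_spec

/-- translation by a period -/
def pt (l : Rt.per P) (y : Y) : Q P := pr P (sec P l • y)

theorem pt_cont (l : Rt.per P) : Continuous (pt P l) := (pr_cont P).comp (P.cont _)

theorem cp_pt (l : Rt.per P) (y : Y) : cp (pt P l y) = cp y + l := by
  rw [pt, cp_pr, P.eqv, lam_sec]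

theorem pt_smul (l : Rt.per P) (g : G) (y : Y) :
    pt P l (g • y) = pt P (l + ⟨P.lam g, g, rfl⟩) y := by
  refine (pr_eq P).2 ⟨sec P (l + ⟨P.lam g, g, rfl⟩) * g⁻¹ * (sec P l)⁻¹, ?_, ?_⟩
  · rw [P.lam_mul, P.lam_mul, lam_inv, lam_inv, lam_sec, lam_sec]
    simp
  · simp [mul_smul]

theorem pt_sh (l : Rt.per P) {y : Y} {w : E q} (h : ‖w‖ < dl y) :
    pt P l (sh y w) = sh (pt P l y) w := map_sh' (pt_cont P l) (cp_pt P l) h

theorem dl_le_pt (l : Rt.per P) (y : Y) : dl y ≤ dl (pt P l y) :=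
  dl_le_map (pt_cont P l) (cp_pt P l) y

theorem exists_sep : ∃ c : ℝ, 0 < c ∧ ∀ l l' : Rt.per P, l ≠ l' → c ≤ ‖(l : E q) - l'‖ := by
  obtain ⟨c, hc, h⟩ := P.disc
  refine ⟨c, hc, fun l l' hl => ?_⟩
  have h1 : P.lam (sec P (l - l')) = (l : E q) - l' := lam_sec P _
  rw [← h1]
  exact h _ (by rw [h1, sub_ne_zero]; exact fun h2 => hl (Subtype.ext h2))

variable {Ψ : Y → ℝ} (hW : Wt Ψ)

theorem wq_pt (l : Rt.per P) (y : Y) : wq P hW (pt P l y) = Ψ y := hW.inv _ (P.tr _) y

theorem levi_pt (l : Rt.per P) (y : Y) (w : E q) : Levi (wq P hW) (pt P l y) w = Levi Ψ y w := by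
  rw [← Levi_map (pt_cont P l) (cp_pt P l)]
  simp only [wq_pt]

include hW in
theorem exists_low {m : ℝ} (hm : 0 ≤ m) : ∃ (N : ℕ) (c : ℝ), 0 < c ∧ ∀ (y : Y) (w : E q),
    ‖w‖ ≤ dl y / 2 → c * dl y ^ N ≤ Real.exp (-(m * Ψ (sh y w))) := by
  obtain ⟨K, C, hK⟩ := hW.le
  obtain ⟨N, hN⟩ := exists_nat_ge (m * |K|)
  refine ⟨N, Real.exp (-(m * (|K| * Real.log 2 + C))), Real.exp_pos _, fun y w hw => ?_⟩
  rw [← exp_neg_psi, ← Real.exp_nat_mul, ← Real.exp_add, Real.exp_le_exp]
  have h1 := mul_le_mul_of_nonneg_right (le_abs_self K) (psi_nonneg (sh y w))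
  have h2 := mul_le_mul_of_nonneg_left (psi_sh_le hw) (abs_nonneg K)
  have h3 := mul_le_mul_of_nonneg_left
    (show Ψ (sh y w) ≤ |K| * (psi y + Real.log 2) + C by linarith [hK (sh y w)]) hm
  have h4 := mul_le_mul_of_nonneg_right hN (psi_nonneg y)
  linarith

theorem hol_cont {M : Type} [TopologicalSpace M] [RDom q M] [T2Space M] {F : M → ℂ} (hF : Hol F) :
    Continuous F := continuous_iff_continuousAt.2 fun y => by
  have h1 : ContinuousAt (fun w => F (sh y w)) (cp y - cp y) := by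
    rw [sub_self]
    exact (hol_sh hF y).continuousOn.continuousAt (ball_mem_nhds _ (dl_pos y))
  refine (ContinuousAt.comp (f := fun y' => cp y' - cp y) h1
    ((cp_cont (M := M)).sub continuous_const).continuousAt).congr ?_
  filter_upwards [eventually_eq_sh y] with y' hy'
  exact (congrArg F hy').symm

/-- the estimate for the Poincaré series -/
theorem est [MeasurableSpace (Q P)] [BorelSpace (Q P)] {μ : Measure (Q P)} (hμ : IsLeb μ)
    {κ : ℝ} (h0 : 0 < κ) (h4 : κ ≤ 1 / 4)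
    (hκ : ∀ l l' : Rt.per P, l ≠ l' → 4 * κ < ‖(l : E q) - l'‖) {m : ℝ} (hm : 0 ≤ m)
    {F : Q P → ℂ} (hF : Hol F)
    (hI : ∫⁻ x, ENNReal.ofReal (‖F x‖ ^ 2 * Real.exp (-(m * wq P hW x))) ∂μ ≠ ⊤) :
    ∃ (N : ℕ) (C : ℝ), ∀ y : Y, ∃ u : Rt.per P → ℝ, 0 ≤ u ∧
      (∀ T : Finset (Rt.per P), ∑ l ∈ T, u l ≤ C / dl y ^ N) ∧
      ∀ l w, ‖w‖ ≤ κ * dl y → ‖F (pt P l (sh y w))‖ ^ 2 ≤ u l := by
  obtain ⟨N, c, hc, hlow⟩ := exists_low hW hm
  set W : Q P → ℝ≥0∞ := fun x => ENNReal.ofReal (‖F x‖ ^ 2 * Real.exp (-(m * wq P hW x))) with hWd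
  have hv := v1_pos (q := q)
  refine ⟨2 * q + N, (∫⁻ x, W x ∂μ).toReal / (κ ^ (2 * q) * v1 q * c), fun y => ?_⟩
  have hd := dl_pos y
  set ρ : ℝ := κ * dl y with hρ
  have hρ0 : 0 < ρ := by positivity
  have hρ1 : ρ ≤ dl y / 4 := by nlinarith
  have hρ2 : ρ ≤ κ := mul_le_of_le_one_right h0.le (dl_le_one y)
  set S : Rt.per P → Set (Q P) := fun l => sh (pt P l y) '' closedBall 0 (2 * ρ) with hS
  have hfin : ∀ l, ∫⁻ x in S l, W x ∂μ ≠ ⊤ := fun l =>
    ne_top_of_le_ne_top hI (lintegral_mono' Measure.restrict_le_self le_rfl)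
  refine ⟨fun l => (∫⁻ x in S l, W x ∂μ).toReal / (ρ ^ (2 * q) * v1 q * (c * dl y ^ N)),
    fun l => by positivity, fun T => ?_, fun l w hw => ?_⟩
  · rw [← Finset.sum_div, ← ENNReal.toReal_sum fun l _ => hfin l,
      ← lintegral_biUnion_finset ?_ fun l _ =>
        (isCompact_sh (by linarith [dl_le_pt P l y])).measurableSet, div_div]
    · have h1 : ρ ^ (2 * q) * v1 q * (c * dl y ^ N) =
          κ ^ (2 * q) * v1 q * c * dl y ^ (2 * q + N) := by rw [hρ]; ring
      rw [h1]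
      refine div_le_div_of_nonneg_right (ENNReal.toReal_mono hI ?_) (by positivity)
      exact lintegral_mono' Measure.restrict_le_self le_rfl
    · intro l _ l' _ hl
      rw [Function.onFun, Set.disjoint_left]
      rintro _ ⟨v, hv, rfl⟩ ⟨v', hv', h1⟩
      rw [mem_closedBall_zero_iff] at hv hv'
      have h2 := congrArg cp h1
      rw [cp_sh (by linarith [dl_le_pt P l' y]), cp_sh (by linarith [dl_le_pt P l y]), cp_pt, cp_pt,
        add_assoc, add_assoc, add_right_inj] at h2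
      have h3 : (l : E q) - l' = v' - v := by rw [sub_eq_sub_iff_add_eq_add, ← h2, add_comm]
      have h5 := hκ l l' hl
      rw [h3] at h5
      linarith [norm_sub_le v' v]
  · have h1 := dl_le_pt P l y
    have h2 := dl_sh (y := pt P l y) (w := w) (by linarith)
    have h3 := submean hμ (y := sh (pt P l y) w) (ρ := ρ) (ρ' := 2 * ρ) hρ0.le (by linarith)
      (by linarith) (hol_cont hF) ((hol_sh hF _).mono (ball_subset_ball (by linarith))) (W := W)
      (c := c * dl y ^ N) (S := S l) (by positivity) fun w' hw' => by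
        have h5 : ‖w + w'‖ ≤ 2 * ρ := by linarith [norm_add_le w w']
        rw [sh_sh (by linarith)]
        refine ⟨⟨_, mem_closedBall_zero_iff.2 h5, rfl⟩, ENNReal.ofReal_le_ofReal ?_⟩
        rw [mul_comm]
        refine mul_le_mul_of_nonneg_left ?_ (by positivity)
        rw [← pt_sh P l (by linarith), wq_pt]
        exact hlow y _ (by linarith)
    have h5 := (ENNReal.ofReal_le_iff_le_toReal (hfin l)).1 h3
    rw [pt_sh P l (by linarith), le_div_iff₀ (by positivity)]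
    linarith

/-- the `1`-jets -/
def jt (j : Option (Fin q)) (v : E q) : ℂ := j.elim 1 fun i => v i

end Hr

open Hr in
/-- invariant holomorphic functions with polynomial growth and free `1`-jet -/
theorem PD.jets {G : Type} [Group G] [MulAction G Y] (P : PD q Y G) {Ψ : Y → ℝ} (hW : Wt Ψ)
    (hp : ∀ y, psi y ≤ Ψ y) {y0 : Y} {c : ℝ} (hc : 0 < c)
    (hs : ∀ w, c * nsq w ≤ Levi Ψ y0 w) :
    ∃ H : Option (Fin q) → Y → ℂ, Jets y0 H ∧ ∀ j (g : G) y, H j (g • y) = H j y := by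
  classical
  obtain ⟨ρ, hρ, hρc, hρl⟩ := exh P hW hp
  have := secondCountable_of_exh hρc
  borelize (Q P)
  obtain ⟨μ, hμ⟩ := exists_leb (M := Q P)
  obtain ⟨c0, hc0, hsep⟩ := exists_sep P
  have h1 : ∀ᶠ v in 𝓝 (0 : E q), ∀ w, c / 2 * nsq w ≤ Levi Ψ (sh y0 v) w := by
    have h2 := continuousAt_sh (y := y0) (w := 0) (by simpa using dl_pos y0)
    rw [ContinuousAt, sh_zero] at h2
    exact h2.eventually (levi_near hW.sm hc hs)
  obtain ⟨r1, hr1, h2⟩ := Metric.eventually_nhds_iff.1 h1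
  set r : ℝ := min r1 (min (dl y0) (c0 / 2)) with hr
  have hr2 : r ≤ dl y0 := (min_le_right _ _).trans (min_le_left _ _)
  have hr3 : r ≤ c0 / 2 := (min_le_right _ _).trans (min_le_right _ _)
  have hSh : Shs (fun l => pt P l y0) r :=
    ⟨lt_min hr1 (lt_min (dl_pos _) (by positivity)), fun l => hr2.trans (dl_le_pt P l y0),
      fun l l' hl => by
        rw [cp_pt, cp_pt, add_sub_add_left_eq_sub]
        linarith [hsep l l' hl]⟩
  have key := fun j : Option (Fin q) => solve hμ hρ hρc hρl (sm_wq P hW)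
    (fun x => by obtain ⟨y, rfl⟩ := pr_surj P x; exact hW.nonneg y)
    (fun x w => by obtain ⟨y, rfl⟩ := pr_surj P x; rw [levi_wq]; exact hW.lev y w) hSh (half_pos hc)
    (fun l v hv w => by
      rw [← pt_sh P l (hv.trans_le hr2), levi_pt]
      exact h2 (by simpa using hv.trans_le (min_le_left _ _)) w) 0
    (f := fun l v => if l = 0 then jt j v else 0)
    (fun l => by
      split_ifs
      · cases j <;> simp only [jt, Option.elim] <;> fun_prop
      · exact contDiff_const) (fun l hl v => if_neg hl)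
  choose m F hm hF hI hjet using key
  set κ : ℝ := min (1 / 4) (c0 / 5) with hκ
  have hκ0 : 0 < κ := lt_min (by norm_num) (by positivity)
  have hκ1 : κ ≤ 1 / 4 := min_le_left _ _
  choose N C hest using fun j => est P hW hμ hκ0 hκ1
    (fun l l' hl => by linarith [hsep l l' hl, min_le_right (1 / 4) (c0 / 5)]) (hm j) (hF j) (hI j)
  choose u hu0 hu1 hu2 using hest
  have hb : ∀ j y l w, ‖w‖ ≤ κ * dl y →
      ‖F none (pt P l (sh y w)) * F j (pt P l (sh y w))‖ ≤ u none y l + u j y l := by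
    intro j y l w hw
    rw [norm_mul]
    nlinarith [hu2 none y l w hw, hu2 j y l w hw,
      sq_nonneg (‖F none (pt P l (sh y w))‖ - ‖F j (pt P l (sh y w))‖),
      mul_nonneg (norm_nonneg (F none (pt P l (sh y w)))) (norm_nonneg (F j (pt P l (sh y w))))]
  have hsum : ∀ j y, Summable (u j y) := fun j y => summable_of_sum_le (hu0 j y) (hu1 j y)
  have hκd : ∀ y : Y, κ * dl y ≤ dl y := fun y =>
    mul_le_of_le_one_left (dl_pos y).le (by linarith)
  have hder := fun j y => series (g := fun l w => F none (pt P l (sh y w)) * F j (pt P l (sh y w)))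
    (mul_pos hκ0 (dl_pos y)) ((hsum none y).add (hsum j y))
    (fun l => (((hol_sh (hF none) (pt P l y)).mul (hol_sh (hF j) (pt P l y))).mono
      (ball_subset_ball ((hκd y).trans (dl_le_pt P l y)))).congr fun w hw => by
        rw [pt_sh P l ((mem_ball_zero_iff.1 hw).trans_le (hκd y))]; rfl)
    fun l w hw => hb j y l w (mem_ball_zero_iff.1 hw).le
  have hz : ∀ i l, F (some i) (pt P l y0) = 0 := fun i l => by
    rw [(hjet (some i) l).1]; simp [jt]
  refine ⟨fun j y => ∑' l, F none (pt P l y) * F j (pt P l y),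
    ⟨fun j => hol_of_sh fun y => (hder j y).differentiableAt,
      ⟨∑ j, N j, 2 * ∑ j, |C j|, fun j y => ?_⟩, ?_, fun i => ?_, fun i w => ?_⟩,
    fun j g y => ?_⟩
  · have hd := dl_pos y
    have h3 : ∀ j, (∑' l, u j y l) * dl y ^ (∑ j, N j) ≤ ∑ j, |C j| := fun j => by
      have h4 := Real.tsum_le_of_sum_le (hu0 j y) (hu1 j y)
      rw [le_div_iff₀ (by positivity)] at h4
      refine le_trans (mul_le_mul_of_nonneg_left (pow_le_pow_of_le_one hd.le (dl_le_one y)
        (Finset.single_le_sum (fun _ _ => Nat.zero_le _) (Finset.mem_univ j)))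
        (tsum_nonneg (hu0 j y))) (h4.trans ((le_abs_self _).trans ?_))
      exact Finset.single_le_sum (f := fun j => |C j|) (fun _ _ => abs_nonneg _) (Finset.mem_univ j)
    have h4 := tsum_of_norm_bounded ((hsum none y).add (hsum j y)).hasSum fun l =>
      hb j y l 0 (by simpa using (mul_pos hκ0 hd).le)
    rw [(hsum none y).tsum_add (hsum j y)] at h4
    simp only [sh_zero] at h4
    have h5 := mul_le_mul_of_nonneg_right h4 (pow_pos hd (∑ j, N j)).le
    linarith [h3 none, h3 j]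
  · rw [tsum_eq_single 0 fun l hl => by rw [(hjet none l).1, if_neg hl, zero_mul], (hjet none 0).1]
    simp [jt]
  · simp [hz]
  · have h5 : fderiv ℂ (fun v : E q => v i) 0 = ContinuousLinearMap.proj i :=
      (ContinuousLinearMap.proj (R := ℂ) (φ := fun _ : Fin q => ℂ) i).fderiv
    have h3 : ∀ l, fderiv ℂ (fun w => F none (pt P l (sh y0 w)) * F (some i) (pt P l (sh y0 w))) 0 =
        if l = 0 then ContinuousLinearMap.proj i else 0 := by
      intro l
      have h4 := (hjet none l).2.mul (hjet (some i) l).2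
      refine (h4.congr_of_eventuallyEq ?_).fderiv.trans (ContinuousLinearMap.ext fun v => ?_)
      · filter_upwards [ball_mem_nhds (0 : E q) (dl_pos y0)] with w hw
        rw [pt_sh P l (mem_ball_zero_iff.1 hw)]
        rfl
      · by_cases hl : l = 0 <;> simp [sh_zero, hz, (hjet none l).1, hl, jt, h5, (hjet none 0).1]
    rw [D_sh, ((hder (some i) y0).restrictScalars ℝ).fderiv,
      ContinuousLinearMap.coe_restrictScalars', tsum_eq_single 0 fun l hl => by rw [h3, if_neg hl],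
      h3, if_pos rfl]
    rfl
  · simp only [pt_smul]
    exact (Equiv.addRight (⟨P.lam g, g, rfl⟩ : Rt.per P)).tsum_eq
      fun l => F none (pt P l y) * F j (pt P l y)

end Crest.Agent.X261.Fib
end
end

-- ▼ part X261/Fib/Cau
section

/-!
# X261 / FIB (helper16), file Cau: domains of existence are pseudoconvex

`psh_of_max` : if a family of holomorphic functions on a Riemann domain does not extend beyond
the boundary, then `psi = - log dl` is plurisubharmonic (Cartan–Thullen).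
-/

set_option autoImplicit false
set_option linter.unusedSectionVars false

noncomputable section

open Set Metric Filter Topology MeasureTheory
open scoped Nat

namespace Crest.Agent.X261.Fib

open Crest.Agent.R271.Ho51 Crest.Agent.R273.Reg_844 Crest.Agent.R281.Thn_280
open Crest.Agent.R266.SCV (analyticOnNhd_of_differentiableOn)

variable {q : ℕ}

/-- Taylor coefficient (times `k!`) along a line -/
def tc (g : E q → ℂ) (z u : E q) (k : ℕ) : ℂ := iteratedDeriv k (fun s : ℂ => g (z + s • u)) 0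

theorem tc_congr {g g' : E q → ℂ} {z : E q} (h : g =ᶠ[𝓝 z] g') (u : E q) (k : ℕ) :
    tc g z u k = tc g' z u k := by
  refine Filter.EventuallyEq.iteratedDeriv_eq k ?_
  have h1 : Tendsto (fun s : ℂ => z + s • u) (𝓝 0) (𝓝 z) := by
    simpa using (by fun_prop : Continuous fun s : ℂ => z + s • u).tendsto 0
  exact h1.eventually h

theorem tc_cauchy {g : E q → ℂ} {z u : E q} {W : Set (E q)} {ρ M : ℝ} (hρ : 0 < ρ)
    (hg : DifferentiableOn ℂ g W) (hW : closedBall z ρ ⊆ W)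
    (hM : ∀ w ∈ closedBall z ρ, ‖g w‖ ≤ M) (hu : ‖u‖ ≤ 1) (k : ℕ) :
    ‖tc g z u k‖ ≤ k ! * M / ρ ^ k := by
  have h1 : ∀ s ∈ closedBall (0 : ℂ) ρ, z + s • u ∈ closedBall z ρ := fun s hs => by
    rw [mem_closedBall, dist_eq_norm, add_sub_cancel_left, norm_smul]
    exact (mul_le_of_le_one_right (norm_nonneg _) hu).trans (by simpa using hs)
  refine Complex.norm_iteratedDeriv_le_of_forall_mem_sphere_norm_le k hρ ?_
    fun s hs => hM _ (h1 s (sphere_subset_closedBall hs))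
  refine DifferentiableOn.diffContOnCl ?_
  rw [closure_ball _ hρ.ne']
  exact hg.comp (by fun_prop) fun s hs => hW (h1 s hs)

theorem tc_series {g : E q → ℂ} {z : E q} {p : FormalMultilinearSeries ℂ (E q) ℂ}
    (hp : HasFPowerSeriesAt g p z) (u : E q) (k : ℕ) : tc g z u k = k ! * p k fun _ => u := by
  have h1 := hp.comp_sub (-z)
  rw [add_neg_cancel, ← map_zero ((ContinuousLinearMap.id ℂ ℂ).smulRight u)] at h1
  obtain ⟨r, h2⟩ := h1.compContinuousLinearMap
  have h3 := h2.factorial_smul (1 : ℂ) k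
  rw [tc, iteratedDeriv_eq_iteratedFDeriv]
  have h4 : (fun s : ℂ => g (z + s • u)) =
      (fun w => g (w - -z)) ∘ ((ContinuousLinearMap.id ℂ ℂ).smulRight u) := by
    funext s
    simp [add_comm]
  rw [h4, ← h3, FormalMultilinearSeries.compContinuousLinearMap_apply, nsmul_eq_mul]
  congr 2
  funext j
  simp

/-- extension by the series of homogeneous polynomials -/
theorem exists_ext {g : E q → ℂ} {z : E q} (hg : AnalyticAt ℂ g z) {ρ ρ' M : ℝ} (h0 : 0 < ρ')
    (hρ : ρ' < ρ) (hM : ∀ u, ‖u‖ ≤ 1 → ∀ k, ‖tc g z u k‖ ≤ k ! * M / ρ ^ k) :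
    ∃ G : E q → ℂ, DifferentiableOn ℂ G (ball z ρ') ∧ G =ᶠ[𝓝 z] g := by
  obtain ⟨p, hp⟩ := hg
  have hρ0 : 0 < ρ := h0.trans hρ
  have h1 : ∀ k, ∀ w ∈ ball z ρ', ‖p k fun _ => w - z‖ ≤ M * (ρ' / ρ) ^ k := by
    intro k w hw
    have h2 : ‖((ρ'⁻¹ : ℝ) : ℂ) • (w - z)‖ ≤ 1 := by
      rw [norm_smul, Complex.norm_real, Real.norm_of_nonneg (by positivity), inv_mul_le_iff₀ h0,
        mul_one, ← dist_eq_norm]
      exact le_of_lt hw
    have h3 := hM _ h2 k
    rw [tc_series hp, norm_mul, Complex.norm_natCast, mul_div_assoc,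
      mul_le_mul_iff_right₀ (by positivity), (p k).map_smul_univ, norm_smul, Finset.prod_const,
      Finset.card_univ, Fintype.card_fin, norm_pow, Complex.norm_real,
      Real.norm_of_nonneg (by positivity), inv_pow, inv_mul_le_iff₀ (by positivity)] at h3
    refine h3.trans (le_of_eq ?_)
    rw [div_pow]
    ring
  have h4 : Summable fun k : ℕ => M * (ρ' / ρ) ^ k :=
    (summable_geometric_of_lt_one (by positivity) ((div_lt_one hρ0).2 hρ)).mul_left M
  refine ⟨fun w => ∑' k, p k fun _ => w - z, ?_, ?_⟩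
  · refine (Crest.Agent.R266.SCV.analyticOnNhd_of_tendstoLocallyUniformlyOn isOpen_ball
      (tendstoUniformlyOn_tsum_nat h4 h1).tendstoLocallyUniformlyOn
      (Eventually.of_forall fun N => ?_)).differentiableOn
    refine (Differentiable.fun_sum fun k _ => ?_).differentiableOn
    exact ((p k).contDiff (n := 1)).differentiable_one.comp (by fun_prop)
  · filter_upwards [hp.eventually_hasSum_sub] with w hw
    exact hw.tsum_eq

/-- Jensen -/
theorem norm_le_exp_av {f : ℂ → ℂ} (hf : AnalyticOnNhd ℂ f (closedBall 0 1)) {ψ : ℂ → ℝ}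
    (hψ : ContinuousOn ψ (sphere 0 1)) (h0 : ∀ ζ, 0 ≤ ψ ζ) {A : ℝ} (hA : 1 ≤ A) (k : ℕ)
    (h : ∀ ζ ∈ sphere (0 : ℂ) 1, ‖f ζ‖ ≤ A * Real.exp (k * ψ ζ)) :
    ‖f 0‖ ≤ A * Real.exp (k * Real.circleAverage ψ 0 1) := by
  by_cases hz : f 0 = 0
  · rw [hz, norm_zero]; positivity
  have hi : CircleIntegrable ψ 0 1 := hψ.circleIntegrable zero_le_one
  have hi' : CircleIntegrable (fun ζ => (k : ℝ) • ψ ζ) 0 1 :=
    (hψ.const_smul (k : ℝ)).circleIntegrable zero_le_one
  have h1 := Crest.Agent.R276.Lq_464.log_le_circleAverage one_pos hf hz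
  have h2 : Real.circleAverage (fun z => Real.log ‖f z‖) 0 1 ≤
      Real.circleAverage (fun ζ => Real.log A + (k : ℝ) • ψ ζ) 0 1 := by
    refine Real.circleAverage_mono
      (((hf.mono sphere_subset_closedBall).meromorphicOn).circleIntegrable_log_norm_of_nonneg
        zero_le_one) ((circleIntegrable_const _ _ _).add hi') fun ζ hζ => ?_
    rw [abs_one] at hζ
    have h3 : 0 ≤ Real.log A + (k : ℝ) • ψ ζ :=
      add_nonneg (Real.log_nonneg hA) (mul_nonneg (Nat.cast_nonneg k) (h0 ζ))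
    rcases (norm_nonneg (f ζ)).eq_or_lt with h4 | h4
    · rwa [← h4, Real.log_zero]
    · refine (Real.log_le_log h4 (h ζ hζ)).trans (le_of_eq ?_)
      rw [Real.log_mul (by positivity) (Real.exp_pos _).ne', Real.log_exp, smul_eq_mul]
  rw [Real.circleAverage_fun_add (circleIntegrable_const _ _ _) hi', Real.circleAverage_const,
    Real.circleAverage_fun_smul, smul_eq_mul] at h2
  have h5 := Real.exp_le_exp.2 (h1.trans h2)
  rwa [Real.exp_log (norm_pos_iff.2 hz), Real.exp_add, Real.exp_log (by positivity)] at h5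

variable {Y : Type} [TopologicalSpace Y] [RDom q Y] [T2Space Y]

theorem Hol.continuous {F : Y → ℂ} (hF : Hol F) : Continuous F := by
  rw [continuous_iff_continuousAt]
  intro x
  have h1 : ContinuousAt (F ∘ (ch x).symm) (cp x) :=
    ((hF _ (isCh_ch x)).differentiableAt ((ch x).open_target.mem_nhds
      ((isCh_ch x).cp_mem (mem_ch x)))).continuousAt
  exact (ContinuousAt.comp (g := F ∘ (ch x).symm) h1 cp_cont.continuousAt).congr
    (eventually_eq_comp (isCh_ch x) (mem_ch x) F).symm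

/-- Cartan–Thullen -/
theorem psh_of_max {ι : Type*} {F : ι → Y → ℂ} (hF : ∀ i, Hol (F i))
    (hmax : ∀ (y : Y) (r : ℝ), 0 < r → (∀ i, ∃ G : E q → ℂ, DifferentiableOn ℂ G (ball (cp y) r) ∧
      G =ᶠ[𝓝 (cp y)] F i ∘ (ch y).symm) → Adm r y) : PSH (psi : Y → ℝ) := by
  refine PSH.mk' continuous_psi.upperSemicontinuous
    (fun _ => ⟨0, Eventually.of_forall psi_nonneg⟩) fun e he z v hd => ?_
  rw [Crest.Agent.R275.FL606.av_eq_circleAverage, psi_le_iff]
  set m := Real.circleAverage (fun w : ℂ => (psi ∘ e.symm) (z + w • v)) 0 1 with hm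
  have hz : z ∈ e.target := by simpa using hd 0 (by simp)
  have hd' : ∀ ζ ∈ sphere (0 : ℂ) 1, z + ζ • v ∈ e.target := fun ζ hζ =>
    hd ζ (le_of_eq (by simpa using hζ))
  have hp : ContinuousOn (fun ζ : ℂ => e.symm (z + ζ • v)) (sphere 0 1) :=
    e.symm.continuousOn.comp (by fun_prop) hd'
  have hm0 : 0 ≤ m := Real.circleAverage_nonneg_of_nonneg fun _ _ => psi_nonneg _
  refine le_of_forall_lt fun ρ' hρ' => ?_
  obtain ⟨ρ, h1, h2⟩ := exists_between (max_lt hρ' (Real.exp_pos (-m)))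
  obtain ⟨ρ₁, h3, h4⟩ := exists_between h1
  have hρ₁ : 0 < ρ₁ := (le_max_right _ _).trans_lt h3
  have hρ : 0 < ρ := hρ₁.trans h4
  refine ((le_max_left _ _).trans_lt h3).trans_le (le_dl ?_ (hmax _ _ hρ₁ fun i => ?_))
  · linarith [Real.exp_le_one_iff.2 (neg_nonpos.2 hm0)]
  set t := ρ * Real.exp m with ht
  have ht0 : 0 < t := by positivity
  have ht1 : t < 1 := by
    have := mul_lt_mul_of_pos_right h2 (Real.exp_pos m)
    rwa [← Real.exp_add, neg_add_cancel, Real.exp_zero] at this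
  have hn : ∀ (y : Y) (w : E q), ‖w‖ ≤ 1 → ‖((t * dl y : ℝ) : ℂ) • w‖ < dl y := fun y w hw => by
    have := dl_pos y
    rw [norm_smul, Complex.norm_real, Real.norm_of_nonneg (by positivity)]
    exact (mul_le_of_le_one_right (by positivity) hw).trans_lt (mul_lt_of_lt_one_left this ht1)
  have hK : IsCompact ((fun p : ℂ × E q => sh (e.symm (z + p.1 • v))
      (((t * dl (e.symm (z + p.1 • v)) : ℝ) : ℂ) • p.2)) '' (sphere 0 1 ×ˢ closedBall 0 1)) := by
    refine ((isCompact_sphere _ _).prod (isCompact_closedBall _ _)).image_of_continuousOn ?_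
    have h5 : ContinuousOn (fun p : ℂ × E q => e.symm (z + p.1 • v))
        (sphere 0 1 ×ˢ closedBall 0 1) := hp.comp continuousOn_fst fun p h => h.1
    have h6 : ContinuousOn (fun p : ℂ × E q => ((t * dl (e.symm (z + p.1 • v)) : ℝ) : ℂ) • p.2)
        (sphere 0 1 ×ˢ closedBall 0 1) :=
      (Complex.continuous_ofReal.comp_continuousOn (continuousOn_const.mul
        (continuous_dl.comp_continuousOn h5))).smul continuousOn_snd
    intro p h
    exact ContinuousAt.comp_continuousWithinAt (g := fun p : Y × E q => sh p.1 p.2)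
      (f := fun p : ℂ × E q => (e.symm (z + p.1 • v),
        ((t * dl (e.symm (z + p.1 • v)) : ℝ) : ℂ) • p.2))
      (continuousAt_sh₂ (hn _ p.2 (by simpa using h.2))) ((h5 p h).prodMk (h6 p h))
  obtain ⟨M0, hM0⟩ := hK.exists_bound_of_continuousOn (Hol.continuous (hF i)).continuousOn
  have hg : AnalyticOnNhd ℂ (F i ∘ e.symm) e.target :=
    analyticOnNhd_of_differentiableOn e.open_target (hF i e he)
  have key : ∀ u : E q, ‖u‖ ≤ 1 → ∀ k, ‖tc (F i ∘ e.symm) z u k‖ ≤ k ! * max M0 1 / ρ ^ k := by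
    intro u hu k
    have h7 : ∀ w ∈ e.target, tc (F i ∘ e.symm) w u k = (dd u)^[k] (F i ∘ e.symm) w := fun w hw => by
      have := iteratedDeriv_line e.open_target hg w u k 0 (by simpa using hw)
      rwa [zero_smul, add_zero] at this
    have h8 : 1 ≤ k ! * max M0 1 / t ^ k := by
      rw [one_le_div (by positivity)]
      exact (pow_le_one₀ ht0.le ht1.le).trans (one_le_mul_of_one_le_of_one_le
        (by exact_mod_cast k.factorial_pos) (le_max_right _ _))
    have h9 := norm_le_exp_av (f := fun ζ : ℂ => (dd u)^[k] (F i ∘ e.symm) (z + ζ • v))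
      (fun ζ hζ => AnalyticAt.comp (g := (dd u)^[k] (F i ∘ e.symm))
        (analyticOnNhd_dd_iter hg u k _ (hd ζ (by simpa using hζ))) (by fun_prop))
      (ψ := fun w : ℂ => (psi ∘ e.symm) (z + w • v)) (continuous_psi.comp_continuousOn hp)
      (fun _ => psi_nonneg _) h8 k fun ζ hζ => by
        set y := e.symm (z + ζ • v) with hy
        have hc : cp y = z + ζ • v := he.cp_symm (hd' ζ hζ)
        have hd0 := dl_pos y
        rw [← h7 _ (hd' ζ hζ), ← hc,
          tc_congr (comp_germ he (isCh_bch y) (e.map_target (hd' ζ hζ)) (mem_bch y) (F i))]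
        refine (tc_cauchy (ρ := t * dl y) (M := max M0 1) (by positivity) (hF i _ (isCh_bch y))
          ((closedBall_subset_ball (mul_lt_of_lt_one_left hd0 ht1)).trans (ball_bch y))
          (fun w hw => ?_) hu k).trans (le_of_eq ?_)
        · refine le_trans (le_of_eq ?_) ((hM0 _ ⟨(ζ, (((t * dl y)⁻¹ : ℝ) : ℂ) • (w - cp y)),
            ⟨hζ, ?_⟩, rfl⟩).trans (le_max_left _ _))
          · simp only [← hy, sh, smul_smul, ← Complex.ofReal_mul,
              mul_inv_cancel₀ (mul_pos ht0 hd0).ne', Complex.ofReal_one, one_smul, add_sub_cancel,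
              Function.comp_apply]
          · rw [mem_closedBall_zero_iff, norm_smul, Complex.norm_real,
              Real.norm_of_nonneg (by positivity), inv_mul_le_iff₀ (by positivity), mul_one,
              ← dist_eq_norm]
            exact hw
        · rw [Function.comp_apply, hc, ← hy, ← exp_neg_psi y, mul_pow, ← Real.exp_nat_mul,
            mul_neg, Real.exp_neg]
          field_simp
    simp only [zero_smul, add_zero] at h9
    rw [h7 z hz]
    refine h9.trans (le_of_eq ?_)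
    rw [← hm, ht, mul_pow, ← Real.exp_nat_mul]
    field_simp
  obtain ⟨G, hG, hG'⟩ := exists_ext (hg z hz) hρ₁ h4 key
  have hc : cp (e.symm z) = z := he.cp_symm hz
  refine ⟨G, by rwa [hc], ?_⟩
  refine EventuallyEq.trans (by rwa [hc]) (comp_germ he (isCh_ch _) (e.map_target hz) (mem_ch _) _)

end Crest.Agent.X261.Fib
end
end

-- ▼ part X261/Fib/Et
section

/-!
# X261 / FIB (helper16), file Et: the étale space of families of holomorphic germs

`Et q ι` is a Hausdorff Riemann domain with `psi` plurisubharmonic; `Cmp y0` is a connected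
component of a Riemann domain.
-/

set_option autoImplicit false
set_option linter.unusedSectionVars false

noncomputable section

open Set Metric Filter Topology

namespace Crest.Agent.X261.Fib

open Crest.Agent.R271.Ho51 Crest.Agent.R273.Reg_844
open Crest.Agent.R266.SCV (analyticOnNhd_of_differentiableOn)

variable {q : ℕ} {ι : Type}

/-- a family of holomorphic functions on `W` -/
def HolF (H : ι → E q → ℂ) (W : Set (E q)) : Prop := ∀ i, DifferentiableOn ℂ (H i) W

theorem HolF.mono {H : ι → E q → ℂ} {W W' : Set (E q)} (h : HolF H W) (h' : W' ⊆ W) : HolF H W' :=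
  fun i => (h i).mono h'

/-- the family of germs at `z` -/
def gm (H : ι → E q → ℂ) (z : E q) : ι → Germ (𝓝 (0 : E q)) ℂ :=
  fun i => ((fun w => H i (z + w) : E q → ℂ) : Germ (𝓝 (0 : E q)) ℂ)

theorem gm_eq_iff {H H' : ι → E q → ℂ} {z : E q} :
    gm H z = gm H' z ↔ ∀ i, H i =ᶠ[𝓝 z] H' i := by
  rw [funext_iff]
  refine forall_congr' fun i => ?_
  rw [gm, gm, Germ.coe_eq]
  constructor
  · intro h
    have h1 : Tendsto (fun w : E q => w - z) (𝓝 z) (𝓝 0) := by
      simpa using (by fun_prop : Continuous fun w : E q => w - z).tendsto z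
    filter_upwards [h1.eventually h] with w hw
    simpa using hw
  · intro h
    have h1 : Tendsto (fun w : E q => z + w) (𝓝 0) (𝓝 z) := by
      simpa using (by fun_prop : Continuous fun w : E q => z + w).tendsto 0
    exact h1.eventually h

/-- the étale space of `ι`-indexed families of germs -/
@[ext] structure Et (q : ℕ) (ι : Type) where
  z : E q
  γ : ι → Germ (𝓝 (0 : E q)) ℂ
  ex : ∃ (H : ι → E q → ℂ) (r : ℝ), 0 < r ∧ HolF H (ball z r) ∧ γ = gm H z

namespace Et

open Classical in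
/-- the section defined by a family -/
def sec (H : ι → E q → ℂ) (z : E q) : Et q ι :=
  if h : ∃ r : ℝ, 0 < r ∧ HolF H (ball z r) then ⟨z, gm H z, H, h.imp fun _ h => ⟨h.1, h.2, rfl⟩⟩
  else ⟨z, gm 0 z, 0, 1, one_pos, fun _ => differentiableOn_const _, rfl⟩

theorem sec_z (H : ι → E q → ℂ) (z : E q) : (sec H z).z = z := by
  unfold sec
  split_ifs <;> rfl

theorem sec_γ {H : ι → E q → ℂ} {W : Set (E q)} (hH : HolF H W) {z : E q} (hz : W ∈ 𝓝 z) :
    (sec H z).γ = gm H z := by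
  obtain ⟨r, hr, hb⟩ := Metric.mem_nhds_iff.1 hz
  unfold sec
  rw [dif_pos ⟨r, hr, hH.mono hb⟩]

theorem exists_sec (p : Et q ι) :
    ∃ (H : ι → E q → ℂ) (r : ℝ), 0 < r ∧ HolF H (ball p.z r) ∧ sec H p.z = p := by
  obtain ⟨H, r, hr, hH, h⟩ := p.ex
  exact ⟨H, r, hr, hH, Et.ext (sec_z _ _) ((sec_γ hH (ball_mem_nhds _ hr)).trans h.symm)⟩

theorem sec_eq_iff {H H' : ι → E q → ℂ} {W W' : Set (E q)} (hH : HolF H W) (hH' : HolF H' W')
    {z : E q} (hz : W ∈ 𝓝 z) (hz' : W' ∈ 𝓝 z) : sec H z = sec H' z ↔ ∀ i, H i =ᶠ[𝓝 z] H' i := by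
  rw [← gm_eq_iff, Et.ext_iff, sec_z, sec_z, sec_γ hH hz, sec_γ hH' hz']
  simp

theorem sec_eqOn {H H' : ι → E q → ℂ} {W : Set (E q)} (hW : IsOpen W) (hc : IsPreconnected W)
    (hH : HolF H W) (hH' : HolF H' W) {z : E q} (hz : z ∈ W) (h : sec H z = sec H' z) :
    EqOn (sec H) (sec H') W := by
  intro w hw
  rw [sec_eq_iff hH hH' (hW.mem_nhds hw) (hW.mem_nhds hw)]
  rw [sec_eq_iff hH hH' (hW.mem_nhds hz) (hW.mem_nhds hz)] at h
  intro i
  exact ((analyticOnNhd_of_differentiableOn hW (hH i)).eqOn_of_preconnected_of_eventuallyEq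
    (analyticOnNhd_of_differentiableOn hW (hH' i)) hc hz (h i)).eventuallyEq_of_mem
    (hW.mem_nhds hw)

instance : TopologicalSpace (Et q ι) where
  IsOpen O := ∀ (H : ι → E q → ℂ) (W : Set (E q)), IsOpen W → HolF H W → IsOpen (W ∩ sec H ⁻¹' O)
  isOpen_univ := fun H W hW _ => by simpa using hW
  isOpen_inter := fun s t hs ht H W hW hH => by
    rw [preimage_inter, inter_inter_distrib_left]
    exact (hs H W hW hH).inter (ht H W hW hH)
  isOpen_sUnion := fun S hS H W hW hH => by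
    rw [preimage_sUnion, inter_iUnion₂]
    exact isOpen_biUnion fun s hs => hS s hs H W hW hH

theorem isOpen_iff {O : Set (Et q ι)} : IsOpen O ↔
    ∀ (H : ι → E q → ℂ) (W : Set (E q)), IsOpen W → HolF H W → IsOpen (W ∩ sec H ⁻¹' O) :=
  Iff.rfl

theorem continuousOn_sec {H : ι → E q → ℂ} {W : Set (E q)} (hW : IsOpen W) (hH : HolF H W) :
    ContinuousOn (sec H) W :=
  (continuousOn_open_iff hW).2 fun _ hO => hO H W hW hH

theorem continuous_z : Continuous (Et.z : Et q ι → E q) := by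
  refine continuous_def.2 fun O hO H W hW _ => ?_
  have : sec H ⁻¹' (Et.z ⁻¹' O) = O := by ext w; simp [sec_z]
  rw [this]
  exact hW.inter hO

theorem isOpen_sheet {H : ι → E q → ℂ} {W : Set (E q)} (hW : IsOpen W) (hH : HolF H W) :
    IsOpen (sec H '' W) := by
  intro H' W' hW' hH'
  rw [Metric.isOpen_iff]
  rintro z ⟨hz', w, hw, h⟩
  have h1 : w = z := by simpa [sec_z] using congrArg Et.z h
  subst h1
  obtain ⟨r, hr, hb⟩ := Metric.isOpen_iff.1 (hW.inter hW') w ⟨hw, hz'⟩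
  refine ⟨r, hr, fun u hu => ⟨(hb hu).2, u, (hb hu).1, ?_⟩⟩
  exact sec_eqOn isOpen_ball (convex_ball _ _).isPreconnected
    (hH.mono (hb.trans inter_subset_left)) (hH'.mono (hb.trans inter_subset_right))
    (mem_ball_self hr) h hu

instance : RDom q (Et q ι) where
  p := Et.z
  hp := fun p => by
    obtain ⟨H, r, hr, hH, h⟩ := exists_sec p
    exact ⟨{ toFun := Et.z
             invFun := sec H
             source := sec H '' ball p.z r
             target := ball p.z r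
             map_source' := by rintro _ ⟨z, hz, rfl⟩; rwa [sec_z]
             map_target' := fun z hz => ⟨z, hz, rfl⟩
             left_inv' := by rintro _ ⟨z, -, rfl⟩; rw [sec_z]
             right_inv' := fun z _ => sec_z H z
             open_source := isOpen_sheet isOpen_ball hH
             open_target := isOpen_ball
             continuousOn_toFun := continuous_z.continuousOn
             continuousOn_invFun := continuousOn_sec isOpen_ball hH },
      ⟨p.z, mem_ball_self hr, h⟩, rfl⟩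

theorem cp_eq (p : Et q ι) : cp p = p.z := rfl

theorem cp_sec (H : ι → E q → ℂ) (z : E q) : cp (sec H z) = z := sec_z H z

instance : T2Space (Et q ι) := by
  refine ⟨fun p p' hne => ?_⟩
  by_cases hz : p.z = p'.z
  · obtain ⟨H, r, hr, hH, h⟩ := exists_sec p
    obtain ⟨H', r', hr', hH', h'⟩ := exists_sec p'
    rw [← hz] at hH' h'
    have h0 : 0 < min r r' := lt_min hr hr'
    have h1 := hH.mono (ball_subset_ball (min_le_left r r'))
    have h2 := hH'.mono (ball_subset_ball (min_le_right r r'))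
    refine ⟨_, _, isOpen_sheet isOpen_ball h1, isOpen_sheet isOpen_ball h2,
      ⟨_, mem_ball_self h0, h⟩, ⟨_, mem_ball_self h0, h'⟩, disjoint_left.2 ?_⟩
    rintro _ ⟨w, hw, rfl⟩ ⟨w', -, h3⟩
    have h4 : w' = w := by simpa [sec_z] using congrArg Et.z h3
    subst h4
    exact hne (h.symm.trans ((sec_eqOn isOpen_ball (convex_ball _ _).isPreconnected h1 h2 hw
      h3.symm (mem_ball_self h0)).trans h'))
  · exact separated_by_continuous continuous_z hz

/-- the value of the `i`-th germ -/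
def val (i : ι) (p : Et q ι) : ℂ := (p.γ i).value

theorem val_sec {H : ι → E q → ℂ} {W : Set (E q)} (hH : HolF H W) {z : E q} (hz : W ∈ 𝓝 z)
    (i : ι) : val i (sec H z) = H i z := by
  rw [val, sec_γ hH hz, gm]
  change H i (z + 0) = _
  rw [add_zero]

theorem val_germ {H : ι → E q → ℂ} {W : Set (E q)} (hW : IsOpen W) (hH : HolF H W) {z : E q}
    (hz : z ∈ W) {e : OpenPartialHomeomorph (Et q ι) (E q)} (he : IsCh e)
    (h : sec H z ∈ e.source) (i : ι) : val i ∘ e.symm =ᶠ[𝓝 z] H i := by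
  filter_upwards [section_nhds ((continuousOn_sec hW hH).continuousAt (hW.mem_nhds hz))
    (Eventually.of_forall (cp_sec H)) he h, hW.mem_nhds hz] with w h1 h2
  rw [Function.comp_apply, ← h1, val_sec hH (hW.mem_nhds h2)]

theorem hol_val (i : ι) : Hol (val i : Et q ι → ℂ) := by
  intro e he z hz
  obtain ⟨H, r, hr, hH, h⟩ := exists_sec (e.symm z)
  rw [← cp_eq, he.cp_symm hz] at hH h
  exact (((hH i).differentiableAt (ball_mem_nhds _ hr)).congr_of_eventuallyEq
    (val_germ isOpen_ball hH (mem_ball_self hr) he (h ▸ e.map_target hz) i)).differentiableWithinAt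

theorem adm_sec {H : ι → E q → ℂ} {z : E q} {r : ℝ} (hr : 0 < r) (hH : HolF H (ball z r)) :
    Adm r (sec H z) :=
  adm_of_section hr (continuousOn_sec isOpen_ball hH) fun w _ => cp_sec H w

theorem psh : PSH (psi : Et q ι → ℝ) := by
  refine psh_of_max hol_val fun p r hr h => ?_
  choose G hG hG' using h
  obtain ⟨H, s, hs, hH, h1⟩ := exists_sec p
  have h2 : sec G (cp p) = p := by
    refine Eq.trans ?_ h1
    rw [cp_eq] at hG hG' ⊢
    rw [sec_eq_iff hG hH (ball_mem_nhds _ hr) (ball_mem_nhds _ hs)]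
    exact fun i => (hG' i).trans (val_germ isOpen_ball hH (mem_ball_self hs) (isCh_ch p)
      (by rw [h1]; exact mem_ch p) i)
  rw [← h2]
  exact adm_sec hr hG

/-! ### affine maps -/

/-- transport of a family along `z ↦ L z + c` and a map of indices -/
def trf (L : E q ≃L[ℂ] E q) (c : E q) (τ : ι → ι) (H : ι → E q → ℂ) : ι → E q → ℂ :=
  fun i w => H (τ i) (L.symm (w - c))

theorem holF_trf (L : E q ≃L[ℂ] E q) (c : E q) (τ : ι → ι) {H : ι → E q → ℂ} {W : Set (E q)}
    (hH : HolF H W) : HolF (trf L c τ H) ((fun w => L.symm (w - c)) ⁻¹' W) :=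
  fun i => (hH (τ i)).comp (by fun_prop) fun _ h => h

theorem nhds_trf (L : E q ≃L[ℂ] E q) (c : E q) {W : Set (E q)} {z : E q} (hz : W ∈ 𝓝 z) :
    (fun w => L.symm (w - c)) ⁻¹' W ∈ 𝓝 (L z + c) :=
  (by fun_prop : Continuous fun w => L.symm (w - c)).continuousAt.preimage_mem_nhds
    (by simpa using hz)

/-- the induced map on the étale space -/
def map (L : E q ≃L[ℂ] E q) (c : E q) (τ : ι → ι) (p : Et q ι) : Et q ι :=
  sec (trf L c τ (exists_sec p).choose) (L p.z + c)

theorem cp_map (L : E q ≃L[ℂ] E q) (c : E q) (τ : ι → ι) (p : Et q ι) :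
    cp (map L c τ p) = L (cp p) + c := cp_sec _ _

theorem map_sec (L : E q ≃L[ℂ] E q) (c : E q) (τ : ι → ι) {H : ι → E q → ℂ} {W : Set (E q)}
    (hH : HolF H W) {z : E q} (hz : W ∈ 𝓝 z) :
    map L c τ (sec H z) = sec (trf L c τ H) (L z + c) := by
  obtain ⟨r, hr, h1, h2⟩ := (exists_sec (sec H z)).choose_spec
  unfold map
  generalize (exists_sec (sec H z)).choose = H' at h1 h2
  rw [sec_z] at h1 h2 ⊢
  rw [sec_eq_iff h1 hH (ball_mem_nhds _ hr) hz] at h2
  rw [sec_eq_iff (holF_trf L c τ h1) (holF_trf L c τ hH) (nhds_trf L c (ball_mem_nhds _ hr))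
    (nhds_trf L c hz)]
  intro i
  have h3 : Tendsto (fun w => L.symm (w - c)) (𝓝 (L z + c)) (𝓝 z) := by
    simpa using (by fun_prop : Continuous fun w => L.symm (w - c)).tendsto (L z + c)
  exact h3.eventually (h2 (τ i))

theorem continuous_map (L : E q ≃L[ℂ] E q) (c : E q) (τ : ι → ι) :
    Continuous (map L c τ : Et q ι → Et q ι) := by
  refine continuous_def.2 fun O hO H W hW hH => ?_
  have h1 := (hO _ _ (hW.preimage (by fun_prop : Continuous fun w => L.symm (w - c)))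
    (holF_trf L c τ hH)).preimage (by fun_prop : Continuous fun z => L z + c)
  convert h1 using 1
  ext z
  simp only [mem_inter_iff, mem_preimage, add_sub_cancel_right,
    ContinuousLinearEquiv.symm_apply_apply]
  exact and_congr_right fun hz => by rw [map_sec L c τ hH (hW.mem_nhds hz)]


theorem map_map (L L' L'' : E q ≃L[ℂ] E q) (c c' c'' : E q) (τ τ' τ'' : ι → ι)
    (h : ∀ z, L'' z + c'' = L (L' z + c') + c) (hτ : ∀ i, τ'' i = τ' (τ i)) (p : Et q ι) :
    map L'' c'' τ'' p = map L c τ (map L' c' τ' p) := by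
  obtain ⟨H, r, hr, hH, h1⟩ := exists_sec p
  have h2 := ball_mem_nhds p.z hr
  rw [← h1, map_sec _ _ _ hH h2, map_sec _ _ _ hH h2,
    map_sec _ _ _ (holF_trf L' c' τ' hH) (nhds_trf L' c' h2), h]
  congr 1
  funext i w
  simp only [trf, hτ]
  congr 1
  rw [ContinuousLinearEquiv.symm_apply_eq, sub_eq_iff_eq_add, h]
  simp

theorem map_id (L : E q ≃L[ℂ] E q) (c : E q) (τ : ι → ι) (h : ∀ z, L z + c = z)
    (hτ : ∀ i, τ i = i) (p : Et q ι) : map L c τ p = p := by
  obtain ⟨H, r, hr, hH, h1⟩ := exists_sec p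
  conv_lhs => rw [← h1]
  rw [map_sec _ _ _ hH (ball_mem_nhds _ hr), h]
  refine Eq.trans ?_ h1
  congr 1
  funext i w
  simp only [trf, hτ]
  congr 1
  rw [ContinuousLinearEquiv.symm_apply_eq, sub_eq_iff_eq_add, h]

end Et

/-! ### connected components -/

section Cmp

variable {Y : Type} [TopologicalSpace Y] [RDom q Y] [T2Space Y]

theorem preconn_sh (y : Y) {r : ℝ} (hr : r ≤ dl y) : IsPreconnected (sh y '' ball 0 r) :=
  (convex_ball _ _).isPreconnected.image _ ((continuousOn_sh y).mono (ball_subset_ball hr))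

theorem sh_image_nhds (y : Y) {r : ℝ} (hr : 0 < r) : sh y '' ball 0 r ∈ 𝓝 y := by
  filter_upwards [eventually_eq_sh y, eventually_norm_lt y hr] with x h1 h2
  exact ⟨_, by simpa using h2, h1.symm⟩

theorem isOpen_cmp (q : ℕ) {Y : Type} [TopologicalSpace Y] [RDom q Y] [T2Space Y] (y0 : Y) :
    IsOpen (connectedComponent y0) := by
  rw [isOpen_iff_mem_nhds]
  intro y hy
  refine mem_of_superset (sh_image_nhds y (dl_pos y)) ?_
  rw [connectedComponent_eq hy]
  exact (preconn_sh y le_rfl).subset_connectedComponent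
    ⟨0, mem_ball_self (dl_pos y), sh_zero y⟩

/-- a connected component -/
def Cmp (y0 : Y) : Type := {y : Y // y ∈ connectedComponent y0}

variable {y0 : Y}

instance : TopologicalSpace (Cmp y0) := instTopologicalSpaceSubtype

instance : T2Space (Cmp y0) := inferInstanceAs (T2Space {y : Y // y ∈ connectedComponent y0})

instance : PreconnectedSpace (Cmp y0) :=
  Subtype.preconnectedSpace isPreconnected_connectedComponent

instance : RDom q (Cmp y0) where
  p := fun y => cp y.1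
  hp := cp_lh.comp (isOpen_cmp q y0).isOpenEmbedding_subtypeVal.isLocalHomeomorph

theorem cp_cmp (y : Cmp y0) : cp y = cp y.1 := rfl

theorem dl_cmp (y : Cmp y0) : dl y = dl y.1 := by
  classical
  refine le_antisymm (dl_le_map (f := fun y : Cmp y0 => y.1) continuous_subtype_val (c := 0)
    (fun y => by rw [add_zero, cp_cmp]) y) (le_dl (dl_le_one _) ?_)
  have h1 : ∀ w ∈ ball (cp y.1) (dl y.1), sh y.1 (w - cp y.1) ∈ connectedComponent y0 := by
    intro w hw
    exact (connectedComponent_eq y.2).ge ((preconn_sh y.1 le_rfl).subset_connectedComponent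
      ⟨0, mem_ball_self (dl_pos _), sh_zero _⟩ ⟨_, by simpa [dist_eq_norm] using hw, rfl⟩)
  set σ : E q → Cmp y0 := fun w =>
    if h : sh y.1 (w - cp y.1) ∈ connectedComponent y0 then ⟨_, h⟩ else y with hσ
  have h2 : ∀ w ∈ ball (cp y.1) (dl y.1), (σ w).1 = sh y.1 (w - cp y.1) := fun w hw => by
    simp only [hσ, dif_pos (h1 w hw)]
  have h3 : σ (cp y.1) = y := Subtype.ext (by
    rw [h2 _ (mem_ball_self (dl_pos _)), sub_self, sh_zero])
  have h4 := adm_of_section (σ := σ) (z := cp y.1) (dl_pos y.1) (by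
    refine (IsInducing.subtypeVal.continuousOn_iff).2 (ContinuousOn.congr ?_ h2)
    exact (continuousOn_sh y.1).comp (by fun_prop) fun w hw => by simpa [dist_eq_norm] using hw)
    fun w hw => by rw [cp_cmp, h2 w hw, cp_sh (by simpa [dist_eq_norm] using hw), add_sub_cancel]
  rwa [h3] at h4


theorem chart_cmp {e : OpenPartialHomeomorph (Cmp y0) (E q)} (he : IsCh e) :
    ∃ e' : OpenPartialHomeomorph Y (E q), IsCh e' ∧ e'.target = e.target ∧
      ∀ w, e'.symm w = (e.symm w).1 := by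
  obtain ⟨e', h1, h2, -, h3⟩ := chart_of_section (σ := fun w => (e.symm w).1) e.open_target
    (continuous_subtype_val.comp_continuousOn e.symm.continuousOn) fun w hw => he.cp_symm hw
  exact ⟨e', h1, h2, h3⟩


theorem psh_cmp (h : PSH (psi : Y → ℝ)) : PSH (psi : Cmp y0 → ℝ) := by
  refine ⟨continuous_psi.upperSemicontinuous, fun _ => ⟨0, Eventually.of_forall psi_nonneg⟩,
    fun e he => ?_⟩
  obtain ⟨e', h1, h2, h3⟩ := chart_cmp he
  have h4 : (psi : Cmp y0 → ℝ) ∘ e.symm = psi ∘ e'.symm := by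
    funext w
    simp only [Function.comp_apply, h3, psi, dl_cmp]
  rw [h4, ← h2]
  exact h.sm e' h1

end Cmp

end Crest.Agent.X261.Fib
end
end

-- ▼ part X261/Fib/Om
section

/-!
# X261 / FIB (helper16), file Om: the envelope of a system

`Sys.exists_env` : a connected pseudoconvex Riemann domain `Y` with a `G`-action and an equivariant
map `π : U → Y` over `a`, through which all functions in `HF` factor.
-/

set_option autoImplicit false
set_option linter.unusedSectionVars false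

noncomputable section

open Set Metric Filter Topology

namespace Crest.Agent.X261.Fib

open Crest.Agent.R271.Ho51 Crest.Agent.R273.Reg_844
open Crest.Agent.R266.SCV (analyticOnNhd_of_differentiableOn)

variable {q : ℕ} {M : Type} [TopologicalSpace M] {G : Type} [Group G] [MulAction G M]

/-- the envelope -/
structure Env (S : Sys q M G) (Y : Type) [TopologicalSpace Y] [RDom q Y] [T2Space Y]
    [MulAction G Y] where
  π : M → Y
  cont : ContinuousOn π S.U
  cp_eq : ∀ x ∈ S.U, cp (π x) = S.a x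
  gcont : ∀ g : G, Continuous fun y : Y => g • y
  geqv : ∀ (g : G) (y : Y), cp (g • y) = S.L g (cp y) + S.lam g
  smul : ∀ (g : G), ∀ x ∈ S.U, π (g • x) = g • π x
  psh : PSH (psi : Y → ℝ)
  val : ∀ h, S.HF h → ∃ F : Y → ℂ, ∀ x ∈ S.U, h x = F (π x)

namespace Sys

variable (S : Sys q M G)

/-- local sections of `a` with values in `U` -/
structure Sc (τ : E q → M) (W : Set (E q)) : Prop where
  op : IsOpen W
  cont : ContinuousOn τ W
  mem : ∀ t ∈ W, τ t ∈ S.U
  eq : ∀ t ∈ W, S.a (τ t) = t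

open Classical in
/-- the chosen section through `x` -/
def σ (x : M) : E q → M := if h : x ∈ S.U then (S.sec x h).2.choose else fun _ => x

variable {S}

theorem rho_pos {x : M} (hx : x ∈ S.U) : 0 < S.rho x := (S.sec x hx).1

theorem mem_ball_rho {x : M} (hx : x ∈ S.U) : S.a x ∈ ball (S.a x) (S.rho x) :=
  mem_ball_self (rho_pos hx)

theorem sc_σ {x : M} (hx : x ∈ S.U) : S.Sc (S.σ x) (ball (S.a x) (S.rho x)) := by
  obtain ⟨h1, -, h3⟩ := (S.sec x hx).2.choose_spec
  unfold σ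
  rw [dif_pos hx]
  exact ⟨isOpen_ball, h1, fun t ht => (h3 t ht).1, fun t ht => (h3 t ht).2⟩

theorem σ_a {x : M} (hx : x ∈ S.U) : S.σ x (S.a x) = x := by
  unfold σ
  rw [dif_pos hx]
  exact (S.sec x hx).2.choose_spec.2.1

theorem Sc.germ {τ : E q → M} {W : Set (E q)} (hτ : S.Sc τ W) {t : E q} (ht : t ∈ W) {h : M → ℂ}
    {F : E q → ℂ} (hF : ∀ᶠ y in 𝓝 (τ t), h y = F (S.a y)) : (fun s => h (τ s)) =ᶠ[𝓝 t] F := by
  filter_upwards [(hτ.cont.continuousAt (hτ.op.mem_nhds ht)).eventually hF, hτ.op.mem_nhds ht]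
    with s h1 h2
  rw [h1, hτ.eq s h2]

theorem germ_σ {x : M} (hx : x ∈ S.U) {h : M → ℂ} {F : E q → ℂ}
    (hF : ∀ᶠ y in 𝓝 x, h y = F (S.a y)) : (fun s => h (S.σ x s)) =ᶠ[𝓝 (S.a x)] F :=
  (sc_σ hx).germ (mem_ball_rho hx) (by rwa [σ_a hx])

theorem Sc.diff {τ : E q → M} {W : Set (E q)} (hτ : S.Sc τ W) {h : M → ℂ} (hh : S.HF h) :
    DifferentiableOn ℂ (fun s => h (τ s)) W := by
  intro t ht
  obtain ⟨F, hF, h1⟩ := hh _ (hτ.mem t ht)
  rw [hτ.eq t ht] at hF
  exact (hF.differentiableAt.congr_of_eventuallyEq (hτ.germ ht h1)).differentiableWithinAt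

/-- identity principle -/
theorem zero_of_closure {x : M} (hx : x ∈ S.U) {h : M → ℂ} {F : E q → ℂ} (hF : S.Fac h x F)
    (hc : x ∈ closure {y | ∀ᶠ z in 𝓝 y, h z = 0}) : ∀ᶠ z in 𝓝 x, h z = 0 := by
  obtain ⟨r, hr, hb⟩ := Metric.eventually_nhds_iff_ball.1 hF.1.eventually_analyticAt
  have h1 : ∀ᶠ y in 𝓝 x, S.a y ∈ ball (S.a x) r :=
    S.cont_a.continuousAt.eventually (ball_mem_nhds _ hr)
  obtain ⟨y, h2, h3, h4, h5⟩ := ((mem_closure_iff_frequently.1 hc).and_eventually
    (h1.and ((eventually_eventually_nhds.2 hF.2).and (S.op.mem_nhds hx)))).exists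
  have h6 : F =ᶠ[𝓝 (S.a y)] 0 := (germ_σ h5 h4).symm.trans (germ_σ (F := 0) h5 h2)
  have h7 : EqOn F 0 (ball (S.a x) r) :=
    AnalyticOnNhd.eqOn_zero_of_preconnected_of_eventuallyEq_zero hb
      (convex_ball _ _).isPreconnected h3 h6
  filter_upwards [h1, hF.2] with z h8 h9
  rw [h9, h7 h8, Pi.zero_apply]

/-- all functions in `HF` factor on a common neighbourhood -/
theorem unif_loc [LocallyConnectedSpace M] {x : M} (hx : x ∈ S.U) :
    ∀ᶠ y in 𝓝 x, ∀ h, S.HF h → ∀ᶠ z in 𝓝 y, h z = h (S.σ x (S.a z)) := by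
  have hN : IsOpen (S.U ∩ S.a ⁻¹' ball (S.a x) (S.rho x)) :=
    S.op.inter (isOpen_ball.preimage S.cont_a)
  have hxN : x ∈ S.U ∩ S.a ⁻¹' ball (S.a x) (S.rho x) := ⟨hx, mem_ball_rho hx⟩
  filter_upwards [connectedComponentIn_mem_nhds (hN.mem_nhds hxN)] with y hy h hh
  have h1 := (isPreconnected_connectedComponentIn (F := S.U ∩ S.a ⁻¹' ball (S.a x) (S.rho x))
    (x := x)).subset_of_closure_inter_subset
    (u := {y | ∀ᶠ z in 𝓝 y, h z - h (S.σ x (S.a z)) = 0}) isOpen_setOf_eventually_nhds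
    ⟨x, mem_connectedComponentIn hxN, by
      obtain ⟨F, -, h2⟩ := hh x hx
      filter_upwards [h2, S.cont_a.continuousAt.eventually (germ_σ hx h2)] with z h3 h4
      rw [h3, h4, sub_self]⟩
    (by
      rintro y ⟨h2, h3⟩
      obtain ⟨h4, h5⟩ := connectedComponentIn_subset _ _ h3
      obtain ⟨F, hF, h6⟩ := hh y h4
      refine zero_of_closure h4 (F := fun t => F t - h (S.σ x t)) ⟨hF.sub
        (analyticOnNhd_of_differentiableOn isOpen_ball ((sc_σ hx).diff hh) _ h5), ?_⟩ h2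
      filter_upwards [h6] with z hz
      rw [hz])
  filter_upwards [h1 hy] with z hz
  exact sub_eq_zero.1 hz

variable (S)

/-- the index set -/
abbrev Ix : Type := {h : M → ℂ // S.HF h}

/-- the family of all functions along a section -/
def fam (τ : E q → M) : S.Ix → E q → ℂ := fun i t => i.1 (τ t)

/-- the map to the étale space -/
def pi (x : M) : Et q S.Ix := Et.sec (S.fam (S.σ x)) (S.a x)

/-- the action on the indices -/
def tau (g : G) (i : S.Ix) : S.Ix :=
  ⟨fun x => i.1 (g • x), fun x hx => by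
    obtain ⟨F, hF, h1⟩ := i.2 _ (S.inv g x hx)
    refine ⟨fun t => F (S.L g t + S.lam g), AnalyticAt.comp (g := F) (by rwa [← S.eqv])
      (((S.L g : E q →L[ℂ] E q).analyticAt _).add analyticAt_const), ?_⟩
    filter_upwards [(S.cont g).continuousAt.eventually h1] with y hy
    rw [hy, S.eqv]⟩

/-- the action on the étale space -/
def act (g : G) : Et q S.Ix → Et q S.Ix := Et.map (S.L g) (S.lam g) (S.tau g)

theorem aff_ext {f f' : E q → E q} (hf : AnalyticOnNhd ℂ f univ) (hf' : AnalyticOnNhd ℂ f' univ)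
    (h : ∀ x, f (S.a x) = f' (S.a x)) : f = f' := by
  obtain ⟨x, hx⟩ := S.ne
  refine hf.eq_of_eventuallyEq hf' (z₀ := S.a x) ?_
  filter_upwards [ball_mem_nhds _ (rho_pos hx)] with t ht
  rw [← (sc_σ hx).eq t ht, h]

theorem an_aff (g : G) : AnalyticOnNhd ℂ (fun t => S.L g t + S.lam g) univ := fun _ _ =>
  ((S.L g : E q →L[ℂ] E q).analyticAt _).add analyticAt_const

theorem aff_one (z : E q) : S.L 1 z + S.lam 1 = z :=
  congrFun (S.aff_ext (S.an_aff 1) analyticOnNhd_id fun x => by rw [← S.eqv, one_smul]) z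

theorem aff_mul (g h : G) (z : E q) :
    S.L (g * h) z + S.lam (g * h) = S.L g (S.L h z + S.lam h) + S.lam g :=
  congrFun (S.aff_ext (S.an_aff (g * h)) ((S.an_aff g).comp (S.an_aff h) (mapsTo_univ _ _))
    fun x => by rw [Function.comp_apply, ← S.eqv, ← S.eqv, ← S.eqv, mul_smul]) z

theorem act_one (p : Et q S.Ix) : S.act 1 p = p :=
  Et.map_id _ _ _ S.aff_one (fun i => Subtype.ext (funext fun x => by simp [tau])) p

theorem act_mul (g h : G) (p : Et q S.Ix) : S.act (g * h) p = S.act g (S.act h p) :=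
  Et.map_map _ _ _ _ _ _ _ _ _ (S.aff_mul g h)
    (fun i => Subtype.ext (funext fun x => by simp [tau, mul_smul])) p

variable {S}

theorem Sc.holF {τ : E q → M} {W : Set (E q)} (hτ : S.Sc τ W) : HolF (S.fam τ) W :=
  fun i => hτ.diff i.2

theorem pi_eq {y : M} (hy : y ∈ S.U) {F : S.Ix → E q → ℂ} {W : Set (E q)} (hF : HolF F W)
    (hW : W ∈ 𝓝 (S.a y)) (h : ∀ i : S.Ix, ∀ᶠ z in 𝓝 y, i.1 z = F i (S.a z)) :
    S.pi y = Et.sec F (S.a y) :=
  (Et.sec_eq_iff (sc_σ hy).holF hF (ball_mem_nhds _ (rho_pos hy)) hW).2 fun i => germ_σ hy (h i)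

theorem Sc.pi {τ : E q → M} {W : Set (E q)} (hτ : S.Sc τ W) {t : E q} (ht : t ∈ W) :
    S.pi (τ t) = Et.sec (S.fam τ) t := by
  have hy := hτ.mem t ht
  have h1 := hτ.eq t ht
  unfold Sys.pi
  have h2 := (sc_σ hy).holF
  have h3 := ball_mem_nhds (S.a (τ t)) (rho_pos hy)
  rw [h1] at h2 h3 ⊢
  rw [Et.sec_eq_iff h2 hτ.holF h3 (hτ.op.mem_nhds ht)]
  intro i
  obtain ⟨F, -, h4⟩ := i.2 _ hy
  exact (h1 ▸ germ_σ hy h4).trans (hτ.germ ht h4).symm

theorem continuousOn_pi [LocallyConnectedSpace M] : ContinuousOn S.pi S.U := by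
  intro x hx
  have hb := ball_mem_nhds (S.a x) (rho_pos hx)
  have h1 : ContinuousAt (fun y => Et.sec (S.fam (S.σ x)) (S.a y)) x :=
    ContinuousAt.comp (g := Et.sec (S.fam (S.σ x)))
      ((Et.continuousOn_sec isOpen_ball (sc_σ hx).holF).continuousAt hb) S.cont_a.continuousAt
  refine (h1.congr ?_).continuousWithinAt
  filter_upwards [unif_loc hx, S.op.mem_nhds hx, S.cont_a.continuousAt.eventually hb]
    with y h2 h3 h4
  exact (pi_eq h3 (sc_σ hx).holF (isOpen_ball.mem_nhds h4) fun i => h2 i.1 i.2).symm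

theorem act_pi (g : G) {x : M} (hx : x ∈ S.U) : S.pi (g • x) = S.act g (S.pi x) := by
  have h1 : S.Sc (fun t => g • S.σ x ((S.L g).symm (t - S.lam g)))
      ((fun t => (S.L g).symm (t - S.lam g)) ⁻¹' ball (S.a x) (S.rho x)) :=
    ⟨isOpen_ball.preimage (by fun_prop),
      (S.cont g).comp_continuousOn ((sc_σ hx).cont.comp (by fun_prop) fun _ h => h),
      fun t ht => S.inv g _ ((sc_σ hx).mem _ ht), fun t ht => by
        rw [S.eqv, (sc_σ hx).eq _ ht]
        simp⟩
  have h2 := h1.pi (t := S.L g (S.a x) + S.lam g) (by simpa using rho_pos hx)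
  simp only [add_sub_cancel_right, ContinuousLinearEquiv.symm_apply_apply, σ_a hx] at h2
  rw [h2, act, Sys.pi, Et.map_sec _ _ _ (sc_σ hx).holF (ball_mem_nhds _ (rho_pos hx))]
  rfl

theorem val_pi {x : M} (hx : x ∈ S.U) (i : S.Ix) : Et.val i (S.pi x) = i.1 x := by
  rw [Sys.pi, Et.val_sec (sc_σ hx).holF (ball_mem_nhds _ (rho_pos hx)), fam, σ_a hx]

variable (S)

/-- the envelope exists -/
theorem exists_env [LocallyConnectedSpace M] :
    ∃ (Y : Type) (_ : TopologicalSpace Y) (_ : RDom q Y) (_ : T2Space Y) (_ : MulAction G Y),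
      PreconnectedSpace Y ∧ Nonempty (Env S Y) := by
  classical
  obtain ⟨x0, hx0⟩ := S.ne
  have h1 : ∀ x ∈ S.U, S.pi x ∈ connectedComponent (S.pi x0) := fun x hx =>
    (S.pre.image _ continuousOn_pi).subset_connectedComponent ⟨x0, hx0, rfl⟩ ⟨x, hx, rfl⟩
  have h2 : ∀ (g : G), ∀ p ∈ connectedComponent (S.pi x0),
      S.act g p ∈ connectedComponent (S.pi x0) := fun g p hp => by
    have h3 := (Et.continuous_map (S.L g) (S.lam g) (S.tau g)).image_connectedComponent_subset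
      (S.pi x0) ⟨p, hp, rfl⟩
    rw [connectedComponent_eq (h1 _ (S.inv g x0 hx0)), act_pi g hx0]
    exact h3
  let _ : MulAction G (Cmp (S.pi x0)) :=
    { smul := fun g p => ⟨S.act g p.1, h2 g p.1 p.2⟩
      one_smul := fun p => Subtype.ext (S.act_one p.1)
      mul_smul := fun g h p => Subtype.ext (S.act_mul g h p.1) }
  set π : M → Cmp (S.pi x0) := fun x =>
    if h : S.pi x ∈ connectedComponent (S.pi x0) then ⟨_, h⟩ else ⟨_, h1 x0 hx0⟩ with hπ
  have h4 : ∀ x ∈ S.U, (π x).1 = S.pi x := fun x hx => by simp only [hπ, dif_pos (h1 x hx)]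
  refine ⟨Cmp (S.pi x0), inferInstance, inferInstance, inferInstance, inferInstance,
    inferInstance, ⟨⟨π, ?_, fun x hx => ?_, fun g => ?_, fun g y => ?_, fun g x hx => ?_,
      psh_cmp Et.psh, fun h hh => ⟨fun y => Et.val ⟨h, hh⟩ y.1, fun x hx => ?_⟩⟩⟩⟩
  · exact IsInducing.subtypeVal.continuousOn_iff.2 (continuousOn_pi.congr h4)
  · rw [cp_cmp, h4 x hx]
    exact Et.cp_sec _ _
  · exact ((Et.continuous_map (S.L g) (S.lam g) (S.tau g)).comp continuous_subtype_val).subtype_mk _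
  · exact Et.cp_map (S.L g) (S.lam g) (S.tau g) y.1
  · refine Subtype.ext ?_
    change _ = S.act g (π x).1
    rw [h4 _ (S.inv g x hx), h4 x hx, act_pi g hx]
  · simp only [h4 x hx, val_pi hx]

end Sys

end Crest.Agent.X261.Fib
end
end

-- ▼ part X261/Fib/Cone
section

/-!
# X261 / FIB (helper16), file Cone: strict positivity when there is no complete direction

`cone` : if `psi` is psh, `Y` is connected and `Vd Y = ⊥`, then at every point some admissible
weight is strictly psh.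
-/

set_option autoImplicit false
set_option linter.unusedSectionVars false

noncomputable section

open Set Metric Filter Topology MeasureTheory
open scoped ContDiff

namespace Crest.Agent.X261.Fib

open Crest.Agent.R271.Ho51 Crest.Agent.R273.Reg_844 Crest.Agent.R276.NL_137
open Crest.Agent.R271.W792 (lev dsq Levi_eq_lev)
open Crest.Agent.R275.FL606 (Ker)

variable {q : ℕ} {Y : Type} [TopologicalSpace Y] [RDom q Y] [T2Space Y]

theorem sh_chart (Φ : Y → ℝ) {y : Y} {u : E q} (h : ‖u‖ < dl y) :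
    ((fun x => Φ (sh x u)) ∘ (bch y).symm) =ᶠ[𝓝 (cp y)] fun z => (Φ ∘ (bch y).symm) (z + u) := by
  have h1 : ∀ᶠ z in 𝓝 (cp y), ‖z - cp y‖ + ‖u‖ < dl y := by
    refine ContinuousAt.eventually_lt (by fun_prop) continuousAt_const ?_
    simpa using h
  filter_upwards [h1] with z hz
  have h2 : (bch y).symm z = sh y (z - cp y) := by rw [sh, add_sub_cancel]
  simp only [Function.comp_apply]
  rw [h2, sh_sh hz, sh, ← add_assoc, add_sub_cancel]

theorem contDiffAt_sh {Φ : Y → ℝ} (hΦ : Sm Φ) {y : Y} {u : E q} (h : ‖u‖ < dl y) :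
    ContDiffAt ℝ (⊤ : ℕ∞) ((fun x => Φ (sh x u)) ∘ (bch y).symm) (cp y) := by
  refine ContDiffAt.congr_of_eventuallyEq ?_ (sh_chart Φ h)
  exact ContDiffAt.comp (g := Φ ∘ (bch y).symm) (f := fun z => z + u) (cp y)
    (hΦ.contDiffAt' (isCh_bch y) (ball_bch y (add_mem_ball h))) (by fun_prop)

theorem lev_sh {Φ : Y → ℝ} (hΦ : Sm Φ) {y : Y} {u : E q} (h : ‖u‖ < dl y) (w : E q) :
    lev (fun x => Φ (sh x u)) y w = lev Φ (sh y u) w := by
  have h1 : fderiv ℝ (fderiv ℝ fun z => (Φ ∘ (bch y).symm) (z + u)) (cp y) =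
      fderiv ℝ (fderiv ℝ (Φ ∘ (bch y).symm)) (cp y + u) := by
    have h2 : (fderiv ℝ fun z => (Φ ∘ (bch y).symm) (z + u)) =
        fun z => fderiv ℝ (Φ ∘ (bch y).symm) (z + u) := funext fun z => fderiv_comp_add_right u
    rw [h2, fderiv_comp_add_right]
  rw [lev_eq_chart (isCh_bch y) (mem_bch y) ((contDiffAt_sh hΦ h).of_le (by norm_cast)),
    lev_eq_chart (isCh_bch y) (sh_mem_bch h)
      ((hΦ.contDiffAt (isCh_bch y) (sh_mem_bch h)).of_le (by norm_cast)),
    (sh_chart Φ h).fderiv.fderiv_eq, h1, cp_sh h]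

theorem gd_sh {Φ : Y → ℝ} (hΦ : Wt Φ) {y : Y} {u : E q} (h : ‖u‖ < dl y) :
    Gd (fun x => Φ (sh x u)) y := by
  refine Gd.of ?_ fun w => ?_
  · filter_upwards [continuous_dl.continuousAt.eventually (lt_mem_nhds h)] with x hx
    exact (contDiffAt_sh hΦ.sm hx).congr_of_eventuallyEq
      (comp_germ (isCh_ch x) (isCh_bch x) (mem_ch x) (mem_bch x) _)
  · rw [lev_sh hΦ.sm h, ← Levi_eq_lev hΦ.sm]
    exact hΦ.lev _ _

/-- common null vectors of the Levi forms of all admissible weights -/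
def Nul (y : Y) : Set (E q) := {w | ∀ Φ : Y → ℝ, Wt Φ → Levi Φ y w = 0}

theorem nul_sh {Ψ : Y → ℝ} (h0 : Wt Ψ) (hp : ∀ y, psi y ≤ Ψ y) {y : Y} {u : E q}
    (hu : ‖u‖ ≤ Real.exp (-(Ψ y + 4)) / 2) : Nul y ⊆ Nul (sh y u) := by
  intro w hw Φ hΦ
  have h1 : ∀ x, Ψ x < Ψ y + 1 + 3 → ‖u‖ ≤ dl x / 2 := fun x hx => by
    have := psi_le_iff.1 (show psi x ≤ Ψ y + 4 by linarith [hp x])
    linarith
  have h2 : ∀ x, Ψ x < Ψ y + 1 + 3 → ‖u‖ < dl x := fun x hx => by
    linarith [h1 x hx, dl_pos x]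
  obtain ⟨K, C, hK⟩ := hΦ.le
  obtain ⟨Φ', hΦ', h3⟩ := glue h0 (v := fun x => Φ (sh x u)) (c := Ψ y + 1)
    (B := |K| * (Ψ y + 4 + Real.log 2) + C) (fun x hx => gd_sh hΦ (h2 x hx))
    (fun f hf x hx => by
      obtain ⟨c, hc⟩ := hf.eqv
      rw [← map_sh' hf.cont hc (h2 x hx), hΦ.inv f hf])
    (fun x hx => ⟨hΦ.nonneg _, by
      have h4 := psi_sh_le (h1 x hx)
      have h5 := mul_le_mul_of_nonneg_right (le_abs_self K) (psi_nonneg (sh x u))
      have h6 := mul_le_mul_of_nonneg_left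
        (show psi (sh x u) ≤ Ψ y + 4 + Real.log 2 by linarith [hp x]) (abs_nonneg K)
      linarith [hK (sh x u)]⟩)
  have h7 := hw Φ' hΦ'
  rwa [Levi_eq_lev hΦ'.sm, lev_congr (h3 y (lt_add_one _)), lev_sh hΦ.sm (h2 y (by linarith)),
    ← Levi_eq_lev hΦ.sm] at h7

theorem nul_loc {Ψ : Y → ℝ} (h0 : Wt Ψ) (hp : ∀ y, psi y ≤ Ψ y) (y : Y) :
    ∀ᶠ x in 𝓝 y, Nul x = Nul y := by
  filter_upwards [eventually_eq_sh y, eventually_norm_lt y (half_pos (dl_pos y)),
    eventually_norm_lt y (half_pos (Real.exp_pos (-(Ψ y + 5)))),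
    h0.sm.continuous.continuousAt.eventually (gt_mem_nhds (lt_add_one (Ψ y)))] with x h1 h2 h3 h4
  have h5 : Real.exp (-(Ψ y + 5)) ≤ Real.exp (-(Ψ y + 4)) := Real.exp_le_exp.2 (by linarith)
  have h6 : Real.exp (-(Ψ y + 5)) ≤ Real.exp (-(Ψ x + 4)) := Real.exp_le_exp.2 (by linarith)
  refine Subset.antisymm ?_ ?_
  · have h7 := nul_sh h0 hp (y := x) (u := -(cp x - cp y)) (by rw [norm_neg]; linarith)
    have h8 : sh x (-(cp x - cp y)) = y := by
      conv_lhs => rw [h1, cp_sh (by linarith [dl_pos y]), add_sub_cancel_left]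
      exact sh_sh_neg (by linarith)
    rwa [h8] at h7
  · have h7 := nul_sh h0 hp (y := y) (u := cp x - cp y) (by linarith)
    rwa [← h1] at h7

theorem D_smul_zero {g : Y → ℝ} {x : Y} {w : E q} (h : dsq g x w = 0) (ζ : ℂ) :
    D g x (ζ • w) = 0 := by
  unfold dsq at h
  have h1 : D g x w = 0 := by nlinarith [sq_nonneg (D g x w), sq_nonneg (D g x (Complex.I • w))]
  have h2 : D g x (Complex.I • w) = 0 := by
    nlinarith [sq_nonneg (D g x w), sq_nonneg (D g x (Complex.I • w))]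
  have h3 : ζ • w = ζ.re • w + ζ.im • (Complex.I • w) := by
    conv_lhs => rw [← Complex.re_add_im ζ]
    rw [add_smul, mul_smul, Complex.coe_smul, Complex.coe_smul]
  rw [h3, map_add, map_smul, map_smul, h1, h2, smul_zero, smul_zero, add_zero]

theorem mem_Vd_of_nul (hpsh : PSH (psi : Y → ℝ)) {Ψ : Y → ℝ} (h0 : Wt Ψ) (hp : ∀ y, psi y ≤ Ψ y)
    {w : E q} (hw : ∀ y : Y, w ∈ Nul y) : w ∈ Vd Y := by
  obtain ⟨κ, hκ, hs⟩ := exists_ker_pi q
  intro y
  have h1 : ∀ᶠ ζ : ℂ in 𝓝 0, ‖ζ • w‖ < dl y ∧ Ψ (sh y (ζ • w)) < Ψ y + 1 := by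
    refine (eventually_norm_smul_lt w (dl_pos y)).and ?_
    have h2 : ContinuousAt (fun ζ : ℂ => Ψ (sh y (ζ • w))) 0 := by
      refine h0.sm.continuous.continuousAt.comp (ContinuousAt.comp (g := sh y) ?_ (by fun_prop))
      exact continuousAt_sh (by simpa using dl_pos y)
    exact h2.eventually (gt_mem_nhds (by simp [sh_zero]))
  obtain ⟨r, hr, hb⟩ := Metric.eventually_nhds_iff_ball.1 h1
  filter_upwards [ball_mem_nhds (0 : ℂ) hr] with ζ hζ
  have key : ∀ η : ℝ, 0 < η → |psi (sh y (ζ • w)) - psi y| ≤ η := by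
    intro η hη
    set ε := rad η (Ψ y + 4) with hε
    have hε0 : 0 < ε := rad_pos hη _
    have h2 : ∀ x, Ψ x < Ψ y + 1 + 3 → psi x ≤ Ψ y + 4 := fun x hx => by linarith [hp x]
    obtain ⟨Φ, hΦ, h3⟩ := glue h0 (v := fun x => Real.exp (reg κ ε psi x)) (c := Ψ y + 1)
      (B := Real.exp (Ψ y + 4 + η))
      (fun x hx => (gd_reg hpsh hκ hs hε0 (rad_lt η (h2 x hx))).exp)
      (fun f hf x hx => by rw [reg_inv hκ hε0 hf (rad_lt η (h2 x hx)).le])
      (fun x hx => ⟨(Real.exp_pos _).le, Real.exp_le_exp.2 (by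
        linarith [reg_rad_le hκ hη (h2 x hx), h2 x hx])⟩)
    have h4 : ∀ ξ ∈ ball (0 : ℂ) r,
        HasFDerivAt (fun ξ : ℂ => reg κ ε psi (sh y (ξ • w))) (0 : ℂ →L[ℝ] ℝ) ξ := by
      intro ξ hξ
      obtain ⟨h5, h6⟩ := hb ξ hξ
      obtain ⟨g, hg, hv, hl⟩ := gd_reg hpsh hκ hs hε0 (rad_lt η (h2 _ (by linarith : Ψ (sh y
        (ξ • w)) < Ψ y + 1 + 3)))
      have h7 : Φ =ᶠ[𝓝 (sh y (ξ • w))] fun x => Real.exp (g x) :=
        (h3 _ h6).trans (hv.mono fun x hx => by simp only [hx])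
      have h8 := hw (sh y (ξ • w)) Φ hΦ
      rw [Levi_congr h7, Levi_exp hg, ← Levi_eq_lev hg] at h8
      have h9 : dsq g (sh y (ξ • w)) w = 0 := by
        have h10 := Crest.Agent.R271.W792.dsq_nonneg g (sh y (ξ • w)) w
        have h11 := mul_nonneg (Real.exp_pos (g (sh y (ξ • w)))).le (hl w)
        have h12 := Real.exp_pos (g (sh y (ξ • w)))
        nlinarith
      have hz : cp y + ξ • w ∈ (bch y).target := ball_bch y (add_mem_ball h5)
      have h13 : HasFDerivAt (g ∘ (bch y).symm) (D g (sh y (ξ • w))) (cp y + ξ • w) := by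
        rw [sh, D_symm (isCh_bch y) hz]
        exact ((hg.contDiffAt' (isCh_bch y) hz).differentiableAt (by simp)).hasFDerivAt
      have h14 : HasFDerivAt (fun ξ : ℂ => cp y + ξ • w)
          (((ContinuousLinearMap.id ℂ ℂ).smulRight w).restrictScalars ℝ) ξ :=
        (((ContinuousLinearMap.id ℂ ℂ).smulRight w).restrictScalars ℝ).hasFDerivAt.const_add _
      have h15 := h13.comp ξ h14
      have h16 : (D g (sh y (ξ • w))).comp
          (((ContinuousLinearMap.id ℂ ℂ).smulRight w).restrictScalars ℝ) = 0 := by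
        refine ContinuousLinearMap.ext fun ζ => ?_
        simpa using D_smul_zero h9 ζ
      rw [h16] at h15
      refine h15.congr_of_eventuallyEq ?_
      have h17 : ContinuousAt (fun ξ : ℂ => sh y (ξ • w)) ξ :=
        ContinuousAt.comp (g := sh y) (continuousAt_sh h5) (by fun_prop)
      filter_upwards [h17.eventually hv] with ξ' h18
      exact h18
    have h19 := isOpen_ball.is_const_of_fderiv_eq_zero (𝕜 := ℝ) (convex_ball _ _).isPreconnected
      (fun ξ hξ => (h4 ξ hξ).differentiableAt.differentiableWithinAt)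
      (fun ξ hξ => (h4 ξ hξ).fderiv) hζ (mem_ball_self hr)
    simp only [zero_smul, sh_zero] at h19
    have h20 := h2 _ (by linarith [(hb ζ hζ).2] : Ψ (sh y (ζ • w)) < Ψ y + 1 + 3)
    have h21 := h2 y (by linarith)
    have h22 := reg_rad_le hκ hη h20
    have h23 := reg_rad_le hκ hη h21
    have h24 := hpsh.le_reg hκ hε0 (rad_lt η h20) (adm_dl _)
    have h25 := hpsh.le_reg hκ hε0 (rad_lt η h21) (adm_dl _)
    rw [← hε] at h22 h23
    exact abs_le.2 ⟨by linarith, by linarith⟩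
  have h26 : psi (sh y (ζ • w)) = psi y := by
    rw [← sub_eq_zero, ← abs_nonpos_iff]
    exact le_of_forall_pos_le_add fun η hη => by simpa using key η hη
  rw [← exp_neg_psi, h26, exp_neg_psi]

theorem Wt.add {Φ Ψ : Y → ℝ} (h : Wt Φ) (h' : Wt Ψ) : Wt fun y => Φ y + Ψ y := by
  obtain ⟨K, C, hK⟩ := h.le
  obtain ⟨K', C', hK'⟩ := h'.le
  refine ⟨h.sm.add h'.sm, fun f hf y => by simp only [h.inv f hf y, h'.inv f hf y], fun y w => ?_,
    fun y => add_nonneg (h.nonneg y) (h'.nonneg y), K + K', C + C', fun y => ?_⟩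
  · rw [Levi_add h.sm h'.sm]
    exact add_nonneg (h.lev y w) (h'.lev y w)
  · linarith [hK y, hK' y]

theorem Levi_smul (Φ : Y → ℝ) (y : Y) (t : ℝ) (w : E q) :
    Levi Φ y ((t : ℂ) • w) = t ^ 2 * Levi Φ y w := by
  unfold Levi
  rw [← Complex.re_ofReal_mul, Finset.mul_sum]
  congr 1
  refine Finset.sum_congr rfl fun j _ => ?_
  rw [Finset.mul_sum]
  refine Finset.sum_congr rfl fun k _ => ?_
  simp only [Pi.smul_apply, smul_eq_mul, map_mul, Complex.conj_ofReal, Complex.ofReal_pow]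
  ring

/-- strict positivity -/
theorem cone [PreconnectedSpace Y] (hpsh : PSH (psi : Y → ℝ)) (hV : Vd Y = ⊥) (y0 : Y) :
    ∃ (Ψ : Y → ℝ) (c : ℝ), Wt Ψ ∧ (∀ y, psi y ≤ Ψ y) ∧ 0 < c ∧
      ∀ w, c * nsq w ≤ Levi Ψ y0 w := by
  obtain ⟨Ψ, h0, hp⟩ := exists_wt0 hpsh
  have h1 : ∀ w ∈ Nul y0, w = 0 := fun w hw => by
    rw [← Submodule.mem_bot ℂ, ← hV]
    refine mem_Vd_of_nul hpsh h0 hp fun y => ?_
    rwa [const_of_loc isPreconnected_univ (f := (Nul : Y → Set (E q)))
      (fun t _ => nhdsWithin_le_nhds (nul_loc h0 hp t)) (mem_univ y) (mem_univ y0)]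
  have hc : ∀ Φ : Y → ℝ, Continuous fun w : E q => Levi Φ y0 w := fun Φ => by
    unfold Levi; fun_prop
  have h2 : ∃ Φ : Y → ℝ, Wt Φ ∧ (∀ y, psi y ≤ Φ y) ∧ ∀ w ∈ sphere (0 : E q) 1, 0 < Levi Φ y0 w := by
    refine (isCompact_sphere (0 : E q) 1).induction_on
      (p := fun S => ∃ Φ : Y → ℝ, Wt Φ ∧ (∀ y, psi y ≤ Φ y) ∧ ∀ w ∈ S, 0 < Levi Φ y0 w)
      ⟨Ψ, h0, hp, by simp⟩ ?_ ?_ ?_
    · rintro s t hst ⟨Φ, h3, h4, h5⟩
      exact ⟨Φ, h3, h4, fun w hw => h5 w (hst hw)⟩
    · rintro s t ⟨Φ, h3, h4, h5⟩ ⟨Φ', h3', -, h5'⟩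
      refine ⟨_, h3.add h3', fun y => le_add_of_le_of_nonneg (h4 y) (h3'.nonneg y), fun w hw => ?_⟩
      rw [Levi_add h3.sm h3'.sm]
      rcases hw with hw | hw
      · exact add_pos_of_pos_of_nonneg (h5 w hw) (h3'.lev _ _)
      · exact add_pos_of_nonneg_of_pos (h3.lev _ _) (h5' w hw)
    · intro w hw
      have h6 : w ∉ Nul y0 := fun h => by simp [h1 w h] at hw
      obtain ⟨Φ, hΦ, h7⟩ : ∃ Φ : Y → ℝ, Wt Φ ∧ Levi Φ y0 w ≠ 0 := by
        by_contra h
        exact h6 fun Φ hΦ => by_contra fun h' => h ⟨Φ, hΦ, h'⟩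
      refine ⟨{w | 0 < Levi Φ y0 w}, mem_nhdsWithin_of_mem_nhds
        ((hc Φ).continuousAt.eventually (lt_mem_nhds ((hΦ.lev _ _).lt_of_ne h7.symm))),
        _, h0.add hΦ, fun y => le_add_of_le_of_nonneg (hp y) (hΦ.nonneg y), fun u hu => ?_⟩
      rw [Levi_add h0.sm hΦ.sm]
      exact add_pos_of_nonneg_of_pos (h0.lev _ _) hu
  obtain ⟨Φ, hΦ, h3, h4⟩ := h2
  obtain ⟨m, hm, h5⟩ : ∃ m : ℝ, 0 < m ∧ ∀ w ∈ sphere (0 : E q) 1, m ≤ Levi Φ y0 w := by
    rcases (sphere (0 : E q) 1).eq_empty_or_nonempty with h | h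
    · exact ⟨1, one_pos, by simp [h]⟩
    · obtain ⟨w, hw, h6⟩ := (isCompact_sphere (0 : E q) 1).exists_isMinOn h (hc Φ).continuousOn
      exact ⟨_, h4 w hw, fun u hu => h6 hu⟩
  refine ⟨Φ, m / (q + 1), hΦ, h3, by positivity, fun w => ?_⟩
  rcases eq_or_ne w 0 with rfl | hw
  · simpa [nsq] using hΦ.lev y0 0
  have hn : 0 < ‖w‖ := norm_pos_iff.2 hw
  have h6 := h5 (((‖w‖⁻¹ : ℝ) : ℂ) • w) (by
    rw [mem_sphere_zero_iff_norm, norm_smul, Complex.norm_real, norm_inv, norm_norm,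
      inv_mul_cancel₀ hn.ne'])
  rw [Levi_smul, inv_pow, le_inv_mul_iff₀ (by positivity)] at h6
  have h7 : nsq w ≤ (q + 1) * ‖w‖ ^ 2 := by
    calc nsq w ≤ ∑ _j : Fin q, ‖w‖ ^ 2 := Finset.sum_le_sum fun j _ => by
          gcongr
          exact norm_le_pi_norm w j
      _ ≤ _ := by
          simp only [Finset.sum_const, Finset.card_univ, Fintype.card_fin, nsmul_eq_mul]
          nlinarith [sq_nonneg ‖w‖]
  calc m / (q + 1) * nsq w ≤ m / (q + 1) * ((q + 1) * ‖w‖ ^ 2) := by gcongr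
    _ = ‖w‖ ^ 2 * m := by field_simp
    _ ≤ _ := h6

end Crest.Agent.X261.Fib
end
end

-- ▼ part X261/Fib/Flow
section

/-!
# X261 / FIB (helper16), file Flow: the directions of `Vd Y` are complete

* `exists_flow : ∃ φ, Flow φ`;
* `Flow.tr`, `Flow.cont₂` (joint continuity), `Flow.sh_comm`;
* `Vd_map` : `Vd Y` is invariant under homeomorphisms over affine maps.
-/

set_option autoImplicit false
set_option linter.unusedSectionVars false

noncomputable section

open Set Metric Filter Topology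

namespace Crest.Agent.X261.Fib

open Crest.Agent.R271.Ho51 Crest.Agent.R273.Reg_844

variable {q : ℕ} {Y : Type} [TopologicalSpace Y] [RDom q Y] [T2Space Y]

/-- iterated translate -/
def itr (y : Y) (w : E q) : ℕ → Y
  | 0 => y
  | j + 1 => sh (itr y w j) w

theorem itr_spec (y : Y) {w : E q} (hw : w ∈ Vd Y) (h : ‖w‖ < dl y) (j : ℕ) :
    dl (itr y w j) = dl y ∧ cp (itr y w j) = cp y + (j : ℂ) • w := by
  induction j with
  | zero => simp [itr]
  | succ j ih =>
    have h1 : ‖w‖ < dl (itr y w j) := ih.1 ▸ h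
    refine ⟨by rw [itr, dl_sh_of_mem hw h1, ih.1], ?_⟩
    rw [itr, cp_sh h1, ih.2, Nat.cast_succ, add_smul, one_smul, add_assoc]

theorem itr_zero (y : Y) (j : ℕ) : itr y (0 : E q) j = y := by
  induction j with
  | zero => rfl
  | succ j ih => rw [itr, sh_zero, ih]

theorem continuousOn_itr (y : Y) (j : ℕ) :
    ContinuousOn (fun w => itr y w j) ((Vd Y : Set (E q)) ∩ ball 0 (dl y)) := by
  induction j with
  | zero => exact continuousOn_const
  | succ j ih =>
    intro w hw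
    have h : ‖w‖ < dl y := by simpa using hw.2
    have h1 : ‖w‖ < dl (itr y w j) := (itr_spec y hw.1 h j).1 ▸ h
    exact ContinuousAt.comp_continuousWithinAt (g := fun p : Y × E q => sh p.1 p.2)
      (f := fun w => (itr y w j, w)) (continuousAt_sh₂ h1)
      ((ih w hw).prodMk continuousWithinAt_id)

theorem convex_Vd_ball (r : ℝ) : Convex ℝ ((Vd Y : Set (E q)) ∩ ball 0 r) :=
  (((Vd Y).restrictScalars ℝ).convex).inter (convex_ball _ _)

theorem convex_Vd : Convex ℝ (Vd Y : Set (E q)) := ((Vd Y).restrictScalars ℝ).convex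

/-- the leaf through `y` -/
theorem exists_leaf (y : Y) : ∃ σ : E q → Y, ContinuousOn σ (Vd Y) ∧ σ 0 = y ∧
    ∀ v ∈ Vd Y, cp (σ v) = cp y + v ∧ dl (σ v) = dl y := by
  have h0 := dl_pos y
  set s : ℕ → E q → Y := fun k v => itr y (((k + 1 : ℕ) : ℂ)⁻¹ • v) (k + 1) with hs
  have hn : ∀ (k : ℕ) (v : E q), v ∈ ball (0 : E q) ((k + 1) * dl y) →
      ‖((k + 1 : ℕ) : ℂ)⁻¹ • v‖ < dl y := by
    intro k v hv
    rw [norm_smul, norm_inv, Complex.norm_natCast, inv_mul_lt_iff₀ (by positivity)]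
    simpa using hv
  have hsp : ∀ (k : ℕ), ∀ v ∈ (Vd Y : Set (E q)) ∩ ball 0 ((k + 1) * dl y),
      cp (s k v) = cp y + v ∧ dl (s k v) = dl y := by
    intro k v hv
    have h1 := itr_spec y ((Vd Y).smul_mem _ hv.1) (hn k v hv.2) (k + 1)
    refine ⟨?_, h1.1⟩
    rw [hs]
    simp only
    rw [h1.2, smul_smul, mul_inv_cancel₀ (by exact_mod_cast Nat.succ_ne_zero k), one_smul]
  have hc : ∀ k : ℕ, ContinuousOn (s k) ((Vd Y : Set (E q)) ∩ ball 0 ((k + 1) * dl y)) :=
    fun k => (continuousOn_itr y (k + 1)).comp (by fun_prop) fun v hv =>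
      ⟨(Vd Y).smul_mem _ hv.1, by simpa using hn k v hv.2⟩
  have h00 : ∀ k, s k 0 = y := fun k => by simp only [hs, smul_zero, itr_zero]
  have hu : ∀ (k m : ℕ), ∀ v ∈ Vd Y, ‖v‖ < (k + 1) * dl y → ‖v‖ < (m + 1) * dl y →
      s k v = s m v := by
    intro k m v hv h1 h2
    have h3 : ∀ w ∈ (Vd Y : Set (E q)) ∩ ball 0 (min ((k + 1) * dl y) ((m + 1) * dl y)),
        w ∈ (Vd Y : Set (E q)) ∩ ball 0 ((k + 1) * dl y) ∧
          w ∈ (Vd Y : Set (E q)) ∩ ball 0 ((m + 1) * dl y) := fun w hw =>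
      ⟨⟨hw.1, ball_subset_ball (min_le_left _ _) hw.2⟩,
        ⟨hw.1, ball_subset_ball (min_le_right _ _) hw.2⟩⟩
    refine lift_unique (convex_Vd_ball _).isPreconnected ((hc k).mono fun w hw => (h3 w hw).1)
      ((hc m).mono fun w hw => (h3 w hw).2)
      (fun w hw => by rw [(hsp k w (h3 w hw).1).1, (hsp m w (h3 w hw).2).1]) (t0 := 0)
      ⟨(Vd Y).zero_mem, mem_ball_self (by positivity)⟩ (by rw [h00, h00])
      ⟨hv, by simpa using And.intro h1 h2⟩
  have hk : ∀ v : E q, ‖v‖ < ((⌈‖v‖ / dl y⌉₊ : ℕ) + 1) * dl y := fun v => by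
    rw [← div_lt_iff₀ h0]
    exact (Nat.le_ceil _).trans_lt (lt_add_one _)
  refine ⟨fun v => s ⌈‖v‖ / dl y⌉₊ v, fun v hv => ?_, h00 _, fun v hv =>
    hsp _ v ⟨hv, by simpa using hk v⟩⟩
  have h1 : ball (0 : E q) (((⌈‖v‖ / dl y⌉₊ : ℕ) + 1) * dl y) ∈ 𝓝 v :=
    isOpen_ball.mem_nhds (by simpa using hk v)
  rw [← continuousWithinAt_inter h1]
  refine (hc _ v ⟨hv, mem_of_mem_nhds h1⟩).congr (fun w hw => ?_) rfl
  exact hu _ _ w hw.1 (hk w) (by simpa using hw.2)

theorem exists_flow : ∃ φ : E q → Y → Y, Flow φ := by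
  choose σ hc h0 hσ using exists_leaf (q := q) (Y := Y)
  have hu : ∀ (y : Y) (τ : E q → Y), ContinuousOn τ (Vd Y) → τ 0 = y →
      (∀ v ∈ Vd Y, cp (τ v) = cp y + v) → ∀ v ∈ Vd Y, σ y v = τ v := by
    intro y τ h1 h2 h3 v hv
    exact lift_unique convex_Vd.isPreconnected (hc y) h1
      (fun w hw => by rw [(hσ y w hw).1, h3 w hw]) (t0 := 0) (Vd Y).zero_mem (by rw [h0, h2]) hv
  have hsh : ∀ (y : Y) (u : E q), ‖u‖ < dl y → ∀ v ∈ Vd Y, σ (sh y u) v = sh (σ y v) u := by
    intro y u h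
    refine hu _ _ (fun w hw => ?_) (by rw [h0]) fun w hw => ?_
    · exact ContinuousAt.comp_continuousWithinAt (g := fun p : Y × E q => sh p.1 p.2)
        (f := fun w => (σ y w, u)) (continuousAt_sh₂ (by rwa [(hσ y w hw).2]))
        ((hc y w hw).prodMk continuousWithinAt_const)
    · rw [cp_sh (by rwa [(hσ y w hw).2]), cp_sh h, (hσ y w hw).1]
      abel
  refine ⟨fun v y => σ y v, fun v hv => ?_, fun v hv y => (hσ y v hv).1, fun v hv y h => ?_,
    fun v hv w hw y => ?_, fun v hv y => (hσ y v hv).2⟩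
  · rw [continuous_iff_continuousAt]
    intro y
    have h1 : ContinuousAt (fun y' : Y => sh (σ y v) (cp y' - cp y)) y := by
      refine ContinuousAt.comp (g := sh (σ y v)) ?_ (cp_cont.sub continuous_const).continuousAt
      rw [sub_self]
      exact continuousAt_sh (by rw [norm_zero]; exact dl_pos _)
    refine h1.congr ?_
    filter_upwards [eventually_eq_sh y, eventually_norm_lt y (dl_pos y)] with y' h2 h3
    rw [← hsh y _ h3 v hv, ← h2]
  · refine lift_unique (convex_Vd_ball (dl y)).isPreconnected ((hc y).mono inter_subset_left)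
      ((continuousOn_sh y).mono inter_subset_right)
      (fun w hw => by rw [(hσ y w hw.1).1, cp_sh (by simpa using hw.2)]) (t0 := 0)
      ⟨(Vd Y).zero_mem, mem_ball_self (dl_pos y)⟩ (by rw [h0, sh_zero]) ⟨hv, by simpa using h⟩
  · refine (hu (σ y w) (fun v => σ y (v + w)) ?_ (by rw [zero_add]) (fun u hu => ?_) v hv).symm
    · exact (hc y).comp (by fun_prop) fun u hu => (Vd Y).add_mem hu hw
    · rw [(hσ y _ ((Vd Y).add_mem hu hw)).1, (hσ y w hw).1]
      abel

namespace Flow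

variable {φ : E q → Y → Y}

theorem tr (hf : Flow φ) {v : E q} (hv : v ∈ Vd Y) : Tr (φ v) :=
  ⟨hf.cont v hv, ⟨v, hf.cp_eq v hv⟩, hf.dl_eq v hv⟩

theorem zero (hf : Flow φ) (y : Y) : φ 0 y = y := by
  rw [hf.small 0 (Vd Y).zero_mem y (by rw [norm_zero]; exact dl_pos y), sh_zero]

theorem neg_cancel (hf : Flow φ) {v : E q} (hv : v ∈ Vd Y) (y : Y) : φ (-v) (φ v y) = y := by
  rw [← hf.add _ ((Vd Y).neg_mem hv) _ hv, neg_add_cancel, hf.zero]



/-- joint continuity -/
theorem cont₂ (hf : Flow φ) :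
    ContinuousOn (fun p : E q × Y => φ p.1 p.2) ((Vd Y : Set (E q)) ×ˢ univ) := by
  rintro ⟨v, y⟩ ⟨hv, -⟩
  have h1 : ContinuousAt (fun p : E q × Y => φ v (sh p.2 (p.1 - v))) (v, y) := by
    refine (hf.cont v hv).continuousAt.comp ?_
    refine ContinuousAt.comp (g := fun p : Y × E q => sh p.1 p.2)
      (f := fun p : E q × Y => (p.2, p.1 - v)) ?_ (by fun_prop)
    exact continuousAt_sh₂ (by simpa using dl_pos y)
  have h2 : ∀ᶠ p : E q × Y in 𝓝 (v, y), ‖p.1 - v‖ < dl p.2 := by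
    refine ContinuousAt.eventually_lt (by fun_prop)
      ((continuous_dl.comp continuous_snd).continuousAt) ?_
    simpa using dl_pos y
  refine h1.continuousWithinAt.congr_of_eventuallyEq ?_ (by simp [sh_zero])
  filter_upwards [nhdsWithin_le_nhds h2, self_mem_nhdsWithin] with p h3 h4
  have h5 : p.1 - v ∈ Vd Y := (Vd Y).sub_mem h4.1 hv
  rw [← hf.small _ h5 _ h3, ← hf.add _ hv _ h5, add_sub_cancel]

theorem comp_cont (hf : Flow φ) {T : Type*} [TopologicalSpace T] {s : Set T} {v : T → E q}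
    {y : T → Y} (hv : ContinuousOn v s) (hy : ContinuousOn y s) (h : ∀ t ∈ s, v t ∈ Vd Y) :
    ContinuousOn (fun t => φ (v t) (y t)) s :=
  hf.cont₂.comp (hv.prodMk hy) fun t ht => ⟨h t ht, mem_univ _⟩

/-- lifts of translations commute with the flow -/
theorem map (hf : Flow φ) {f : Y → Y} (hc : Continuous f) {c : E q}
    (h : ∀ y, cp (f y) = cp y + c) {v : E q} (hv : v ∈ Vd Y) (y : Y) :
    f (φ v y) = φ v (f y) := by
  refine lift_unique convex_Vd.isPreconnected (f := fun v => f (φ v y)) (g := fun v => φ v (f y))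
    (hc.comp_continuousOn (hf.comp_cont continuousOn_id continuousOn_const fun _ h => h))
    (hf.comp_cont continuousOn_id continuousOn_const fun _ h => h) (fun w hw => ?_) (t0 := 0)
    (Vd Y).zero_mem (by simp only [hf.zero]) hv
  rw [h, hf.cp_eq w hw, hf.cp_eq w hw, h]
  abel

end Flow

/-- `Vd Y` is invariant under homeomorphisms over affine maps -/
theorem Vd_map {f f' : Y → Y} (hf : Continuous f) (hf' : Continuous f') (h1 : ∀ y, f (f' y) = y)
    (h2 : ∀ y, f' (f y) = y) {L : E q →L[ℂ] E q} {c : E q} (h : ∀ y, cp (f y) = L (cp y) + c)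
    {v : E q} (hv : v ∈ Vd Y) : L v ∈ Vd Y := by
  obtain ⟨φ, hφ⟩ := exists_flow (q := q) (Y := Y)
  have hT : ∀ w ∈ Vd Y, ∀ y, dl y ≤ dl (f (φ w (f' y))) := fun w hw y =>
    dl_le_map (f := fun y => f (φ w (f' y))) (hf.comp ((hφ.cont w hw).comp hf')) (c := L w)
      (fun y => by
        rw [h, hφ.cp_eq w hw, map_add]
        conv_rhs => rw [← h1 y, h]
        abel) y
  intro y
  filter_upwards [eventually_norm_smul_lt v (dl_pos (f' y)),
    eventually_norm_smul_lt (L v) (dl_pos y)] with ζ h3 h4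
  have hw : ζ • v ∈ Vd Y := (Vd Y).smul_mem ζ hv
  have h5 : sh y (ζ • L v) = f (φ (ζ • v) (f' y)) := by
    rw [hφ.small _ hw _ h3, map_sh hf h h3 (by rwa [h1, map_smul]), h1, map_smul]
  rw [h5]
  refine le_antisymm ?_ (hT _ hw y)
  have h6 := hT _ ((Vd Y).neg_mem hw) (f (φ (ζ • v) (f' y)))
  rwa [h2, hφ.neg_cancel hw, h1] at h6

end Crest.Agent.X261.Fib
end
private theorem rz_a23054e3c4 : type_of% @_root_.Crest.Agent.X261.Fib.itr.eq_def := @_root_.Crest.Agent.X261.Fib.itr.eq_def -- L25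
private theorem rz_63e6c95999 : type_of% @_root_.Crest.Agent.X261.Fib.itr.eq_1 := @_root_.Crest.Agent.X261.Fib.itr.eq_1 -- L25
end

-- ▼ part X261/Fib/Dich

/-!
# X261 / FIB (helper16), file Dich: the dichotomy

`Sys.dich_of : JetsStmt → S.Big ∨ ∃ V, S.Dir V`.
-/

set_option autoImplicit false
set_option linter.unusedSectionVars false

noncomputable section

open Set Metric Filter Topology

namespace Crest.Agent.X261.Fib

open Crest.Agent.R271.Ho51 Crest.Agent.R273.Reg_844 Crest.Agent.R281.Thn_280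
open Crest.Agent.R266.SCV (analyticOnNhd_of_differentiableOn)

/-- the statement of `PD.jets` -/
def JetsStmt : Prop :=
  ∀ (q : ℕ) (Y : Type) [TopologicalSpace Y] [RDom q Y] [T2Space Y] (G : Type) [Group G]
    [MulAction G Y] (_D : PD q Y G) (Ψ : Y → ℝ), Wt Ψ → (∀ y, psi y ≤ Ψ y) → ∀ (y0 : Y) (c : ℝ),
    0 < c → (∀ w, c * nsq w ≤ Levi Ψ y0 w) →
    ∃ H : Option (Fin q) → Y → ℂ, Jets y0 H ∧ ∀ j (g : G) y, H j (g • y) = H j y

variable {q : ℕ} {Y : Type} [TopologicalSpace Y] [RDom q Y] [T2Space Y]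

theorem preconn_off [PreconnectedSpace Y] {D0 : Set (E q)} (hc : IsClosed D0) (hs : STh D0) :
    IsPreconnected {y : Y | cp y ∉ D0} := by
  refine Crest.Agent.R281.Thin3_524.preconnected_of_thin (e := fun y : Y => ch y)
    (fun y => ⟨y, mem_ch y⟩) (hc.isOpen_compl.preimage cp_cont) fun y z _ => ?_
  refine (hs.dense_line z).mono fun v hv => Countable.mono ?_ hv
  rintro c ⟨h1, -, h2⟩
  simpa [(isCh_ch y).cp_symm h1] using h2

theorem finite_fibre {K : Set Y} (hK : IsCompact K) (t : E q) : (K ∩ {y | cp y = t}).Finite := by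
  refine hK.induction_on (p := fun s => (s ∩ {y | cp y = t}).Finite) (by simp)
    (fun s s' h h' => h'.subset (inter_subset_inter_left _ h))
    (fun s s' h h' => by rw [union_inter_distrib_right]; exact h.union h') fun x _ => ?_
  refine ⟨(ch x).source, mem_nhdsWithin_of_mem_nhds ((ch x).open_source.mem_nhds (mem_ch x)),
    Set.Subsingleton.finite fun y hy y' hy' => (isCh_ch x).injOn hy.1 hy'.1 ?_⟩
  rw [hy.2, hy'.2]

variable {M : Type} [TopologicalSpace M] {G : Type} [Group G] [MulAction G M] [MulAction G Y]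
  {S : Sys q M G}

namespace Env

open Sys

variable (V : Env S Y)

theorem contAt {x : M} (hx : x ∈ S.U) : ContinuousAt V.π x :=
  V.cont.continuousAt (S.op.mem_nhds hx)

theorem cont_σ {x : M} (hx : x ∈ S.U) :
    ContinuousOn (fun t => V.π (S.σ x t)) (ball (S.a x) (S.rho x)) :=
  V.cont.comp (sc_σ hx).cont (sc_σ hx).mem

theorem cp_σ {x : M} (hx : x ∈ S.U) : ∀ t ∈ ball (S.a x) (S.rho x), cp (V.π (S.σ x t)) = t :=
  fun t ht => by rw [V.cp_eq _ ((sc_σ hx).mem t ht), (sc_σ hx).eq t ht]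

theorem le_dl {x : M} (hx : x ∈ S.U) : min (S.rho x) 1 ≤ dl (V.π x) := by
  have h := adm_of_section (rho_pos hx) (V.cont_σ hx) (V.cp_σ hx)
  simp only [σ_a hx] at h
  exact min_le_dl h

include V in
theorem eqvH {g : G} (hg : g ∈ S.H) (y : Y) : cp (g • y) = cp y + S.lam g := by
  rw [V.geqv, S.LH g hg]

/-- translates of `π y` by vectors of length `< r` are values of `π` -/
def Sh (r : ℝ) (y : M) : Prop :=
  r ≤ dl (V.π y) ∧ ∀ w : E q, ‖w‖ < r → ∃ x ∈ S.U, sh (V.π y) w = V.π x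

theorem Sh.mono {r s : ℝ} {y : M} (h : V.Sh r y) (hs : s ≤ r) : V.Sh s y :=
  ⟨hs.trans h.1, fun w hw => h.2 w (hw.trans_le hs)⟩

theorem near {x : M} (hx : x ∈ S.U) : ∃ r : ℝ, 0 < r ∧ ∀ᶠ y in 𝓝 x, V.Sh r y := by
  have h0 : 0 < min (S.rho x) 1 := lt_min (rho_pos hx) one_pos
  have h1 := V.le_dl hx
  refine ⟨_, half_pos h0, ?_⟩
  filter_upwards [(V.contAt hx).eventually (eventually_eq_sh (V.π x)),
    (V.contAt hx).eventually (eventually_norm_lt (V.π x) (half_pos h0))] with y h2 h3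
  have h7 := dl_sh (y := V.π x) (w := cp (V.π y) - cp (V.π x)) (by linarith)
  rw [← h2] at h7
  refine ⟨by linarith, fun w hw => ?_⟩
  have h4 : ‖cp (V.π y) - cp (V.π x) + w‖ < min (S.rho x) 1 := (norm_add_le _ _).trans_lt (by linarith)
  have h5 := h4.trans_le (min_le_left _ _)
  refine ⟨_, (sc_σ hx).mem _ (add_mem_ball h5), ?_⟩
  have h6 := section_eq_sh (V.cont_σ hx) (V.cp_σ hx) h5 (by rw [σ_a hx]; exact h4.trans_le h1)
  rw [h6, σ_a hx, ← sh_sh (by linarith), ← h2]

theorem Sh.smul {r : ℝ} {y : M} (hy : y ∈ S.U) (h : V.Sh r y) {g : G} (hg : g ∈ S.H) :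
    V.Sh r (g • y) := by
  unfold Sh
  rw [V.smul g y hy]
  refine ⟨h.1.trans (dl_le_map (V.gcont g) (V.eqvH hg) _), fun w hw => ?_⟩
  obtain ⟨x, hx, h1⟩ := h.2 w hw
  exact ⟨g • x, S.inv g x hx, by
    rw [← map_sh' (V.gcont g) (V.eqvH hg) (hw.trans_le h.1), h1, V.smul g x hx]⟩

theorem a_smul {g : G} (hg : g ∈ S.H) (h : S.lam g = 0) (x : M) : S.a (g • x) = S.a x := by
  rw [S.eqv, S.LH g hg, h, add_zero]

theorem unif {t : E q} (ht : t ∉ S.D0) :
    ∃ r : ℝ, 0 < r ∧ ∀ y, ‖S.a y - t‖ < r → V.Sh r y := by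
  obtain ⟨ε, hε, hb⟩ := nhds_basis_closedBall.mem_iff.1 (S.closed.isOpen_compl.mem_nhds ht)
  obtain ⟨C, hC, hK⟩ := S.prop _ (isCompact_closedBall t ε)
  have h1 : ∃ r : ℝ, 0 < r ∧ ∀ y ∈ C ∩ S.a ⁻¹' closedBall t ε, V.Sh r y := by
    refine (hC.inter_right (isClosed_closedBall.preimage S.cont_a)).induction_on
      (p := fun s => ∃ r : ℝ, 0 < r ∧ ∀ y ∈ s, V.Sh r y) ⟨1, one_pos, by simp⟩ ?_ ?_ ?_
    · rintro s s' h ⟨r, hr, h2⟩
      exact ⟨r, hr, fun y hy => h2 y (h hy)⟩
    · rintro s s' ⟨r, hr, h2⟩ ⟨r', hr', h3⟩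
      exact ⟨min r r', lt_min hr hr', fun y hy => hy.elim
        (fun h => Sh.mono V (h2 y h) (min_le_left _ _))
        fun h => Sh.mono V (h3 y h) (min_le_right _ _)⟩
    · intro x hx
      obtain ⟨r, hr, h2⟩ := V.near (S.reg x (hb hx.2))
      exact ⟨_, mem_nhdsWithin_of_mem_nhds h2, r, hr, fun y hy => hy⟩
  obtain ⟨r, hr, h2⟩ := h1
  refine ⟨min r ε, lt_min hr hε, fun y hy => ?_⟩
  have h3 : S.a y ∈ closedBall t ε := by
    rw [mem_closedBall, dist_eq_norm]
    exact (hy.trans_le (min_le_right _ _)).le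
  obtain ⟨g, hg, h4, h5⟩ := hK y h3
  have h6 : S.a (g • y) ∈ closedBall t ε := by rwa [a_smul hg h4]
  have h7 := Sh.smul V (S.reg _ (hb h6)) (h2 _ ⟨h5, h6⟩) (S.H.inv_mem hg)
  rw [inv_smul_smul] at h7
  exact Sh.mono V h7 (min_le_left _ _)

theorem surj [PreconnectedSpace Y] {p : Y} (hp : cp p ∉ S.D0) : ∃ x, S.a x = cp p ∧ V.π x = p := by
  have h := (preconn_off (Y := Y) S.closed S.sth).subset_of_closure_inter_subset
    (u := {p | cp p ∉ S.D0 ∧ ∃ x ∈ S.U, V.π x = p}) ?_ ?_ ?_ hp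
  · obtain ⟨-, x, hx, rfl⟩ := h
    exact ⟨x, (V.cp_eq x hx).symm, rfl⟩
  · rw [isOpen_iff_mem_nhds]
    rintro _ ⟨h1, x, hx, rfl⟩
    obtain ⟨r, hr, h2⟩ := V.near hx
    filter_upwards [eventually_eq_sh (V.π x), eventually_norm_lt (V.π x) hr,
      cp_cont.continuousAt.eventually (S.closed.isOpen_compl.mem_nhds h1)] with y h3 h4 h5
    obtain ⟨x', hx', h6⟩ := h2.self_of_nhds.2 _ h4
    exact ⟨h5, x', hx', by rw [← h6, ← h3]⟩
  · obtain ⟨x, hx⟩ := S.ne
    obtain ⟨t, h1, h2⟩ := S.sth.dense_compl.inter_nhds_nonempty (ball_mem_nhds _ (rho_pos hx))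
    have h3 : cp (V.π (S.σ x t)) ∉ S.D0 := by rwa [V.cp_σ hx t h2]
    exact ⟨_, h3, h3, _, (sc_σ hx).mem t h2, rfl⟩
  · rintro p ⟨h1, h2⟩
    obtain ⟨r, hr, h3⟩ := V.unif h2
    obtain ⟨_, ⟨-, x, hx, rfl⟩, h4, h5, h6⟩ := ((mem_closure_iff_frequently.1 h1).and_eventually
      ((eventually_eq_sh p).and ((eventually_norm_lt p hr).and
        (eventually_norm_lt p (half_pos (dl_pos p)))))).exists
    obtain ⟨x', hx', h7⟩ := (h3 x (by rwa [← V.cp_eq x hx])).2 (-(cp (V.π x) - cp p))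
      (by rwa [norm_neg])
    refine ⟨h2, x', hx', ?_⟩
    rw [← h7]
    conv_lhs => rw [h4, cp_sh (by linarith [dl_pos p]), add_sub_cancel_left]
    exact sh_sh_neg (by linarith)

/-- the periodic domain -/
def pd [PreconnectedSpace Y] : PD q Y S.H where
  lam := fun g => S.lam g
  lam_mul := fun g h => by
    have h1 := S.aff_mul g h 0
    simp only [map_zero, zero_add, S.LH g g.2] at h1
    rw [Subgroup.coe_mul, h1, add_comm]
  cont := fun g => V.gcont g
  eqv := fun g y => V.eqvH g.2 y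
  psh := V.psh
  disc := S.disc.imp fun _ h => ⟨h.1, fun g => h.2 g g.2⟩
  coc := S.coc.imp fun _ h t => by
    obtain ⟨g, hg, h1⟩ := h t
    exact ⟨⟨g, hg⟩, h1⟩
  D0 := S.D0
  closed := S.closed
  sth := S.sth
  fin := fun t ht => by
    obtain ⟨C, hC, hK⟩ := S.prop _ (isCompact_singleton (x := t))
    have h1 : IsCompact (V.π '' (C ∩ S.a ⁻¹' {t})) :=
      (hC.inter_right (isClosed_singleton.preimage S.cont_a)).image_of_continuousOn
        (V.cont.mono fun x hx => S.reg x (by rwa [show S.a x = t from hx.2]))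
    refine ⟨_, finite_fibre h1 t, fun y hy => ?_⟩
    obtain ⟨x, h2, rfl⟩ := V.surj (p := y) (by rwa [hy])
    rw [hy] at h2
    obtain ⟨g, hg, h3, h4⟩ := hK x h2
    have hx : x ∈ S.U := S.reg x (by rwa [h2])
    refine ⟨⟨g, hg⟩, h3, ⟨g • x, ⟨h4, by rw [mem_preimage, a_smul hg h3, h2]; rfl⟩,
      V.smul g x hx⟩, ?_⟩
    change cp (g • V.π x) = t
    rw [V.eqvH hg, h3, add_zero, hy]
  low := fun t ht => by
    obtain ⟨r, hr, h1⟩ := V.unif ht
    refine ⟨r, hr, ?_⟩
    filter_upwards [ball_mem_nhds t hr, S.closed.isOpen_compl.mem_nhds ht] with s h2 h3 y hy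
    obtain ⟨x, h4, rfl⟩ := V.surj (p := y) (by rwa [hy])
    exact (h1 x (by rwa [h4, hy, ← dist_eq_norm])).1

theorem fac {F : Y → ℂ} (hF : Hol F) {x : M} (hx : x ∈ S.U) :
    S.Fac (fun y => F (V.π y)) x (F ∘ (ch (V.π x)).symm) := by
  refine ⟨analyticOnNhd_of_differentiableOn (ch _).open_target (hF _ (isCh_ch _)) _ ?_, ?_⟩
  · rw [← V.cp_eq x hx]
    exact (isCh_ch _).cp_mem (mem_ch _)
  · filter_upwards [(V.contAt hx).eventually (eventually_eq_comp (isCh_ch _) (mem_ch _) F),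
      S.op.mem_nhds hx] with y h1 h2
    rw [h1, V.cp_eq y h2]

include V in
theorem big (hJ : JetsStmt) [PreconnectedSpace Y] (h : Vd Y = ⊥) : S.Big := by
  intro x0 hx0
  obtain ⟨Ψ, c, h1, h2, h3, h4⟩ := cone V.psh h (V.π x0)
  obtain ⟨H, hH, h5⟩ := hJ q Y S.H V.pd Ψ h1 h2 _ c h3 h4
  obtain ⟨N, C, h6⟩ := hH.le
  have h7 : (ch (V.π x0)).symm (S.a x0) = V.π x0 := by rw [← V.cp_eq x0 hx0, symm_cp]
  refine ⟨fun j y => H j (V.π y), fun j => H j ∘ (ch (V.π x0)).symm, N, C,
    fun j x hx => ⟨_, V.fac (hH.hol j) hx⟩, fun j g hg x hx => ?_, fun j x hx => ?_,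
    fun j => V.fac (hH.hol j) hx0, ?_, fun j => ?_, fun j w => ?_⟩
  · simp only [V.smul g x hx]
    exact h5 j ⟨g, hg⟩ _
  · refine le_trans (mul_le_mul_of_nonneg_left ?_ (norm_nonneg _)) (h6 j (V.π x))
    exact pow_le_pow_left₀ (lt_min (rho_pos hx) one_pos).le (V.le_dl hx) N
  · simp only [Function.comp_apply, h7, hH.one]
  · simp only [Function.comp_apply, h7, hH.zero]
  · rw [← Crest.Agent.R266.SCV.fderiv_real_eq (V.fac (hH.hol _) hx0).1.differentiableAt,
      ← V.cp_eq x0 hx0]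
    exact hH.der j w

include V in
theorem dir [PreconnectedSpace Y] (h : Vd Y ≠ ⊥) : S.Dir (Vd Y) := by
  obtain ⟨φ, hφ⟩ := exists_flow (q := q) (Y := Y)
  refine ⟨h, fun g v hv => ?_, ?_, fun t ht => ?_⟩
  · exact Vd_map (V.gcont g) (V.gcont g⁻¹) (smul_inv_smul g) (inv_smul_smul g)
      (L := (S.L g : E q →L[ℂ] E q)) (V.geqv g) hv
  · obtain ⟨c, hc, h1⟩ := V.pd.rat hφ
    exact ⟨c, hc, fun g hg => h1 ⟨g, hg⟩⟩
  obtain ⟨P, hP⟩ := Submodule.ClosedComplemented.of_finiteDimensional (Vd Y)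
  obtain ⟨c, hc, h1⟩ := V.pd.low t ht
  obtain ⟨δ, hδ, h2⟩ := Metric.eventually_nhds_iff_ball.1 h1
  set Q : E q →L[ℂ] E q := ContinuousLinearMap.id ℂ (E q) - (Vd Y).subtypeL.comp P with hQ
  have hQ1 : ∀ u, Q u = u - P u := fun u => rfl
  have hQ2 : ∀ v ∈ Vd Y, Q v = 0 := fun v hv => by rw [hQ1, hP ⟨v, hv⟩, sub_self]
  have hm : 0 < min c δ := lt_min hc hδ
  refine ⟨min c δ / (‖Q‖ + 1), by positivity, fun W hW hpre hr x hx x' hx' h3 h4 f hf => ?_⟩
  have h5 : ∀ y ∈ W, ‖Q (S.a y - t)‖ < min c δ := fun y hy => by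
    obtain ⟨v, hv, h6⟩ := hr y hy
    rw [lt_div_iff₀ (by positivity)] at h6
    have h7 : Q (S.a y - t) = Q (S.a y - t - v) := by rw [map_sub _ _ v, hQ2 v hv, sub_zero]
    rw [h7]
    nlinarith [Q.le_opNorm (S.a y - t - v), norm_nonneg (S.a y - t - v)]
  have h8 : ∀ y, -(P (S.a y - t) : E q) ∈ Vd Y := fun y => (Vd Y).neg_mem (P _).2
  have h9 : ∀ y ∈ W, cp (φ (-(P (S.a y - t) : E q)) (V.π y)) = t + Q (S.a y - t) := fun y hy => by
    rw [hφ.cp_eq _ (h8 y), V.cp_eq y (hW hy), hQ1]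
    abel
  have h10 : ∀ y ∈ W, ‖-Q (S.a y - t)‖ < dl (φ (-(P (S.a y - t) : E q)) (V.π y)) := fun y hy => by
    rw [norm_neg]
    exact ((h5 y hy).trans_le (min_le_left _ _)).trans_le
      (h2 _ (add_mem_ball ((h5 y hy).trans_le (min_le_right _ _))) _ (h9 y hy))
  have hca := S.cont_a
  have h11 : ContinuousOn (fun y => φ (-(P (S.a y - t) : E q)) (V.π y)) W :=
    hφ.comp_cont (by fun_prop) (V.cont.mono hW) fun y _ => h8 y
  have h12 : ContinuousOn
      (fun y => sh (φ (-(P (S.a y - t) : E q)) (V.π y)) (-Q (S.a y - t))) W := fun y hy =>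
    ContinuousAt.comp_continuousWithinAt (g := fun p : Y × E q => sh p.1 p.2)
      (f := fun y => (φ (-(P (S.a y - t) : E q)) (V.π y), -Q (S.a y - t)))
      (continuousAt_sh₂ (h10 y hy)) ((h11 y hy).prodMk (by fun_prop))
  have h13 := lift_unique hpre h12 (continuousOn_const (c := V.π x))
    (fun y hy => by rw [cp_sh (h10 y hy), h9 y hy, V.cp_eq x (hW hx), h3, add_neg_cancel_right])
    hx (by simp [h3, hφ.zero, sh_zero]) hx'
  simp only [h4, sub_self, map_zero, ZeroMemClass.coe_zero, neg_zero, hφ.zero, sh_zero] at h13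
  obtain ⟨F, hF⟩ := V.val f hf
  rw [hF x (hW hx), hF x' (hW hx'), h13]

end Env

/-- the dichotomy -/
theorem Sys.dich_of (hJ : JetsStmt) [LocallyConnectedSpace M] (S : Sys q M G) :
    S.Big ∨ ∃ V, S.Dir V := by
  obtain ⟨Y, _, _, _, _, _, ⟨V⟩⟩ := S.exists_env
  by_cases h : Vd Y = ⊥
  · exact Or.inl (V.big hJ h)
  · exact Or.inr ⟨_, V.dir h⟩

end Crest.Agent.X261.Fib
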