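import Crest.Agent.X261.Fib.Wt
import Crest.Agent.R271.Engine_51
import Crest.Agent.R271.Montel_297

-- ▼ part X261/Fib/HrA
section

/-!
# X261 / FIB Hor (helper84), part A: maps over translations, the quotient by the kernel of the
periods, the exhaustion
-/

set_option autoImplicit false
set_option linter.unusedSectionVars false

noncomputable section

open Set Metric Filter Topology

namespace Crest.Agent.X261.Fib.Hr

open Crest.Agent.R271.Ho51 Crest.Agent.R273.Reg_844 Crest.Agent.R281.Thn_280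
open Crest.Agent.R276.NL_137
open Crest.Agent.R271.W792 (lev dsq Levi_eq_lev nS nT sm_nS lev_nS)

variable {q : ℕ} {Y : Type} [TopologicalSpace Y] [RDom q Y]

section Map

variable {Y' : Type} [TopologicalSpace Y'] [RDom q Y'] {f : Y → Y'} {c : E q}
  {V : Type*} [NormedAddCommGroup V] [NormedSpace ℝ V]

theorem germ_map (hf : Continuous f) (h : ∀ y, cp (f y) = cp y + c) (y : Y) :
    ∀ᶠ z in 𝓝 (cp y), f ((ch y).symm z) = (ch (f y)).symm (z + c) := by
  have h0 : (ch y).target ∈ 𝓝 (cp y) := (ch y).open_target.mem_nhds ((isCh_ch y).cp_mem (mem_ch y))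
  have h1 : ContinuousAt (fun z => f ((ch y).symm z)) (cp y) :=
    hf.continuousAt.comp ((ch y).symm.continuousAt ((isCh_ch y).cp_mem (mem_ch y)))
  have h2 : (ch (f y)).source ∈ 𝓝 (f ((ch y).symm (cp y))) := by
    rw [symm_cp]; exact (ch (f y)).open_source.mem_nhds (mem_ch _)
  filter_upwards [h0, h1.preimage_mem_nhds h2] with z hz h3
  have h4 := (isCh_ch (f y)).symm_cp (x := f ((ch y).symm z)) h3
  rw [h, (isCh_ch y).cp_symm hz] at h4
  exact h4.symm

theorem D_map (hf : Continuous f) (h : ∀ y, cp (f y) = cp y + c) (Φ : Y' → V) (y : Y) :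
    D (fun x => Φ (f x)) y = D Φ (f y) := by
  unfold D
  rw [h, ← fderiv_comp_add_right]
  exact Filter.EventuallyEq.fderiv_eq ((germ_map hf h y).mono fun z hz => congrArg Φ hz)

theorem Levi_map (hf : Continuous f) (h : ∀ y, cp (f y) = cp y + c) (Φ : Y' → ℝ) (y : Y)
    (w : E q) : Levi (fun x => Φ (f x)) y w = Levi Φ (f y) w := by
  have h1 : ∀ j k, Lv (fun x => Φ (f x)) y j k = Lv Φ (f y) j k := by
    intro j k
    have h2 : db k (fun x => ((Φ (f x) : ℝ) : ℂ)) = fun x => db k (fun x => ((Φ x : ℝ) : ℂ)) (f x) :=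
      funext fun x => congrArg (wb k) (D_map hf h (fun x => ((Φ x : ℝ) : ℂ)) x)
    rw [Lv, h2]
    exact congrArg (wz j) (D_map hf h _ y)
  simp only [Levi, h1]

theorem sm_of_map (hf : Continuous f) (h : ∀ y, cp (f y) = cp y + c) (hs : Function.Surjective f)
    {Φ : Y' → V} (hΦ : Sm fun x => Φ (f x)) : Sm Φ := by
  intro x
  obtain ⟨y, rfl⟩ := hs x
  have h1 : ContDiffAt ℝ (⊤ : ℕ∞) (fun z => (Φ ∘ (ch (f y)).symm) (z + c)) (cp y) :=
    (hΦ y).congr_of_eventuallyEq ((germ_map hf h y).mono fun z hz => congrArg Φ hz.symm)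
  have h2 : ContDiffAt ℝ (⊤ : ℕ∞) (fun z => (Φ ∘ (ch (f y)).symm) (z - c + c)) (cp y + c) :=
    ContDiffAt.comp (g := fun z => (Φ ∘ (ch (f y)).symm) (z + c)) (f := fun z => z - c) _
      (by simpa using h1) (by fun_prop)
  rw [h]
  simp only [sub_add_cancel] at h2
  exact h2

end Map

variable [T2Space Y]

theorem D_sh {V : Type*} [NormedAddCommGroup V] [NormedSpace ℝ V] (Φ : Y → V) (y : Y) :
    D Φ y = fderiv ℝ (fun w => Φ (sh y w)) 0 := by
  rw [D_eq (isCh_bch y) (mem_bch y)]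
  have := fderiv_comp_add_left (𝕜 := ℝ) (f := Φ ∘ (bch y).symm) (x := 0) (cp y)
  rw [add_zero] at this
  exact this.symm

theorem hol_sh {F : Y → ℂ} (hF : Hol F) (y : Y) :
    DifferentiableOn ℂ (fun w => F (sh y w)) (ball 0 (dl y)) :=
  (hF _ (isCh_bch y)).comp (f := fun w => cp y + w) (by fun_prop) fun w hw =>
    ball_bch y (add_mem_ball (by simpa using hw))

theorem hol_of_sh {F : Y → ℂ} (h : ∀ y, DifferentiableAt ℂ (fun w => F (sh y w)) 0) : Hol F := by
  intro e he z hz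
  set y := e.symm z with hy
  have h1 : cp y = z := he.cp_symm hz
  have h2 : DifferentiableAt ℂ (fun z' => F (sh y (z' - z))) z :=
    DifferentiableAt.comp (g := fun w => F (sh y w)) (f := fun z' => z' - z) z
      (by simpa using h y) (by fun_prop)
  refine (h2.congr_of_eventuallyEq ?_).differentiableWithinAt
  filter_upwards [(e.symm.continuousAt hz).eventually (eventually_eq_sh y),
    e.open_target.mem_nhds hz] with z' h3 h4
  rw [he.cp_symm h4, h1] at h3
  exact congrArg F h3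

theorem isCompact_sh {y : Y} {ρ : ℝ} (h : ρ < dl y) : IsCompact (sh y '' closedBall 0 ρ) :=
  (isCompact_closedBall _ _).image_of_continuousOn
    ((continuousOn_sh y).mono (closedBall_subset_ball h))

theorem isOpen_sh {y : Y} {ρ : ℝ} (h : ρ ≤ dl y) : IsOpen (sh y '' ball 0 ρ) := by
  have h1 := isOpen_image_section (σ := fun z => sh y (z - cp y)) (W := ball (cp y) ρ) isOpen_ball
    ((continuousOn_sh y).comp (by fun_prop) fun z hz => by
      simpa [dist_eq_norm] using (ball_subset_ball h hz))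
    (fun z hz => by
      rw [cp_sh (by simpa [dist_eq_norm] using (ball_subset_ball h hz)), add_sub_cancel])
  convert h1 using 1
  ext x
  constructor
  · rintro ⟨w, hw, rfl⟩
    exact ⟨cp y + w, add_mem_ball (by simpa using hw), by simp⟩
  · rintro ⟨z, hz, rfl⟩
    exact ⟨z - cp y, by simpa [dist_eq_norm] using hz, rfl⟩

/-! ### coordinates -/

/-- coordinate functions centred at `t` -/
def co (t : E q) (j : Fin q) (y : Y) : ℂ := cp y j - t j

theorem D_co (t : E q) (j : Fin q) (y : Y) (w : E q) : D (co t j) y w = w j := by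
  have h1 : HasFDerivAt (fun z : E q => z j - t j)
      (ContinuousLinearMap.proj (R := ℝ) (φ := fun _ : Fin q => ℂ) j) (cp y) :=
    ((ContinuousLinearMap.proj (R := ℝ) (φ := fun _ : Fin q => ℂ) j).hasFDerivAt).sub_const _
  have h2 := D_of_coord (g := fun z : E q => z j - t j) y
  rw [h1.fderiv] at h2
  exact congrArg (fun A => A w) h2

theorem hol_co (t : E q) (j : Fin q) : R271.W792.Hol (co t j : Y → ℂ) where
  sm := Sm.of_coord (g := fun z : E q => z j - t j) (by fun_prop)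
  cl x w := by rw [D_co, D_co]; rfl

theorem nS_co (t : E q) (y : Y) : nS (co t) y = nsq (cp y - t) := rfl

theorem nT_co (t : E q) (y : Y) (w : E q) : nT (co t) y w = nsq w := by
  simp only [nT, D_co]; rfl

/-- the Levi form stays positive near a point -/
theorem levi_near {Ψ : Y → ℝ} (hΨ : Sm Ψ) {y0 : Y} {c : ℝ} (hc : 0 < c)
    (hs : ∀ w, c * nsq w ≤ Levi Ψ y0 w) : ∀ᶠ y in 𝓝 y0, ∀ w, c / 2 * nsq w ≤ Levi Ψ y w := by
  have h1 : Continuous fun y => ∑ j, ∑ k, ‖Lv Ψ y j k - Lv Ψ y0 j k‖ := by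
    refine continuous_finsetSum _ fun j _ => continuous_finsetSum _ fun k _ => ?_
    exact (((hΨ.ofReal.db k).dz j).continuous.sub continuous_const).norm
  filter_upwards [h1.continuousAt.eventually (gt_mem_nhds (a := c / 2) (by simpa using hc))]
    with y hy w
  have h2 : Levi Ψ y0 w - Levi Ψ y w ≤ (∑ j, ∑ k, ‖Lv Ψ y j k - Lv Ψ y0 j k‖) * nsq w := by
    unfold Levi
    rw [← Complex.sub_re, ← Finset.sum_sub_distrib, Finset.sum_mul]
    refine (Complex.re_le_norm _).trans ((norm_sum_le _ _).trans (Finset.sum_le_sum fun j _ => ?_))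
    rw [← Finset.sum_sub_distrib, Finset.sum_mul]
    refine (norm_sum_le _ _).trans (Finset.sum_le_sum fun k _ => ?_)
    rw [← sub_mul, ← sub_mul, norm_mul, norm_mul, norm_sub_rev, RCLike.norm_conj, mul_assoc]
    refine mul_le_mul_of_nonneg_left ?_ (norm_nonneg _)
    have h3 : ∀ j, ‖w j‖ ^ 2 ≤ nsq w := fun j =>
      Finset.single_le_sum (f := fun j => ‖w j‖ ^ 2) (fun _ _ => by positivity) (Finset.mem_univ j)
    nlinarith [h3 j, h3 k, sq_nonneg (‖w j‖ - ‖w k‖)]
  nlinarith [hs w, nsq_nonneg w]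

include q in
theorem secondCountable_of_exh {ρ : Y → ℝ} (h : ∀ c, IsCompact {x | ρ x ≤ c}) :
    SecondCountableTopology Y := by
  have : SigmaCompactSpace Y := SigmaCompactSpace.of_countable
    (range fun n : ℕ => {x | ρ x ≤ n}) (countable_range _) (by rintro _ ⟨n, rfl⟩; exact h n)
    (eq_univ_of_forall fun x => by
      obtain ⟨n, hn⟩ := exists_nat_ge (ρ x)
      exact ⟨_, ⟨n, rfl⟩, hn⟩)
  let _ : ChartedSpace (E q) Y := ⟨range ch, ch, mem_ch, fun x => ⟨x, rfl⟩⟩
  exact ChartedSpace.secondCountable_of_sigmaCompact (E q) Y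

/-! ### the quotient -/

variable {G : Type} [Group G] [MulAction G Y] (P : PD q Y G)

theorem lam_one : P.lam 1 = 0 := by simpa using P.lam_mul 1 1

theorem lam_inv (g : G) : P.lam g⁻¹ = -P.lam g := by
  have h2 := P.lam_mul g⁻¹ g
  rw [inv_mul_cancel, lam_one] at h2
  exact eq_neg_of_add_eq_zero_left h2.symm

/-- orbits of the kernel of the periods -/
def st : Setoid Y where
  r y y' := ∃ g, P.lam g = 0 ∧ g • y = y'
  iseqv :=
    ⟨fun y => ⟨1, lam_one P, one_smul _ y⟩,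
     by rintro y _ ⟨g, hg, rfl⟩; exact ⟨g⁻¹, by rw [lam_inv, hg, neg_zero], inv_smul_smul g y⟩,
     by rintro y _ _ ⟨g, hg, rfl⟩ ⟨h, hh, rfl⟩
        exact ⟨h * g, by rw [P.lam_mul, hg, hh, add_zero], mul_smul h g y⟩⟩

/-- the quotient -/
def Q : Type := Quotient (st P)

instance : TopologicalSpace (Q P) := inferInstanceAs (TopologicalSpace (Quotient (st P)))

/-- the projection -/
def pr (y : Y) : Q P := Quotient.mk (st P) y

theorem pr_eq {y y' : Y} : pr P y = pr P y' ↔ ∃ g, P.lam g = 0 ∧ g • y = y' := Quotient.eq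

theorem pr_smul {g : G} (hg : P.lam g = 0) (y : Y) : pr P (g • y) = pr P y :=
  ((pr_eq P).2 ⟨g, hg, rfl⟩).symm

theorem pr_surj : Function.Surjective (pr P) := Quotient.mk_surjective

theorem pr_cont : Continuous (pr P) := continuous_quotient_mk'

theorem pr_open : IsOpenMap (pr P) := by
  intro U hU
  refine (isQuotientMap_quotient_mk' (s := st P)).isOpen_preimage.1 ?_
  have : pr P ⁻¹' (pr P '' U) = ⋃ g : {g : G // P.lam g = 0}, (fun y => g.1 • y) ⁻¹' U := by
    ext y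
    simp only [mem_preimage, mem_image, mem_iUnion]
    constructor
    · rintro ⟨u, hu, h⟩
      obtain ⟨g, hg, rfl⟩ := (pr_eq P).1 h.symm
      exact ⟨⟨g, hg⟩, hu⟩
    · rintro ⟨g, hg⟩
      exact ⟨_, hg, pr_smul P g.2 y⟩
  change IsOpen (pr P ⁻¹' (pr P '' U))
  rw [this]
  exact isOpen_iUnion fun g => hU.preimage (P.cont g.1)

/-- descent of invariant functions -/
def dn {α : Type*} (Φ : Y → α) (h : ∀ (g : G) y, P.lam g = 0 → Φ (g • y) = Φ y) : Q P → α :=
  Quotient.lift Φ (by rintro y _ ⟨g, hg, rfl⟩; exact (h g y hg).symm)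

theorem cp_inv (g : G) (y : Y) (hg : P.lam g = 0) : cp (g • y) = cp y := by
  rw [P.eqv, hg, add_zero]

theorem cont_dn_cp : Continuous (dn P cp (cp_inv P)) :=
  (cp_cont (M := Y)).quotient_lift _

instance : RDom q (Q P) where
  p := dn P cp (cp_inv P)
  hp := by
    intro x
    obtain ⟨y, rfl⟩ := pr_surj P x
    refine ⟨{ toFun := dn P cp (cp_inv P)
              invFun := fun z => pr P ((ch y).symm z)
              source := pr P '' (ch y).source
              target := (ch y).target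
              map_source' := ?_
              map_target' := fun z hz => ⟨_, (ch y).map_target hz, rfl⟩
              left_inv' := ?_
              right_inv' := fun z hz => (isCh_ch y).cp_symm hz
              open_source := pr_open P _ (ch y).open_source
              open_target := (ch y).open_target
              continuousOn_toFun := (cont_dn_cp P).continuousOn
              continuousOn_invFun := (pr_cont P).comp_continuousOn (ch y).symm.continuousOn },
      ⟨y, mem_ch y, rfl⟩, rfl⟩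
    · rintro _ ⟨u, hu, rfl⟩
      exact (isCh_ch y).cp_mem hu
    · rintro _ ⟨u, hu, rfl⟩
      exact congrArg (pr P) ((isCh_ch y).symm_cp hu)

theorem cp_pr (y : Y) : cp (pr P y) = cp y := rfl

theorem cp_pr' (y : Y) : cp (pr P y) = cp y + 0 := (add_zero _).symm

instance : T2Space (Q P) := by
  refine ⟨fun a b hab => ?_⟩
  obtain ⟨y, rfl⟩ := pr_surj P a
  obtain ⟨y', rfl⟩ := pr_surj P b
  by_cases h : cp y = cp y'
  swap
  · exact separated_by_continuous (cp_cont (M := Q P)) h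
  have h0 := dl_pos y
  have h0' := dl_pos y'
  refine ⟨pr P '' (sh y '' ball 0 (dl y / 2)), pr P '' (sh y' '' ball 0 (dl y' / 2)),
    pr_open P _ (isOpen_sh (by linarith)), pr_open P _ (isOpen_sh (by linarith)),
    ⟨y, ⟨0, mem_ball_self (by linarith), sh_zero y⟩, rfl⟩,
    ⟨y', ⟨0, mem_ball_self (by linarith), sh_zero y'⟩, rfl⟩, ?_⟩
  rw [Set.disjoint_left]
  rintro _ ⟨_, ⟨w, hw, rfl⟩, rfl⟩ ⟨_, ⟨w', hw', rfl⟩, h1⟩
  rw [mem_ball_zero_iff] at hw hw'
  obtain ⟨g, hg, h2⟩ := (pr_eq P).1 h1.symm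
  have h3 : w = w' := by
    have h4 := congrArg cp h2
    rwa [cp_inv P _ _ hg, cp_sh (by linarith), cp_sh (by linarith), h, add_right_inj] at h4
  subst h3
  rw [map_sh' (P.cont g) (P.eqv g) (by linarith)] at h2
  have h5 : sh (sh (g • y) w) (-w) = sh (sh y' w) (-w) := congrArg (fun x => sh x (-w)) h2
  rw [sh_sh_neg (by rw [(P.tr g).dl_eq]; linarith), sh_sh_neg (by linarith)] at h5
  exact hab ((pr_eq P).2 ⟨g, hg, h5⟩)



/-- compactness of the sublevel sets modulo the kernel -/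
theorem exists_compact {d : ℝ} (hd : 0 < d) (R : ℝ) :
    ∃ C : Set (Q P), IsCompact C ∧ ∀ y : Y, d ≤ dl y → ‖cp y‖ ≤ R → pr P y ∈ C := by
  obtain ⟨T, hT, hTf, hcov⟩ := (isCompact_closedBall (0 : E q) R).elim_finite_subcover_image
    (b := P.D0ᶜ) (c := fun s => ball s (d / 4)) (fun _ _ => isOpen_ball) (fun t _ => by
      obtain ⟨s, h1, h2⟩ := Metric.dense_iff.1 P.sth.dense_compl t (d / 4) (by positivity)
      exact mem_iUnion₂.2 ⟨s, h2, mem_ball_comm.1 h1⟩)
  choose! S hS hS' using P.fin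
  refine ⟨⋃ s ∈ T, ⋃ x ∈ {x ∈ S s | d / 2 ≤ dl x}, pr P '' (sh x '' closedBall 0 (d / 4)),
    hTf.isCompact_biUnion fun s hs => ((hS s (hT hs)).subset (sep_subset _ _)).isCompact_biUnion
      fun x hx => (isCompact_sh (by linarith [hx.2])).image (pr_cont P), fun y hy hR => ?_⟩
  obtain ⟨s, hs, h1⟩ := mem_iUnion₂.1 (hcov (mem_closedBall_zero_iff.2 hR))
  rw [mem_ball, dist_eq_norm, norm_sub_rev] at h1
  have h2 : ‖s - cp y‖ < dl y := by linarith
  obtain ⟨g, hg, h3⟩ := hS' s (hT hs) (sh y (s - cp y)) (by rw [cp_sh h2, add_sub_cancel])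
  have h4 := dl_sh h2
  refine mem_iUnion₂.2 ⟨s, hs, mem_iUnion₂.2 ⟨_, ⟨h3, by rw [(P.tr g).dl_eq]; linarith⟩, _,
    ⟨-(s - cp y), by rw [mem_closedBall_zero_iff, norm_neg]; exact h1.le, rfl⟩, ?_⟩⟩
  rw [← map_sh' (P.cont g) (P.eqv g) (by rw [norm_neg]; linarith), pr_smul P hg,
    sh_sh_neg (by linarith)]

variable {Ψ : Y → ℝ} (hW : Wt Ψ)

/-- the weight on the quotient -/
def wq : Q P → ℝ := dn P Ψ fun g y _ => hW.inv _ (P.tr g) y


theorem sm_wq : Sm (wq P hW) := sm_of_map (pr_cont P) (cp_pr' P) (pr_surj P) hW.sm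

theorem levi_wq (y : Y) (w : E q) : Levi (wq P hW) (pr P y) w = Levi Ψ y w :=
  (Levi_map (pr_cont P) (cp_pr' P) (wq P hW) y w).symm

include hW in
theorem exh (hp : ∀ y, psi y ≤ Ψ y) : ∃ ρ : Q P → ℝ, Sm ρ ∧ (∀ c, IsCompact {x | ρ x ≤ c}) ∧
    ∀ x w, nsq w ≤ Levi ρ x w := by
  have h1 : Sm (nS (co 0) : Q P → ℝ) := sm_nS fun j => (hol_co 0 j).sm
  refine ⟨fun x => wq P hW x + nS (co 0) x, (sm_wq P hW).add h1, fun c => ?_, fun x w => ?_⟩
  · obtain ⟨C, hC, h⟩ := exists_compact P (Real.exp_pos (-c)) (c + 1)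
    refine hC.of_isClosed_subset
      (isClosed_le ((sm_wq P hW).add h1).continuous continuous_const) fun x hx => ?_
    obtain ⟨y, rfl⟩ := pr_surj P x
    have h2 : Ψ y + nsq (cp y - 0) ≤ c := hx
    rw [sub_zero] at h2
    have h3 : ‖cp y‖ ^ 2 ≤ nsq (cp y) := by
      refine (sq_le_sq₀ (norm_nonneg _) (Real.sqrt_nonneg _)).2
        ((pi_norm_le_iff_of_nonneg (Real.sqrt_nonneg _)).2 fun j => Real.le_sqrt_of_sq_le ?_)
        |>.trans (Real.sq_sqrt (nsq_nonneg _)).le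
      exact Finset.single_le_sum (f := fun j => ‖cp y j‖ ^ 2) (fun _ _ => by positivity)
        (Finset.mem_univ j)
    refine h y (psi_le_iff.1 (by linarith [hp y, nsq_nonneg (cp y)])) ?_
    nlinarith [hW.nonneg y, sq_nonneg (‖cp y‖ - 1), sq_nonneg ‖cp y‖]
  · obtain ⟨y, rfl⟩ := pr_surj P x
    rw [Levi_add (sm_wq P hW) h1, levi_wq, Levi_eq_lev h1, lev_nS (hol_co 0), nT_co]
    linarith [hW.lev y w]

end Crest.Agent.X261.Fib.Hr
end
end

-- ▼ part X261/Fib/HrB

/-!
# X261 / FIB Hor (helper84), part B: Hörmander's theorem with poles along a separated family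
-/

set_option autoImplicit false
set_option linter.unusedSectionVars false

noncomputable section

open Set Metric Filter Topology MeasureTheory ComplexConjugate
open scoped ENNReal

namespace Crest.Agent.X261.Fib.Hr

open Crest.Agent.R271.Ho51 Crest.Agent.R273.Reg_844 Crest.Agent.R276.NL_137
open Crest.Agent.R271.W792 (lev dsq Levi_eq_lev nS nT nA lg sm_nS lev_nS sm_lg lev_comp
  lev_lg_nonneg dsq_nS nA_le)

variable {q : ℕ} {M : Type} [TopologicalSpace M] [RDom q M] [T2Space M]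

/-- volume of the unit polydisc -/
def v1 (q : ℕ) : ℝ := (volume (closedBall (0 : E q) 1)).toReal

theorem v1_pos : 0 < v1 q :=
  ENNReal.toReal_pos (measure_closedBall_pos volume _ one_pos).ne' measure_closedBall_lt_top.ne

theorem vol_closedBall (z : E q) {ρ : ℝ} (h : 0 ≤ ρ) :
    volume (closedBall z ρ) = ENNReal.ofReal (ρ ^ (2 * q) * v1 q) := by
  have h1 : Module.finrank ℝ (E q) = 2 * q := by
    rw [Module.finrank_pi_fintype]
    simp [Complex.finrank_real_complex, mul_comm]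
  rw [Measure.addHaar_closedBall' volume z h, h1, ENNReal.ofReal_mul (by positivity), v1,
    ENNReal.ofReal_toReal measure_closedBall_lt_top.ne]

/-- sub-mean value inequality -/
theorem submean [MeasurableSpace M] [BorelSpace M] {μ : Measure M} (hμ : IsLeb μ) {y : M}
    {ρ ρ' : ℝ} (h0 : 0 ≤ ρ) (hρ : ρ < ρ') (hρ' : ρ' ≤ dl y) {u : M → ℂ} (huc : Continuous u)
    (hu : DifferentiableOn ℂ (fun w => u (sh y w)) (ball 0 ρ')) {W : M → ℝ≥0∞} {c : ℝ}
    (hc : 0 ≤ c) {S : Set M} (hS : ∀ w, ‖w‖ ≤ ρ → sh y w ∈ S ∧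
      ENNReal.ofReal (c * ‖u (sh y w)‖ ^ 2) ≤ W (sh y w)) :
    ENNReal.ofReal (ρ ^ (2 * q) * v1 q * (c * ‖u y‖ ^ 2)) ≤ ∫⁻ x in S, W x ∂μ := by
  set A := sh y '' closedBall 0 ρ with hA
  have hAm : MeasurableSet A := (isCompact_sh (hρ.trans_le hρ')).measurableSet
  have hf : Measurable fun x => ENNReal.ofReal (c * ‖u x‖ ^ 2) :=
    ENNReal.measurable_ofReal.comp (by fun_prop : Continuous fun x => c * ‖u x‖ ^ 2).measurable
  have he : ∀ a : ℂ, ENNReal.ofReal (c * ‖a‖ ^ 2) = ENNReal.ofReal c * ‖a‖ₑ ^ 2 := fun a => by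
    rw [ENNReal.ofReal_mul hc, ENNReal.ofReal_pow (norm_nonneg _), ofReal_norm]
  have h1 := R271.Montel297.volume_mul_enorm_sq_le (f := fun z => u (sh y (z - cp y)))
    (x := cp y) (r := ρ) (D := ball (cp y) ρ') isOpen_ball
    (hu.comp (f := fun z => z - cp y) (by fun_prop) fun z hz => by simpa [dist_eq_norm] using hz)
    (closedBall_subset_ball hρ)
  simp only [sub_self, sh_zero] at h1
  calc ENNReal.ofReal (ρ ^ (2 * q) * v1 q * (c * ‖u y‖ ^ 2))
      = ENNReal.ofReal c * (volume (closedBall (cp y) ρ) * ‖u y‖ₑ ^ 2) := by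
        rw [ENNReal.ofReal_mul (mul_nonneg (by positivity) v1_pos.le), he, vol_closedBall _ h0]
        ring
    _ ≤ ENNReal.ofReal c * ∫⁻ z in closedBall (cp y) ρ, ‖u (sh y (z - cp y))‖ₑ ^ 2 := by gcongr
    _ = ∫⁻ z in closedBall (cp y) ρ,
          A.indicator (fun x => ENNReal.ofReal (c * ‖u x‖ ^ 2)) ((bch y).symm z) := by
        rw [← lintegral_const_mul' _ _ ENNReal.ofReal_ne_top]
        refine setLIntegral_congr_fun measurableSet_closedBall fun z hz => ?_
        have h2 : (bch y).symm z = sh y (z - cp y) := by rw [sh, add_sub_cancel]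
        rw [h2, indicator_of_mem (show sh y (z - cp y) ∈ A from
          ⟨_, by simpa [dist_eq_norm] using hz, rfl⟩), he]
    _ ≤ ∫⁻ z in (bch y).target,
          A.indicator (fun x => ENNReal.ofReal (c * ‖u x‖ ^ 2)) ((bch y).symm z) :=
        lintegral_mono_set ((closedBall_subset_ball (hρ.trans_le hρ')).trans (ball_bch y))
    _ = ∫⁻ x in (bch y).source, A.indicator (fun x => ENNReal.ofReal (c * ‖u x‖ ^ 2)) x ∂μ :=
        (lintegral_chart hμ (isCh_bch y) (hf.indicator hAm).aemeasurable).symm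
    _ ≤ ∫⁻ x, A.indicator (fun x => ENNReal.ofReal (c * ‖u x‖ ^ 2)) x ∂μ :=
        lintegral_mono' Measure.restrict_le_self le_rfl
    _ = ∫⁻ x in A, ENNReal.ofReal (c * ‖u x‖ ^ 2) ∂μ := lintegral_indicator hAm _
    _ ≤ ∫⁻ x in A, W x ∂μ := setLIntegral_mono' hAm (by
        rintro _ ⟨w, hw, rfl⟩
        exact (hS w (mem_closedBall_zero_iff.1 hw)).2)
    _ ≤ ∫⁻ x in S, W x ∂μ := lintegral_mono_set (by
        rintro _ ⟨w, hw, rfl⟩
        exact (hS w (mem_closedBall_zero_iff.1 hw)).1)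

/-! ### separated families of sheets -/

variable {ι : Type}

/-- a separated family of sheets of radius `r` -/
structure Shs (x : ι → M) (r : ℝ) : Prop where
  pos : 0 < r
  le : ∀ l, r ≤ dl (x l)
  sep : ∀ l l', l ≠ l' → 2 * r ≤ ‖cp (x l) - cp (x l')‖

open Classical in
/-- gluing of functions supported on the sheets -/
def gl {V : Type*} [Zero V] (x : ι → M) (r : ℝ) (p : ι → E q → V) (y : M) : V :=
  if h : ∃ l, y ∈ sh (x l) '' ball 0 r then p h.choose (cp y - cp (x h.choose)) else 0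

variable {x : ι → M} {r : ℝ}

theorem Shs.cp_sub (h : Shs x r) (l : ι) {v : E q} (hv : ‖v‖ < r) :
    cp (sh (x l) v) - cp (x l) = v := by
  rw [cp_sh (hv.trans_le (h.le l)), add_sub_cancel_left]

theorem Shs.eq_of_lt (h : Shs x r) {l l' : ι} {t : E q} (h1 : ‖t - cp (x l)‖ < r)
    (h2 : ‖t - cp (x l')‖ < r) : l = l' := by
  by_contra hne
  have h3 := h.sep l l' hne
  have h4 := norm_sub_le_norm_sub_add_norm_sub (cp (x l)) t (cp (x l'))
  rw [norm_sub_rev (cp (x l)) t] at h4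
  linarith

theorem Shs.norm_lt (h : Shs x r) {l : ι} {y : M} (hy : y ∈ sh (x l) '' ball 0 r) :
    ‖cp y - cp (x l)‖ < r := by
  obtain ⟨v, hv, rfl⟩ := hy
  rw [mem_ball_zero_iff] at hv
  rwa [h.cp_sub l hv]

theorem Shs.gl_of_mem (h : Shs x r) {V : Type*} [Zero V] (p : ι → E q → V) {l : ι} {y : M}
    (hy : y ∈ sh (x l) '' ball 0 r) : gl x r p y = p l (cp y - cp (x l)) := by
  have h1 : ∃ l, y ∈ sh (x l) '' ball 0 r := ⟨l, hy⟩
  rw [gl, dif_pos h1, h.eq_of_lt (h.norm_lt h1.choose_spec) (h.norm_lt hy)]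

theorem Shs.gl_sh (h : Shs x r) {V : Type*} [Zero V] (p : ι → E q → V) (l : ι) {v : E q}
    (hv : ‖v‖ < r) : gl x r p (sh (x l) v) = p l v := by
  rw [h.gl_of_mem p ⟨v, mem_ball_zero_iff.2 hv, rfl⟩, h.cp_sub l hv]

theorem Shs.gl_near (h : Shs x r) {V : Type*} [Zero V] (p : ι → E q → V) {l : ι} {y : M}
    (hy : y ∈ sh (x l) '' ball 0 r) : gl x r p =ᶠ[𝓝 y] fun y' => p l (cp y' - cp (x l)) := by
  filter_upwards [(isOpen_sh (h.le l)).mem_nhds hy] with y' hy'
  exact h.gl_of_mem p hy'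

theorem Shs.gl_off (h : Shs x r) {V : Type*} [Zero V] {p : ι → E q → V}
    (hp : ∀ l v, r / 2 ≤ ‖v‖ → p l v = 0) {y : M} (hy : ∀ l, y ∉ sh (x l) '' ball 0 r) :
    gl x r p =ᶠ[𝓝 y] fun _ => 0 := by
  have hr := h.pos
  have key : ∀ᶠ y' in 𝓝 y, ∀ l, y' ∈ sh (x l) '' ball 0 r → r / 2 ≤ ‖cp y' - cp (x l)‖ := by
    by_cases h1 : ∃ l, ‖cp y - cp (x l)‖ < r
    · obtain ⟨l, hl⟩ := h1
      have h2 : IsClosed (sh (x l) '' closedBall 0 (r / 2)) :=
        (isCompact_sh (by linarith [h.le l])).isClosed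
      have h3 : y ∉ sh (x l) '' closedBall 0 (r / 2) := fun h3 =>
        hy l (image_mono (closedBall_subset_ball (by linarith)) h3)
      have h4 : ∀ᶠ y' in 𝓝 y, ‖cp y' - cp (x l)‖ < r :=
        ((cp_cont (M := M)).sub continuous_const).norm.continuousAt.eventually (gt_mem_nhds hl)
      filter_upwards [h2.isOpen_compl.mem_nhds h3, h4] with y' h5 h6 l' h7
      obtain rfl := h.eq_of_lt h6 (h.norm_lt h7)
      obtain ⟨v, hv, rfl⟩ := h7
      rw [h.cp_sub l (mem_ball_zero_iff.1 hv)]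
      by_contra h8
      exact h5 ⟨v, mem_closedBall_zero_iff.2 (not_le.1 h8).le, rfl⟩
    · push Not at h1
      filter_upwards [eventually_norm_lt y (half_pos hr)] with y' h2 l _
      have h4 := norm_sub_le_norm_sub_add_norm_sub (cp y) (cp y') (cp (x l))
      rw [norm_sub_rev (cp y) (cp y')] at h4
      linarith [h1 l]
  filter_upwards [key] with y' hy'
  by_cases h1 : ∃ l, y' ∈ sh (x l) '' ball 0 r
  · obtain ⟨l, hl⟩ := h1
    rw [h.gl_of_mem p hl, hp l _ (hy' l hl)]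
  · rw [gl, dif_neg h1]

theorem Shs.sm_gl (h : Shs x r) {V : Type*} [NormedAddCommGroup V] [NormedSpace ℝ V]
    {p : ι → E q → V} (hp : ∀ l v, r / 2 ≤ ‖v‖ → p l v = 0)
    (hs : ∀ l, ContDiff ℝ (⊤ : ℕ∞) (p l)) : Sm (gl x r p) := by
  refine Sm.of_locally fun y => ?_
  by_cases h1 : ∃ l, y ∈ sh (x l) '' ball 0 r
  · obtain ⟨l, hl⟩ := h1
    exact ⟨_, Sm.of_coord (g := fun z => p l (z - cp (x l))) ((hs l).comp (by fun_prop)),
      h.gl_near p hl⟩
  · push Not at h1
    exact ⟨_, Sm.const 0, h.gl_off hp h1⟩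

/-! ### the pole -/

/-- the truncated logarithmic pole -/
def pk (a ε : ℝ) (v : E q) : ℝ := -SM (a - Real.log (nsq v + ε))

theorem pk_nonpos (a ε : ℝ) (v : E q) : pk a ε v ≤ 0 := neg_nonpos.2 (SM_nonneg _)

theorem pk_mono (a : ℝ) {ε ε' : ℝ} (h0 : 0 < ε) (h : ε ≤ ε') (v : E q) : pk a ε v ≤ pk a ε' v :=
  neg_le_neg (SM_mono (sub_le_sub_left
    (Real.log_le_log (by linarith [nsq_nonneg v]) (by linarith)) a))

theorem pk_zero {a ε : ℝ} (h0 : 0 < ε) {v : E q} (h : Real.exp (a + 1) ≤ ‖v‖ ^ 2) :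
    pk a ε v = 0 := by
  have h1 := Real.log_le_log (Real.exp_pos _)
    (show Real.exp (a + 1) ≤ nsq v + ε by linarith [norm_sq_le_nsq v])
  rw [Real.log_exp] at h1
  rw [pk, SM_zero (by linarith), neg_zero]

theorem pk_le {a ε s : ℝ} (h0 : 0 < ε) {v : E q} (h : nsq v + ε ≤ s) (hs : s ≤ Real.exp (a - 1)) :
    pk a ε v ≤ Real.log s - a := by
  have h1 : 0 < nsq v + ε := by linarith [nsq_nonneg v]
  have h2 := Real.log_le_log (h1.trans_le h) hs
  rw [Real.log_exp] at h2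
  have h3 := Real.log_le_log h1 h
  rw [pk, SM_id (by linarith)]
  linarith

theorem contDiff_pk (a : ℝ) {ε : ℝ} (h0 : 0 < ε) : ContDiff ℝ (⊤ : ℕ∞) (pk a ε : E q → ℝ) := by
  have h1 : ContDiff ℝ (⊤ : ℕ∞) (nsq : E q → ℝ) :=
    ContDiff.sum fun j _ => ContDiff.norm_sq ℂ (by fun_prop)
  exact (SM_contDiff.comp (contDiff_const.sub ((h1.add contDiff_const).log
    fun v => by linarith [nsq_nonneg v]))).neg

theorem exists_ss : ∃ C : ℝ, 0 ≤ C ∧ ∀ t, deriv ss t ≤ C ∧ (1 < t → deriv ss t = 0) := by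
  have hc : Continuous (deriv ss) := ss_contDiff.continuous_deriv (by simp)
  obtain ⟨C, hC⟩ := (isCompact_Icc (a := (-1 : ℝ)) (b := 1)).bddAbove_image hc.continuousOn
  have h1 : ∀ t, 1 < t → deriv ss t = 0 := fun t ht => by
    have : ss =ᶠ[𝓝 t] fun _ => 1 := (lt_mem_nhds ht).mono fun s hs => ss_one (le_of_lt hs)
    rw [this.deriv_eq, deriv_const]
  have h2 : ∀ t, t < -1 → deriv ss t = 0 := fun t ht => by
    have : ss =ᶠ[𝓝 t] fun _ => 0 := (gt_mem_nhds ht).mono fun s hs => ss_zero (le_of_lt hs)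
    rw [this.deriv_eq, deriv_const]
  refine ⟨max C 0, le_max_right _ _, fun t => ⟨?_, h1 t⟩⟩
  by_cases h3 : 1 < t
  · rw [h1 t h3]; exact le_max_right _ _
  by_cases h4 : t < -1
  · rw [h2 t h4]; exact le_max_right _ _
  exact (hC ⟨t, ⟨not_lt.1 h4, not_lt.1 h3⟩, rfl⟩).trans (le_max_left _ _)

theorem levi_pk (a : ℝ) : ∃ B : ℝ, 0 ≤ B ∧ ∀ ε : ℝ, 0 < ε → ∀ (t : E q) (y : M) (w : E q),
    -(B * nsq w) ≤ Levi (fun y' => pk a ε (cp y' - t)) y w := by
  obtain ⟨C, hC0, hC⟩ := exists_ss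
  refine ⟨C * Real.exp (1 - a), by positivity, fun ε hε t y w => ?_⟩
  have hp : ∀ x : M, 0 < nS (co t) x + ε := fun x => by
    rw [nS_co]; linarith [nsq_nonneg (cp x - t)]
  have hu : Sm (lg (co t) ε : M → ℝ) := sm_lg (fun j => (hol_co t j).sm) hp
  have h1 : Sm fun y' : M => pk a ε (cp y' - t) :=
    Sm.of_coord (g := fun z => pk a ε (z - t)) ((contDiff_pk a hε).comp (by fun_prop))
  have h2 : ∀ s, HasDerivAt (fun s => -SM (a - s)) (ss (a - s)) s := fun s =>
    (((SM_hasDerivAt (a - s)).comp s ((hasDerivAt_id s).const_sub a)).neg).congr_deriv (by ring)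
  have h3 : ∀ s, HasDerivAt (fun s => ss (a - s)) (-deriv ss (a - s)) s := fun s =>
    ((ss_contDiff.differentiable (by simp) (a - s)).hasDerivAt.comp s
      ((hasDerivAt_id s).const_sub a)).congr_deriv (by ring)
  have h4 := lev_comp hu y (Eventually.of_forall h2) (h3 _) w
    (Sm.comp (g := fun s => ss (a - s)) (ss_contDiff.comp (by fun_prop)) hu)
  rw [Levi_eq_lev h1]
  change _ ≤ lev (fun y' => -SM (a - lg (co t) ε y')) y w
  rw [h4]
  have h5 := mul_nonneg (ss_nonneg (a - lg (co t) ε y)) (lev_lg_nonneg (hol_co t) hε.le hp y w)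
  have h6 : dsq (lg (co t) ε) y w ≤ nsq w / (nS (co t) y + ε) := by
    have h7 : ∀ v, D (lg (co t) ε : M → ℝ) y v = (nS (co t) y + ε)⁻¹ * D (nS (co t)) y v :=
      fun v => D_comp_real (g := fun s => Real.log (s + ε)) (sm_nS fun j => (hol_co t j).sm) y
        (by simpa using ((hasDerivAt_id' (nS (co t) y)).add_const ε).log (hp y).ne') v
    have h8 : dsq (lg (co t) ε) y w = (nS (co t) y + ε)⁻¹ ^ 2 * dsq (nS (co t)) y w := by
      unfold dsq
      rw [h7, h7]; ring
    have h9 := nA_le (co t) y w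
    rw [nT_co] at h9
    rw [h8, dsq_nS (hol_co t), le_div_iff₀ (hp y)]
    have h10 := hp y
    have h11 : (nS (co t) y + ε)⁻¹ ^ 2 * ‖nA (co t) y w‖ ^ 2 * (nS (co t) y + ε) =
        ‖nA (co t) y w‖ ^ 2 / (nS (co t) y + ε) := by field_simp
    rw [h11, div_le_iff₀ h10]
    nlinarith [nsq_nonneg w]
  have h7 : deriv ss (a - lg (co t) ε y) * dsq (lg (co t) ε) y w ≤ C * Real.exp (1 - a) * nsq w := by
    by_cases h8 : 1 < a - lg (co t) ε y
    · rw [(hC _).2 h8, zero_mul]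
      exact mul_nonneg (by positivity) (nsq_nonneg w)
    · have h9 : (nS (co t) y + ε)⁻¹ ≤ Real.exp (1 - a) := by
        rw [← Real.exp_log (hp y), ← Real.exp_neg]
        exact Real.exp_le_exp.2 (by unfold lg at h8; linarith)
      rw [mul_assoc]
      refine mul_le_mul (hC _).1 (h6.trans ?_) (R271.W792.dsq_nonneg _ _ _) hC0
      rw [div_eq_inv_mul]
      exact mul_le_mul_of_nonneg_right h9 (nsq_nonneg w)
  linarith

theorem db_eq_zero {F : M → ℂ} {y : M} (h : DifferentiableAt ℂ (fun w => F (sh y w)) 0)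
    (j : Fin q) : db j F y = 0 := by
  have e : (Pi.single j Complex.I : E q) = Complex.I • Pi.single j 1 := by
    rw [← Pi.single_smul', smul_eq_mul, mul_one]
  rw [db, D_sh, h.hasFDerivAt.restrictScalars ℝ |>.fderiv, wb, e]
  simp only [ContinuousLinearMap.coe_restrictScalars', map_smul, smul_eq_mul]
  rw [← mul_assoc, Complex.I_mul_I]
  ring

/-- second order vanishing from the quartic bound -/
theorem jet_zero {u : E q → ℂ} {C ε0 : ℝ} (h0 : 0 < ε0)
    (h : ∀ ε ∈ Ioo 0 ε0, ∀ v, ‖v‖ ≤ ε → ‖u v‖ ^ 2 ≤ C * ε ^ 4) :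
    u 0 = 0 ∧ HasFDerivAt u (0 : E q →L[ℂ] ℂ) 0 := by
  have h1 : ∀ ε ∈ Ioo 0 ε0, ∀ v, ‖v‖ ≤ ε → ‖u v‖ ≤ Real.sqrt C * ε ^ 2 := fun ε hε v hv => by
    refine (Real.le_sqrt_of_sq_le (h ε hε v hv)).trans (le_of_eq ?_)
    rw [Real.sqrt_mul' _ (by positivity), show ε ^ 4 = (ε ^ 2) ^ 2 by ring,
      Real.sqrt_sq (by positivity)]
  have h2 : u 0 = 0 := by
    have h3 : Tendsto (fun ε : ℝ => Real.sqrt C * ε ^ 2) (𝓝[>] 0) (𝓝 0) := by
      refine Tendsto.mono_left ?_ nhdsWithin_le_nhds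
      simpa using (by fun_prop : Continuous fun ε : ℝ => Real.sqrt C * ε ^ 2).tendsto 0
    refine norm_le_zero_iff.1 (ge_of_tendsto h3 ?_)
    filter_upwards [Ioo_mem_nhdsGT h0] with ε hε
    exact h1 ε hε 0 (by simpa using hε.1.le)
  refine ⟨h2, ?_⟩
  rw [hasFDerivAt_iff_isLittleO_nhds_zero]
  refine Asymptotics.IsBigO.trans_isLittleO (g := fun v : E q => ‖v‖ ^ 2) ?_
    (Asymptotics.isLittleO_norm_pow_id one_lt_two)
  refine Asymptotics.IsBigO.of_bound (Real.sqrt C) ?_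
  filter_upwards [ball_mem_nhds (0 : E q) h0] with v hv
  simp only [zero_add, h2, sub_zero, _root_.zero_apply, norm_pow, norm_norm]
  rcases eq_or_ne v 0 with rfl | hv0
  · simp [h2]
  · exact h1 _ ⟨norm_pos_iff.2 hv0, mem_ball_zero_iff.1 hv⟩ v le_rfl

end Crest.Agent.X261.Fib.Hr
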